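import Vale.Agent.P266.Alg.Defs

/-!
P266: closure properties of algebraic series.
-/

noncomputable section

open Finset
open scoped Polynomial

namespace Vale.Agent.P266.Alg

variable {T : Type} [CommRing T] [Algebra ℂ T] {d : ℕ} (base : Fin d → T) (ev : T →ₐ[ℂ] ℂ)

/-- A square system on an arbitrary finite index type. -/
def SysOn {ι : Type} [Fintype ι] [DecidableEq ι] (F : ι → MvPolynomial (Fin d ⊕ ι) ℂ)
    (v : ι → T) : Prop :=
  (∀ l, MvPolynomial.aeval (Sum.elim base v) (F l) = 0) ∧
    (Matrix.of fun l m => ev (MvPolynomial.aeval (Sum.elim base v)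
      (MvPolynomial.pderiv (Sum.inr m) (F l)))).det ≠ 0

/-- A family occurs among the components of one system. -/
def InSys {σ : Type} (s : σ → T) : Prop :=
  ∃ (n : ℕ) (F : Fin n → MvPolynomial (Fin d ⊕ Fin n) ℂ) (v : Fin n → T),
    IsSys base ev F v ∧ ∀ j, ∃ i, v i = s j

variable {base ev}

omit [CommRing T] [Algebra ℂ T] in
lemma sum_map_comp {ι κ : Type} (f : ι → κ) (b : Fin d → T) (v : κ → T) :
    Sum.elim b v ∘ Sum.map id f = Sum.elim b (v ∘ f) := by
  funext t; cases t <;> rfl

lemma aeval_sumMap {ι κ : Type} (f : ι → κ) (v : κ → T) (p : MvPolynomial (Fin d ⊕ ι) ℂ) :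
    MvPolynomial.aeval (Sum.elim base v) (MvPolynomial.rename (Sum.map id f) p) =
      MvPolynomial.aeval (Sum.elim base (v ∘ f)) p := by
  rw [MvPolynomial.aeval_rename, sum_map_comp]

lemma inr_map_injective {ι κ : Type} {f : ι → κ} (hf : Function.Injective f) :
    Function.Injective (Sum.map id f : Fin d ⊕ ι → Fin d ⊕ κ) :=
  Function.injective_id.sumMap hf

lemma pderiv_sumMap {ι κ : Type} {f : ι → κ} (hf : Function.Injective f) (m : ι)
    (p : MvPolynomial (Fin d ⊕ ι) ℂ) :
    MvPolynomial.pderiv (Sum.inr (f m)) (MvPolynomial.rename (Sum.map id f) p) =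
      MvPolynomial.rename (Sum.map id f) (MvPolynomial.pderiv (Sum.inr m) p) :=
  MvPolynomial.pderiv_rename (inr_map_injective hf) (Sum.inr m) p

lemma pderiv_sumMap_ne {ι κ : Type} {f : ι → κ} {m : κ} (hm : ∀ i, f i ≠ m)
    (p : MvPolynomial (Fin d ⊕ ι) ℂ) :
    MvPolynomial.pderiv (Sum.inr m) (MvPolynomial.rename (Sum.map id f) p) = 0 := by
  classical
  induction p using MvPolynomial.induction_on with
  | C a => simp
  | add p q hp hq => simp [hp, hq]
  | mul_X p a h =>
    have hne : Sum.map id f a ≠ (Sum.inr m : Fin d ⊕ κ) := by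
      cases a with
      | inl a => simp
      | inr a => simpa using hm a
    simp [Derivation.leibniz, h, MvPolynomial.pderiv_X_of_ne hne]

lemma SysOn.inSys {ι σ : Type} [Fintype ι] [DecidableEq ι] {F : ι → MvPolynomial (Fin d ⊕ ι) ℂ}
    {v : ι → T} (h : SysOn base ev F v) {s : σ → T} (hs : ∀ j, ∃ i, v i = s j) :
    InSys base ev s := by
  let e := Fintype.equivFin ι
  refine ⟨Fintype.card ι, fun l => MvPolynomial.rename (Sum.map id e) (F (e.symm l)),
    v ∘ e.symm, ⟨fun l => ?_, ?_⟩, fun j => ?_⟩
  · rw [aeval_sumMap, Function.comp_assoc, Equiv.symm_comp_self, Function.comp_id]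
    exact h.1 _
  · have hm : (Matrix.of fun l m => ev (MvPolynomial.aeval (Sum.elim base (v ∘ e.symm))
        (MvPolynomial.pderiv (Sum.inr m) (MvPolynomial.rename (Sum.map id e) (F (e.symm l)))))) =
        (Matrix.of fun l m => ev (MvPolynomial.aeval (Sum.elim base v)
          (MvPolynomial.pderiv (Sum.inr m) (F l)))).submatrix e.symm e.symm := by
      ext l m
      obtain ⟨m', rfl⟩ := e.surjective m
      simp [pderiv_sumMap e.injective, aeval_sumMap, Function.comp_assoc]
    rw [hm, Matrix.det_submatrix_equiv_self]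
    exact h.2
  · obtain ⟨i, hi⟩ := hs j
    exact ⟨e i, by simp [hi]⟩

lemma InSys.alg {σ : Type} {s : σ → T} (h : InSys base ev s) (j : σ) :
    IsAlgOver base ev (s j) := by
  obtain ⟨n, F, v, hF, hs⟩ := h
  obtain ⟨i, hi⟩ := hs j
  exact ⟨n, F, v, i, hF, hi⟩

lemma inSys_empty {σ : Type} [IsEmpty σ] (s : σ → T) : InSys base ev s :=
  ⟨0, Fin.elim0, Fin.elim0, ⟨fun l => l.elim0, by simp⟩, isEmptyElim⟩

lemma InSys.union {σ τ : Type} {s : σ → T} {t : τ → T} (hs : InSys base ev s)
    (ht : InSys base ev t) : InSys base ev (Sum.elim s t) := by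
  obtain ⟨n, F, v, hF, hs⟩ := hs
  obtain ⟨k, G, u, hG, ht⟩ := ht
  refine SysOn.inSys (ι := Fin n ⊕ Fin k) (v := Sum.elim v u)
    (F := Sum.elim (fun l => MvPolynomial.rename (Sum.map id Sum.inl) (F l))
      fun l => MvPolynomial.rename (Sum.map id Sum.inr) (G l)) ⟨fun l => ?_, ?_⟩ ?_
  · cases l with
    | inl l => rw [Sum.elim_inl, aeval_sumMap, Sum.elim_comp_inl]; exact hF.1 l
    | inr l => rw [Sum.elim_inr, aeval_sumMap, Sum.elim_comp_inr]; exact hG.1 l
  · have hm : (Matrix.of fun l m => ev (MvPolynomial.aeval (Sum.elim base (Sum.elim v u))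
        (MvPolynomial.pderiv (Sum.inr m)
          (Sum.elim (fun l => MvPolynomial.rename (Sum.map id Sum.inl) (F l))
            (fun l => MvPolynomial.rename (Sum.map id Sum.inr) (G l)) l)))) =
        Matrix.fromBlocks (Matrix.of fun l m => ev (MvPolynomial.aeval (Sum.elim base v)
          (MvPolynomial.pderiv (Sum.inr m) (F l)))) 0 0
        (Matrix.of fun l m => ev (MvPolynomial.aeval (Sum.elim base u)
          (MvPolynomial.pderiv (Sum.inr m) (G l)))) := by
      ext l m
      cases l <;> cases m <;>
        simp [pderiv_sumMap Sum.inl_injective, pderiv_sumMap Sum.inr_injective,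
          pderiv_sumMap_ne, aeval_sumMap]
    rw [hm, Matrix.det_fromBlocks_zero₁₂]
    exact mul_ne_zero hF.2 hG.2
  · rintro (j | j)
    · obtain ⟨i, hi⟩ := hs j; exact ⟨Sum.inl i, hi⟩
    · obtain ⟨i, hi⟩ := ht j; exact ⟨Sum.inr i, hi⟩

/-- Append one equation with a simple root. -/
lemma InSys.extend {σ : Type} {s : σ → T} (hs : InSys base ev s)
    (g : MvPolynomial (Fin d ⊕ Option σ) ℂ) (y : T)
    (h0 : MvPolynomial.aeval (Sum.elim base fun o => o.elim y s) g = 0)
    (h1 : ev (MvPolynomial.aeval (Sum.elim base fun o => o.elim y s)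
      (MvPolynomial.pderiv (Sum.inr none) g)) ≠ 0) :
    InSys base ev (fun o : Option σ => o.elim y s) := by
  obtain ⟨n, F, v, hF, hs⟩ := hs
  choose i hi using hs
  let f : Option σ → Fin n ⊕ Unit := fun o => o.elim (Sum.inr ()) fun j => Sum.inl (i j)
  have hf : (Sum.elim v fun _ => y) ∘ f = fun o : Option σ => o.elim y s := by
    funext o; cases o <;> simp [f, hi]
  have hnone : MvPolynomial.pderiv (Sum.inr (Sum.inr ()))
      (MvPolynomial.rename (Sum.map id f) g) =
      MvPolynomial.rename (Sum.map id f) (MvPolynomial.pderiv (Sum.inr none) g) := by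
    classical
    clear h0 h1
    induction g using MvPolynomial.induction_on with
    | C a => simp
    | add p q hp hq => simp [hp, hq]
    | mul_X p a h =>
      rcases a with a | _ | a <;>
        simp [Derivation.leibniz, h, MvPolynomial.pderiv_X, f]
  refine SysOn.inSys (ι := Fin n ⊕ Unit) (v := Sum.elim v fun _ => y)
    (F := Sum.elim (fun l => MvPolynomial.rename (Sum.map id Sum.inl) (F l))
      fun _ => MvPolynomial.rename (Sum.map id f) g) ⟨fun l => ?_, ?_⟩ ?_
  · cases l with
    | inl l => rw [Sum.elim_inl, aeval_sumMap, Sum.elim_comp_inl]; exact hF.1 l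
    | inr l => rw [Sum.elim_inr, aeval_sumMap, hf]; exact h0
  · have hm : (Matrix.of fun l m => ev (MvPolynomial.aeval (Sum.elim base (Sum.elim v fun _ => y))
        (MvPolynomial.pderiv (Sum.inr m)
          (Sum.elim (fun l => MvPolynomial.rename (Sum.map id Sum.inl) (F l))
            (fun _ => MvPolynomial.rename (Sum.map id f) g) l)))) =
        Matrix.fromBlocks (Matrix.of fun l m => ev (MvPolynomial.aeval (Sum.elim base v)
          (MvPolynomial.pderiv (Sum.inr m) (F l)))) 0
        (Matrix.of fun (_ : Unit) m => ev (MvPolynomial.aeval (Sum.elim base (Sum.elim v fun _ => y))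
          (MvPolynomial.pderiv (Sum.inr (Sum.inl m)) (MvPolynomial.rename (Sum.map id f) g))))
        (Matrix.of fun (_ _ : Unit) => ev (MvPolynomial.aeval (Sum.elim base fun o => o.elim y s)
          (MvPolynomial.pderiv (Sum.inr none) g))) := by
      ext l m
      cases l <;> cases m <;>
        simp [pderiv_sumMap Sum.inl_injective, pderiv_sumMap_ne, aeval_sumMap, hnone, hf]
    rw [hm, Matrix.det_fromBlocks_zero₁₂]
    exact mul_ne_zero hF.2 (by simpa [Matrix.det_unique] using h1)
  · exact fun o => ⟨f o, congrFun hf o⟩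

lemma alg_of_eq {σ : Type} {s : σ → T} (hs : InSys base ev s)
    (g : MvPolynomial (Fin d ⊕ σ) ℂ) :
    IsAlgOver base ev (MvPolynomial.aeval (Sum.elim base s) g) := by
  refine (hs.extend (MvPolynomial.X (Sum.inr none) - MvPolynomial.rename (Sum.map id some) g)
    (MvPolynomial.aeval (Sum.elim base s) g) ?_ ?_).alg none
  · rw [map_sub, MvPolynomial.aeval_X, aeval_sumMap]
    exact sub_self _
  · simp [pderiv_sumMap_ne]

lemma inSys_of_fintype {σ : Type} [Fintype σ] (s : σ → T) (hs : ∀ j, IsAlgOver base ev (s j)) :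
    InSys base ev s := by
  classical
  suffices h : ∀ S : Finset σ, InSys base ev (fun j : {j // j ∈ S} => s j) by
    obtain ⟨n, F, v, hF, hv⟩ := h univ
    exact ⟨n, F, v, hF, fun j => hv ⟨j, mem_univ j⟩⟩
  intro S
  induction S using Finset.induction with
  | empty =>
    have : IsEmpty {j // j ∈ (∅ : Finset σ)} := ⟨fun j => Finset.notMem_empty _ j.2⟩
    exact inSys_empty _
  | insert a S ha ih =>
    obtain ⟨n, F, v, i, hF, hi⟩ := hs a
    have h1 : InSys base ev (fun _ : Unit => s a) := ⟨n, F, v, hF, fun _ => ⟨i, hi⟩⟩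
    obtain ⟨m, G, u, hG, hu⟩ := h1.union ih
    refine ⟨m, G, u, hG, fun j => ?_⟩
    rcases Finset.mem_insert.1 j.2 with h | h
    · obtain ⟨q, hq⟩ := hu (Sum.inl ())
      exact ⟨q, by simpa [h] using hq⟩
    · exact hu (Sum.inr ⟨j, h⟩)

variable (base ev)

lemma alg_const (c : ℂ) : IsAlgOver base ev (algebraMap ℂ T c) := by
  simpa using alg_of_eq (inSys_empty (base := base) (ev := ev) (fun e : Empty => (e.elim : T)))
    (MvPolynomial.C c)

lemma alg_base (i : Fin d) : IsAlgOver base ev (base i) := by
  simpa using alg_of_eq (inSys_empty (base := base) (ev := ev) (fun e : Empty => (e.elim : T)))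
    (MvPolynomial.X (Sum.inl i))

lemma algClosedProps : AlgClosedProps base ev where
  subalgebra := by
    refine ⟨
      { carrier := {s | IsAlgOver base ev s}
        mul_mem' := fun {a b} ha hb => ?_
        add_mem' := fun {a b} ha hb => ?_
        algebraMap_mem' := alg_const base ev }, fun s => Iff.rfl⟩
    · have h := alg_of_eq (inSys_of_fintype (base := base) (ev := ev)
        (fun j : Bool => cond j a b) (by intro j; cases j; exacts [hb, ha]))
        (MvPolynomial.X (Sum.inr true) * MvPolynomial.X (Sum.inr false))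
      simp only [map_mul, MvPolynomial.aeval_X, Sum.elim_inr, cond_true,
        cond_false] at h
      exact h
    · have h := alg_of_eq (inSys_of_fintype (base := base) (ev := ev)
        (fun j : Bool => cond j a b) (by intro j; cases j; exacts [hb, ha]))
        (MvPolynomial.X (Sum.inr true) + MvPolynomial.X (Sum.inr false))
      simp only [map_add, MvPolynomial.aeval_X, Sum.elim_inr, cond_true,
        cond_false] at h
      exact h
  base_mem := alg_base base ev
  inv := fun s u hs hu => by
    have h1 : InSys base ev (fun _ : Unit => s) := inSys_of_fintype _ fun _ => hs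
    refine (h1.extend (MvPolynomial.X (Sum.inr none) * MvPolynomial.X (Sum.inr (some ())) - 1)
      u ?_ ?_).alg none
    · simp [hu]
    · have hne : ev s ≠ 0 := fun h => by simpa [h] using congrArg ev hu
      simpa [Derivation.leibniz] using hne
  root := fun H r hH h0 h1 => by
    have hc : InSys base ev (fun k : Fin (H.natDegree + 1) => H.coeff k) :=
      inSys_of_fintype _ fun k => hH k
    refine (hc.extend (∑ k : Fin (H.natDegree + 1),
      MvPolynomial.X (Sum.inr (some k)) * MvPolynomial.X (Sum.inr none) ^ (k : ℕ)) r ?_ ?_).alg none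
    · rw [map_sum]
      simpa [Polynomial.eval_eq_sum_range, Fin.sum_univ_eq_sum_range
        (fun k => H.coeff k * r ^ k)] using h0
    · have e : MvPolynomial.aeval (Sum.elim base fun o : Option (Fin (H.natDegree + 1)) =>
          o.elim r fun k => H.coeff k) (MvPolynomial.pderiv (Sum.inr none)
            (∑ k : Fin (H.natDegree + 1),
              (MvPolynomial.X (Sum.inr (some k)) * MvPolynomial.X (Sum.inr none) ^ (k : ℕ) :
                MvPolynomial (Fin d ⊕ Option (Fin (H.natDegree + 1))) ℂ))) =
          H.derivative.eval r := by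
        rw [map_sum, map_sum, Polynomial.derivative_eval,
          Polynomial.sum_over_range' H (fun k => by simp) (H.natDegree + 1) (by omega),
          ← Fin.sum_univ_eq_sum_range]
        refine sum_congr rfl fun k _ => ?_
        simp [mul_assoc]
      rw [e]; exact h1
  common := fun s hs => inSys_of_fintype s hs

theorem closure_ok : ClosureStatement := by
  refine ⟨fun T _ _ d base ev => algClosedProps base ev, ?_⟩
  intro T T' _ _ _ _ d d' base ev base' ev' ρ L hL hev s ⟨n, F, v, i, hF, hi⟩
  let σ : Fin d ⊕ Fin n → MvPolynomial (Fin d' ⊕ Fin n) ℂ :=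
    Sum.elim (fun a => MvPolynomial.rename Sum.inl (L a)) fun b => MvPolynomial.X (Sum.inr b)
  have hval : ∀ p : MvPolynomial (Fin d ⊕ Fin n) ℂ, MvPolynomial.aeval (Sum.elim base' (ρ ∘ v)) (MvPolynomial.aeval σ p) =
      ρ (MvPolynomial.aeval (Sum.elim base v) p) := fun p => by
    induction p using MvPolynomial.induction_on with
    | C a => simp
    | add p q hp hq => simp only [map_add, hp, hq]
    | mul_X p a h =>
      rw [map_mul, map_mul, h, map_mul, map_mul]
      cases a <;> simp [σ, hL, MvPolynomial.aeval_rename]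
  have hder : ∀ (m : Fin n) (p : MvPolynomial (Fin d ⊕ Fin n) ℂ), MvPolynomial.pderiv (Sum.inr m) (MvPolynomial.aeval σ p) =
      MvPolynomial.aeval σ (MvPolynomial.pderiv (Sum.inr m) p) := fun m p => by
    classical
    induction p using MvPolynomial.induction_on with
    | C a => simp
    | add p q hp hq => simp only [map_add, hp, hq]
    | mul_X p a h =>
      simp only [map_mul, MvPolynomial.aeval_X, Derivation.leibniz, smul_eq_mul, map_add, h]
      cases a with
      | inl a =>
        have hz : MvPolynomial.pderiv (Sum.inr m)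
            (MvPolynomial.rename (Sum.inl : Fin d' → Fin d' ⊕ Fin n) (L a)) = 0 := by
          induction L a using MvPolynomial.induction_on with
          | C c => simp
          | add p q hp hq => simp [hp, hq]
          | mul_X p b hb => simp [Derivation.leibniz, hb]
        simp [σ, hz]
      | inr b =>
        by_cases hb : b = m
        · subst hb; simp [σ]
        · simp [σ, hb]
  refine ⟨n, fun l => MvPolynomial.aeval σ (F l), ρ ∘ v, i, ⟨fun l => ?_, ?_⟩, by simp [hi]⟩
  · rw [hval, hF.1 l, map_zero]
  · have hm : (Matrix.of fun l m => ev' (MvPolynomial.aeval (Sum.elim base' (ρ ∘ v))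
        (MvPolynomial.pderiv (Sum.inr m) (MvPolynomial.aeval σ (F l))))) =
        Matrix.of fun l m => ev (MvPolynomial.aeval (Sum.elim base v)
          (MvPolynomial.pderiv (Sum.inr m) (F l))) := by
      ext l m
      simp only [Matrix.of_apply, hder, hval, hev]
    rw [hm]; exact hF.2

end Vale.Agent.P266.Alg
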