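import Vale.Agent.P266.Alg.Series

/-!
P266, algebraisation: approximation of solutions by algebraic solutions, in one and two variables.

A presentation turns an exact algebraic solution into one Hensel root.  The data of the root come
from truncation in one variable, and in two variables from Weierstrass division, whose coefficients
satisfy polynomial equations in one variable.
-/

noncomputable section

open Polynomial

namespace Vale.Agent.P266.Alg

/-- The correction step: from an approximate solution whose error is divisible by the square of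
`F'(θ) * l` to an exact one. -/
theorem correct {S A : Type*} [CommRing S] [CommRing A] (I : Ideal S) (φ : A →+* S)
    (hens : ∀ H : S[X], H.coeff 0 ∈ I → H.coeff 1 = 1 → ∃ h ∈ I, H.eval h = 0)
    (F : A[X]) (l : A) {ι : Type*} (q : ι → A[X]) (θ : S) (x : ι → S)
    (W E U : S) (T : ι → S) (hU : IsUnit U)
    (hF : eval₂ φ θ F = W ^ 2 * E)
    (hD : eval₂ φ θ (derivative F) * φ l = W * U)
    (hq : ∀ j, eval₂ φ θ (q j) - φ l * x j = W * T j)
    (hE : E ∈ I) (hT : ∀ j, T j ∈ I) :
    ∃ (θ' : S) (x' : ι → S), θ' - θ ∈ I ∧ (∀ j, x' j - x j ∈ I) ∧ eval₂ φ θ' F = 0 ∧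
      ∀ j, eval₂ φ θ' (q j) = φ l * x' j := by
  obtain ⟨v, hv⟩ := isUnit_iff_exists_inv.1 hU
  simp only [eval₂_eq_eval_map] at hF hD hq ⊢
  rw [← Polynomial.derivative_map] at hD
  set f := F.map φ
  set f₁ := (derivative f).eval θ
  set c := f₁ * φ l * φ l with hc
  obtain ⟨K, hK⟩ := Polynomial.binomExpansion (f.map (C : S →+* S[X])) (C θ) (C c * X)
  let H : S[X] := C (v ^ 2 * E) + X + C (φ l ^ 2) * K * X ^ 2
  obtain ⟨h, hI, hh⟩ := hens H
    (by simpa [H, mul_coeff_zero] using I.mul_mem_left _ hE)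
    (by simp [H, coeff_mul_X_pow', ← map_pow])
  have hfe : f.eval (θ + c * h) = f.eval θ + f₁ * (c * h) + K.eval h * (c * h) ^ 2 := by
    have := congrArg (Polynomial.eval h) hK
    simp only [derivative_map, eval_map, eval_add, eval_mul, eval_pow, eval_C, eval_X,
      eval₂_at_apply] at this
    rwa [show eval₂ C (C θ + C c * X) f = f.comp (C θ + C c * X) from rfl, eval_comp, eval_add,
      eval_C, eval_mul, eval_C, eval_X] at this
  refine ⟨θ + c * h, fun j => x j + f₁ * T j * v + f₁ * φ l * h *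
    (Classical.choose (Polynomial.sub_dvd_eval_sub (θ + c * h) θ ((q j).map φ))), ?_, ?_, ?_, ?_⟩
  · simpa using I.mul_mem_left c hI
  · intro j
    simp only [add_assoc, add_sub_cancel_left]
    exact I.add_mem (I.mul_mem_right _ (I.mul_mem_left _ (hT j)))
      (I.mul_mem_right _ (I.mul_mem_left _ hI))
  · simp only [H, eval_add, eval_mul, eval_C, eval_X, eval_pow] at hh
    rw [hfe, hF, hc]
    have hW : f₁ * φ l * v = W := by rw [hD]; linear_combination W * hv
    linear_combination (f₁ * φ l) ^ 2 * hh - E * (W + f₁ * φ l * v) * hW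
  · intro j
    have hs := Classical.choose_spec
      (Polynomial.sub_dvd_eval_sub (θ + c * h) θ ((q j).map φ))
    set s := Classical.choose (Polynomial.sub_dvd_eval_sub (θ + c * h) θ ((q j).map φ))
    rw [add_sub_cancel_left] at hs
    have hW : f₁ * φ l * v = W := by rw [hD]; linear_combination W * hv
    rw [hc] at hs ⊢
    linear_combination hs + hq j - T j * hW

section General

variable {T : Type} [CommRing T] [Algebra ℂ T] {d : ℕ} {ι : Type}

/-- An equation in the base and the coordinates, evaluated. -/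
abbrev val (b : Fin d → T) (z : ι → T) (H : MvPolynomial (Fin d ⊕ ι) ℂ) : T :=
  MvPolynomial.aeval (Sum.elim b z) H

lemma dvd_val_sub {a : T} (b : Fin d → T) (z z' : ι → T) (h : ∀ j, a ∣ z' j - z j)
    (H : MvPolynomial (Fin d ⊕ ι) ℂ) : a ∣ val b z' H - val b z H := by
  rw [← Ideal.mem_span_singleton, ← Ideal.Quotient.mk_eq_mk_iff_sub_mem,
    ← Ideal.Quotient.mkₐ_eq_mk ℂ, ← AlgHom.comp_apply, ← AlgHom.comp_apply, MvPolynomial.comp_aeval,
    MvPolynomial.comp_aeval]
  congr 2
  funext s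
  rcases s with i | j
  · rfl
  · simp only [Function.comp_apply, Sum.elim_inr, Ideal.Quotient.mkₐ_eq_mk]
    rw [Ideal.Quotient.mk_eq_mk_iff_sub_mem, Ideal.mem_span_singleton]
    exact h j

lemma map_val {T' : Type} [CommRing T'] [Algebra ℂ T'] (L : T →ₐ[ℂ] T') (b : Fin d → T)
    (z : ι → T) (H : MvPolynomial (Fin d ⊕ ι) ℂ) : L (val b z H) = val (L ∘ b) (L ∘ z) H := by
  rw [val, ← AlgHom.comp_apply, MvPolynomial.comp_aeval]
  congr 2
  funext s
  rcases s with i | j <;> rfl

/-- A point of the presentation: coordinates, the primitive element, the original entries. -/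
abbrev Idx (t : ℕ) (σ : Type) : Type := Fin t ⊕ Unit ⊕ σ

variable {t : ℕ} {σ : Type}

/-- A polynomial over the coordinate ring, as an equation in all the entries. -/
def lift (σ : Type) (G : Polynomial (MvPolynomial (Fin d ⊕ Fin t) ℂ)) :
    MvPolynomial (Fin d ⊕ Idx t σ) ℂ :=
  eval₂ (MvPolynomial.rename (Sum.map id Sum.inl)).toRingHom
    (MvPolynomial.X (Sum.inr (Sum.inr (Sum.inl ())))) G

lemma val_rename (b : Fin d → T) (z : Idx t σ → T) (p : MvPolynomial (Fin d ⊕ Fin t) ℂ) :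
    val b z (MvPolynomial.rename (Sum.map id Sum.inl) p)
      = MvPolynomial.aeval (Sum.elim b fun i => z (Sum.inl i)) p := by
  rw [val, MvPolynomial.aeval_rename]
  congr 2
  funext s
  rcases s with i | j <;> rfl

lemma val_lift (b : Fin d → T) (z : Idx t σ → T) (G : Polynomial (MvPolynomial (Fin d ⊕ Fin t) ℂ)) :
    val b z (lift σ G) = eval₂ (MvPolynomial.aeval (Sum.elim b fun i => z (Sum.inl i))).toRingHom
      (z (Sum.inr (Sum.inl ()))) G := by
  induction G using Polynomial.induction_on' with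
  | add p q hp hq => simp only [lift, eval₂_add] at hp hq ⊢; rw [val, map_add, ← val, ← val, hp, hq]
  | monomial n a =>
    simp only [lift, eval₂_monomial, val, map_mul, map_pow, MvPolynomial.aeval_X]
    exact congrArg (· * _) (val_rename b z a)

/-- The three equations of a presentation. -/
def eqD (σ : Type) (F : Polynomial (MvPolynomial (Fin d ⊕ Fin t) ℂ))
    (l : MvPolynomial (Fin d ⊕ Fin t) ℂ) : MvPolynomial (Fin d ⊕ Idx t σ) ℂ :=
  lift σ (derivative F) * MvPolynomial.rename (Sum.map id Sum.inl) l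

/-- The equation of the entry `j`. -/
def eqQ (l : MvPolynomial (Fin d ⊕ Fin t) ℂ)
    (q : σ → Polynomial (MvPolynomial (Fin d ⊕ Fin t) ℂ)) (j : σ) :
    MvPolynomial (Fin d ⊕ Idx t σ) ℂ :=
  lift σ (q j) - MvPolynomial.rename (Sum.map id Sum.inl) l
    * MvPolynomial.X (Sum.inr (Sum.inr (Sum.inr j)))

lemma val_eqD (b : Fin d → T) (z : Idx t σ → T) (F : Polynomial (MvPolynomial (Fin d ⊕ Fin t) ℂ))
    (l : MvPolynomial (Fin d ⊕ Fin t) ℂ) : val b z (eqD σ F l) =
      eval₂ (MvPolynomial.aeval (Sum.elim b fun i => z (Sum.inl i))).toRingHom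
        (z (Sum.inr (Sum.inl ()))) (derivative F)
        * MvPolynomial.aeval (Sum.elim b fun i => z (Sum.inl i)) l := by
  rw [← val_lift, ← val_rename]
  exact map_mul _ _ _

lemma val_eqQ (b : Fin d → T) (z : Idx t σ → T) (l : MvPolynomial (Fin d ⊕ Fin t) ℂ)
    (q : σ → Polynomial (MvPolynomial (Fin d ⊕ Fin t) ℂ)) (j : σ) : val b z (eqQ l q j) =
      eval₂ (MvPolynomial.aeval (Sum.elim b fun i => z (Sum.inl i))).toRingHom
        (z (Sum.inr (Sum.inl ()))) (q j)
        - MvPolynomial.aeval (Sum.elim b fun i => z (Sum.inl i)) l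
          * z (Sum.inr (Sum.inr j)) := by
  rw [← val_lift, ← val_rename, eqQ, val, map_sub, map_mul, MvPolynomial.aeval_X]
  rfl

/-- The closure properties needed of the subalgebra of algebraic elements. -/
structure IsRootClosed (A : Subalgebra ℂ T) : Prop where
  root : ∀ (g : T[X]) (r : T), (∀ n, g.coeff n ∈ A) → g.eval r = 0 →
    IsUnit (g.derivative.eval r) → r ∈ A
  inv : ∀ s u : T, s ∈ A → s * u = 1 → u ∈ A

/-- Exact solution of a presentation from the data of an approximate one. -/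
lemma solve (A : Subalgebra ℂ T) (hA : IsRootClosed A) (I : Ideal T)
    (hroot : ∀ g : T[X], g.eval 0 ∈ I → IsUnit (g.derivative.eval 0) →
      ∃ s, s ∈ I ∧ g.eval s = 0 ∧ IsUnit (g.derivative.eval s))
    (b : Fin d → T) (hb : ∀ i, b i ∈ A) (F : Polynomial (MvPolynomial (Fin d ⊕ Fin t) ℂ))
    (l : MvPolynomial (Fin d ⊕ Fin t) ℂ) (q : σ → Polynomial (MvPolynomial (Fin d ⊕ Fin t) ℂ))
    (z : Idx t σ → T) (hz : ∀ j, z j ∈ A) (W E U : T) (S : σ → T) (hW : W ∈ A) (hE : E ∈ A)
    (hU : U ∈ A) (hS : ∀ j, S j ∈ A) (hUu : IsUnit U)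
    (h1 : val b z (lift σ F) = W ^ 2 * E) (h2 : val b z (eqD σ F l) = W * U)
    (h3 : ∀ j, val b z (eqQ l q j) = W * S j) (hEI : E ∈ I) (hSI : ∀ j, S j ∈ I) :
    ∃ z' : Idx t σ → T, (∀ j, z' j ∈ A) ∧ (∀ j, z' j - z j ∈ I) ∧
      (∀ i, z' (Sum.inl i) = z (Sum.inl i)) ∧ val b z' (lift σ F) = 0 ∧
      ∀ j, val b z' (eqQ l q j) = 0 := by
  set u : Fin t → T := fun i => z (Sum.inl i) with hu
  set φ : MvPolynomial (Fin d ⊕ Fin t) ℂ →+* A :=
    (MvPolynomial.aeval (Sum.elim (fun i => (⟨b i, hb i⟩ : A))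
      fun i => ⟨z (Sum.inl i), hz _⟩)).toRingHom with hφ
  have hval : ∀ p, ((φ p : A) : T) = MvPolynomial.aeval (Sum.elim b u) p := fun p => by
    rw [hφ, ← Subalgebra.coe_val, AlgHom.toRingHom_eq_coe, RingHom.coe_coe, ← AlgHom.comp_apply,
      MvPolynomial.comp_aeval]
    congr 2
    funext s
    rcases s with i | i <;> rfl
  have hcomp : A.val.toRingHom.comp φ = (MvPolynomial.aeval (Sum.elim b u)).toRingHom :=
    RingHom.ext hval
  have hev : ∀ (G : Polynomial (MvPolynomial (Fin d ⊕ Fin t) ℂ)) (θ : A),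
      ((eval₂ φ θ G : A) : T)
        = eval₂ (MvPolynomial.aeval (Sum.elim b u)).toRingHom (θ : T) G := fun G θ => by
    rw [← hcomp]
    exact Polynomial.hom_eval₂ G φ A.val.toRingHom θ
  obtain ⟨v, hv⟩ := isUnit_iff_exists_inv.1 hUu
  have hens : ∀ H : Polynomial A, H.coeff 0 ∈ I.comap A.val → H.coeff 1 = 1 →
      ∃ h ∈ I.comap A.val, H.eval h = 0 := by
    intro H h0 h1
    set g := H.map A.val.toRingHom with hg
    obtain ⟨s, hsI, hs, hs'⟩ := hroot g
      (by rw [← coeff_zero_eq_eval_zero, hg, coeff_map]; exact h0)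
      (by rw [← coeff_zero_eq_eval_zero, coeff_derivative, hg, coeff_map, zero_add, h1]; simp)
    refine ⟨⟨s, hA.root g s (fun n => by simp [hg, coeff_map]) hs hs'⟩,
      hsI, Subtype.ext ?_⟩
    show A.val _ = A.val 0
    rw [map_zero]
    refine Eq.trans ?_ hs
    rw [eval_map]
    exact Polynomial.hom_eval₂ H (RingHom.id A) A.val.toRingHom _
  obtain ⟨θ', x', hθ', hx', e1, e2⟩ := correct (I.comap A.val) φ hens F l q
    ⟨z (Sum.inr (Sum.inl ())), hz _⟩ (fun j => ⟨z (Sum.inr (Sum.inr j)), hz _⟩)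
    ⟨W, hW⟩ ⟨E, hE⟩ ⟨U, hU⟩ (fun j => ⟨S j, hS j⟩)
    (IsUnit.of_mul_eq_one (⟨v, hA.inv U v hU hv⟩ : A) (Subtype.ext hv))
    (Subtype.ext (by rw [hev]; simpa [val_lift, hu] using h1))
    (Subtype.ext (by rw [Subalgebra.coe_mul, hev, hval]; simpa [val_eqD, hu] using h2))
    (fun j => Subtype.ext (by
      rw [Subalgebra.coe_sub, Subalgebra.coe_mul, hev, hval]
      simpa [val_eqQ, hu] using h3 j))
    hEI hSI
  refine ⟨Sum.elim u (Sum.elim (fun _ => (θ' : T)) fun j => (x' j : T)), ?_, ?_, fun i => rfl, ?_,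
    fun j => ?_⟩
  · rintro (i | _ | j)
    exacts [hz _, θ'.2, (x' j).2]
  · rintro (i | _ | j)
    exacts [by simp [hu], hθ', hx' j]
  · rw [val_lift]
    exact ((hev F θ').symm.trans (congrArg A.val e1)).trans (map_zero _)
  · rw [val_eqQ, sub_eq_zero]
    exact (hev (q j) θ').symm.trans ((congrArg A.val (e2 j)).trans
      ((map_mul A.val _ _).trans (congrArg (· * (x' j : T)) (hval l))))

lemma rootClosed_of_props {base : Fin d → T} {ev : T →ₐ[ℂ] ℂ} (h : AlgClosedProps base ev) :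
    ∃ A : Subalgebra ℂ T, (∀ s, s ∈ A ↔ IsAlgOver base ev s) ∧ IsRootClosed A := by
  obtain ⟨A, hA⟩ := h.subalgebra
  refine ⟨A, hA, ⟨fun g r hg hr hu => (hA r).2 (h.root g r (fun n => (hA _).1 (hg n)) hr
    (hu.map ev).ne_zero), fun s u hs hsu => (hA u).2 (h.inv s u ((hA s).1 hs) ?_)⟩⟩
  rw [mul_comm, hsu]

end General

section OneVariable

lemma base1_indep : AlgebraicIndependent ℂ base1 := by
  refine algebraicIndependent_unique_type_iff.2 ?_
  rintro ⟨p, hp, h⟩
  refine hp (Polynomial.coe_eq_zero_iff.1 ?_)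
  rw [← h]
  exact (DFunLike.congr_fun (Polynomial.algHom_ext (by simp [base1]) :
    coeToPowerSeries.algHom ℂ = Polynomial.aeval (base1 default)) p) |>.symm.trans rfl |>.symm

lemma P1_root {k : ℕ} (hk : 1 ≤ k) (g : P1[X])
    (h0 : g.eval 0 ∈ (Ideal.span {PowerSeries.X} : Ideal P1) ^ k)
    (h1 : IsUnit (g.derivative.eval 0)) :
    ∃ s, s ∈ (Ideal.span {PowerSeries.X} : Ideal P1) ^ k ∧ g.eval s = 0 ∧
      IsUnit (g.derivative.eval s) := by
  have hC : ∀ y ∈ (Ideal.span {PowerSeries.X} : Ideal P1) ^ k, PowerSeries.C y ∈ mP ^ k := by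
    intro y hy
    have : (Ideal.span {PowerSeries.X} : Ideal P1).map PowerSeries.C ≤ mP := by
      rw [Ideal.map_span, Set.image_singleton]
      exact Ideal.span_le.2 (Set.singleton_subset_iff.2 varPhi_mem)
    exact Ideal.pow_right_mono this k (Ideal.map_pow (PowerSeries.C (R := P1)) _ k ▸
      Ideal.mem_map_of_mem _ hy)
  obtain ⟨s, hs, hr, hu⟩ := exists_root (g.map PowerSeries.C) hk
    (by rw [← map_zero PowerSeries.C, eval_map_apply]; exact hC _ h0)
    (by rw [derivative_map, ← map_zero PowerSeries.C, eval_map_apply]; exact h1.map _)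
  have hcc : (PowerSeries.constantCoeff (R := P1)).comp PowerSeries.C = RingHom.id P1 :=
    RingHom.ext fun _ => PowerSeries.constantCoeff_C _
  have key : ∀ G : P1[X], PowerSeries.constantCoeff ((G.map PowerSeries.C).eval s)
      = G.eval (PowerSeries.constantCoeff s) := fun G => by
    rw [eval_map, hom_eval₂, hcc]
    rfl
  refine ⟨PowerSeries.constantCoeff s, ?_, ?_, ?_⟩
  · have : mP.map (PowerSeries.constantCoeff (R := P1)) ≤ Ideal.span {PowerSeries.X} := by
      rw [mP, Ideal.map_span, Ideal.span_le]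
      rintro y ⟨z, rfl | rfl, rfl⟩
      · simp [varPhi, Ideal.mem_span_singleton]
      · simp [varPsi]
    exact Ideal.pow_right_mono this k (Ideal.map_pow (PowerSeries.constantCoeff (R := P1)) _ k ▸
      Ideal.mem_map_of_mem _ hs)
  · rw [← key, hr, map_zero]
  · rw [← key, ← derivative_map]
    exact hu.map _

lemma ev1_close {a b : P1} {k : ℕ} (hk : 1 ≤ k) (h : PowerSeries.X ^ k ∣ a - b) (hb : IsUnit b) :
    IsUnit a := by
  rw [PowerSeries.isUnit_iff_constantCoeff] at hb ⊢
  have : PowerSeries.constantCoeff (a - b) = 0 :=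
    PowerSeries.X_dvd_iff.1 ((dvd_pow_self _ (by omega)).trans h)
  rw [map_sub, sub_eq_zero] at this
  rwa [this]

lemma exists_coe_eq {g : P1} {n : ℕ} (p : ℂ[X]) (h : (p : P1) = PowerSeries.X ^ n * g) :
    ∃ p' : ℂ[X], (p' : P1) = g := by
  refine ⟨PowerSeries.trunc (p.natDegree + 1) g, PowerSeries.ext fun i => ?_⟩
  rw [Polynomial.coeff_coe, PowerSeries.coeff_trunc]
  split_ifs with hi
  · rfl
  · rw [← PowerSeries.coeff_X_pow_mul g n i, ← h, Polynomial.coeff_coe,
      Polynomial.coeff_eq_zero_of_natDegree_lt (by omega)]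

/-- Approximation in one variable. -/
theorem approx1 (hC : ClosureStatement) (hP : PresentStatement) (σ : Type) [Fintype σ]
    (x : σ → P1) (k : ℕ) :
    ∃ x' : σ → P1, (∀ j, IsAlg1 (x' j)) ∧ (∀ j, PowerSeries.X ^ k ∣ x' j - x j) ∧
      ∀ p : MvPolynomial (Fin 1 ⊕ σ) ℂ,
        val base1 x p = 0 → val base1 x' p = 0 := by
  obtain ⟨A, hA, hcl⟩ := rootClosed_of_props (hC.1 P1 1 base1 ev1)
  obtain ⟨t, F, l, q, u, θ, hF, hD, hq, hkill⟩ := hP P1 1 base1 base1_indep σ x
  set z : Idx t σ → P1 := Sum.elim u (Sum.elim (fun _ => θ) x) with hzdef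
  have e1 : val base1 z (lift σ F) = 0 := by rw [val_lift]; exact hF
  have e3 : ∀ j, val base1 z (eqQ l q j) = 0 := fun j => by
    rw [val_eqQ, sub_eq_zero]; exact hq j
  set D := val base1 z (eqD σ F l) with hDdef
  have hD0 : D ≠ 0 := by rw [hDdef, val_eqD]; exact hD
  set o := D.order.toNat with ho
  set N := 2 * o + (k + 1) with hN
  let z' : Idx t σ → P1 := fun j => (PowerSeries.trunc N (z j) : ℂ[X])
  have hclose : ∀ j, PowerSeries.X ^ N ∣ z' j - z j := fun j => by
    refine PowerSeries.X_pow_dvd_iff.2 fun m hm => ?_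
    simp [z', Polynomial.coeff_coe, PowerSeries.coeff_trunc, hm]
  have hpoly : ∀ H, ∃ p : ℂ[X], (p : P1) = val base1 z' H := fun H => by
    refine ⟨MvPolynomial.aeval (Sum.elim (fun _ => (X : ℂ[X])) fun j => PowerSeries.trunc N (z j)) H,
      ?_⟩
    rw [show ∀ G : ℂ[X], (G : P1) = coeToPowerSeries.algHom ℂ G from fun G => by
      simp [coeToPowerSeries.algHom_apply], ← AlgHom.comp_apply, MvPolynomial.comp_aeval]
    congr 2
    funext s
    rcases s with i | j
    · simp [base1]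
    · simp [z']
  have hmem : ∀ p : ℂ[X], (p : P1) ∈ A := fun p => by
    induction p using Polynomial.induction_on' with
    | add p q hp hq => rw [Polynomial.coe_add]; exact add_mem hp hq
    | monomial n a =>
      rw [← Polynomial.C_mul_X_pow_eq_monomial, Polynomial.coe_mul, Polynomial.coe_C,
        Polynomial.coe_pow, Polynomial.coe_X, show (PowerSeries.C a : P1) = algebraMap ℂ P1 a from
          by simp [PowerSeries.algebraMap_apply]]
      exact mul_mem (A.algebraMap_mem a) (pow_mem ((hA _).2 ((hC.1 P1 1 base1 ev1).base_mem 0)) _)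
  have hquot : ∀ (H : MvPolynomial (Fin 1 ⊕ Idx t σ) ℂ) (m : ℕ), PowerSeries.X ^ m ∣ val base1 z H →
      m ≤ N → ∃ g ∈ A, val base1 z' H = PowerSeries.X ^ m * g := fun H m hm hmN => by
    obtain ⟨g, hg⟩ : PowerSeries.X ^ m ∣ val base1 z' H :=
      (dvd_iff_dvd_of_dvd_sub ((pow_dvd_pow _ hmN).trans (dvd_val_sub base1 z z' hclose H))).2 hm
    obtain ⟨p, hp⟩ := hpoly H
    obtain ⟨p', hp'⟩ := exists_coe_eq p (hp.trans hg)
    exact ⟨g, hp' ▸ hmem p', hg⟩
  obtain ⟨E, hE, hFE⟩ := hquot (lift σ F) N (e1 ▸ dvd_zero _) le_rfl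
  have hS : ∀ j, ∃ g ∈ A, val base1 z' (eqQ l q j) = PowerSeries.X ^ N * g := fun j =>
    hquot _ N (e3 j ▸ dvd_zero _) le_rfl
  choose S hSA hSE using hS
  have hXo : PowerSeries.X ^ o * D.divXPowOrder = D := PowerSeries.X_pow_order_mul_divXPowOrder
  obtain ⟨U, hUA, hU⟩ := hquot (eqD σ F l) o (Dvd.intro _ hXo) (by omega)
  have hUu : IsUnit U := by
    refine ev1_close (k := N - o) (by omega) ?_
      (PowerSeries.isUnit_iff_constantCoeff.2 (isUnit_iff_ne_zero.2
        (PowerSeries.constantCoeff_divXPowOrder_eq_zero_iff.not.2 hD0)) : IsUnit D.divXPowOrder)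
    refine (mul_dvd_mul_iff_left (pow_ne_zero o PowerSeries.X_ne_zero)).1 ?_
    rw [← pow_add, mul_sub, ← hU, hXo, show o + (N - o) = N by omega]
    exact dvd_val_sub base1 z z' hclose _
  set I : Ideal P1 := (Ideal.span {PowerSeries.X}) ^ (k + 1) with hI
  have hXI : ∀ y, PowerSeries.X ^ (k + 1) ∣ y → y ∈ I := fun y hy => by
    rwa [hI, Ideal.span_singleton_pow, Ideal.mem_span_singleton]
  obtain ⟨w, hwA, hwI, hwu, hw1, hw3⟩ := solve A hcl I (P1_root (Nat.succ_le_succ (Nat.zero_le k)))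
    base1 (fun i => (hA _).2 ((hC.1 P1 1 base1 ev1).base_mem i)) F l q z'
    (fun j => hmem _) (PowerSeries.X ^ o) (PowerSeries.X ^ (k + 1) * E) U
    (fun j => PowerSeries.X ^ (N - o) * S j)
    (pow_mem ((hA _).2 ((hC.1 P1 1 base1 ev1).base_mem 0)) _)
    (mul_mem (pow_mem ((hA _).2 ((hC.1 P1 1 base1 ev1).base_mem 0)) _) hE) hUA
    (fun j => mul_mem (pow_mem ((hA _).2 ((hC.1 P1 1 base1 ev1).base_mem 0)) _) (hSA j)) hUu
    (by rw [hFE, ← mul_assoc, ← pow_mul, ← pow_add, hN, mul_comm o 2]) hU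
    (fun j => by rw [hSE, ← mul_assoc, ← pow_add, show o + (N - o) = N by omega])
    (hXI _ (Dvd.intro _ rfl))
    (fun j => hXI _ (Dvd.dvd.mul_right (pow_dvd_pow _ (by omega)) _))
  refine ⟨fun j => w (Sum.inr (Sum.inr j)), fun j => (hA _).1 (hwA _), fun j => ?_, ?_⟩
  · rw [← sub_add_sub_cancel _ (z' (Sum.inr (Sum.inr j))) (x j)]
    refine dvd_add ?_ ((pow_dvd_pow _ (by omega)).trans (hclose (Sum.inr (Sum.inr j))))
    have := hwI (Sum.inr (Sum.inr j))
    rw [hI, Ideal.span_singleton_pow, Ideal.mem_span_singleton] at this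
    exact (pow_dvd_pow _ (Nat.le_succ k)).trans this
  · intro p hp
    refine hkill (fun i => w (Sum.inl i)) (w (Sum.inr (Sum.inl ())))
      (fun j => w (Sum.inr (Sum.inr j))) ((val_lift base1 w F).symm.trans hw1)
      (fun j => sub_eq_zero.1 ((val_eqQ base1 w l q j).symm.trans (hw3 j))) ?_ p hp
    simp only [hwu]
    refine right_ne_zero_of_mul (a := eval₂ (MvPolynomial.aeval (Sum.elim base1
      fun i => z' (Sum.inl i))).toRingHom (z' (Sum.inr (Sum.inl ()))) (derivative F)) ?_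
    rw [← val_eqD, hU]
    exact mul_ne_zero (pow_ne_zero _ PowerSeries.X_ne_zero) hUu.ne_zero

end OneVariable

section TwoVariables

/-- The shear `Φ ↦ Φ + cΨ`. -/
def shear (c : ℂ) : P →ₐ[ℂ] P :=
  evalP mP (varPhi + c • varPsi) varPsi (add_mem varPhi_mem (Submodule.smul_of_tower_mem _ c varPsi_mem))
    varPsi_mem

lemma shear_phi (c : ℂ) : shear c varPhi = varPhi + c • varPsi := evalP_varPhi ..

lemma shear_psi (c : ℂ) : shear c varPsi = varPsi := evalP_varPsi ..

lemma shear_mem (c : ℂ) {k : ℕ} {f : P} (hf : f ∈ mP ^ k) : shear c f ∈ mP ^ k :=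
  map_mem_pow mP _ (by
    rw [shear_phi]; exact add_mem varPhi_mem (Submodule.smul_of_tower_mem _ c varPsi_mem)) (by rw [shear_psi]; exact varPsi_mem) hf

lemma ev2_shear (c : ℂ) (f : P) : ev2 (shear c f) = ev2 f := by
  have h : f - algebraMap ℂ P (ev2 f) ∈ mP := by rw [mem_mP_iff]; simp
  have h' := shear_mem c (k := 1) (by rwa [pow_one])
  rw [pow_one, mem_mP_iff, map_sub, AlgHom.commutes, map_sub, AlgHom.commutes] at h'
  simpa [sub_eq_zero] using h'

lemma shear_neg (c : ℂ) (f : P) : shear (-c) (shear c f) = f := by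
  have h : (AlgHom.id ℂ P) = (shear (-c)).comp (shear c) := by
    refine (hom_ext mP (AlgHom.id ℂ P) ((shear (-c)).comp (shear c)) varPhi_mem varPsi_mem ?_ ?_).symm
    · simp [shear_phi, shear_psi, map_smul]
    · simp [shear_psi]
  exact (DFunLike.congr_fun h f).symm

/-- Restriction to `Φ = 0`. -/
def res0 : P →ₐ[ℂ] PowerSeries ℂ :=
  { PowerSeries.map ev1.toRingHom with
    commutes' := fun a => by
      simp [PowerSeries.algebraMap_apply, ev1]; rfl }

lemma coeff_res0 (f : P) (j : ℕ) : PowerSeries.coeff j (res0 f) = cf 0 j f := by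
  simp [res0, cf, ev1, PowerSeries.coeff_zero_eq_constantCoeff_apply]; rfl

/-- A nonzero series becomes regular in `Ψ` after a shear. -/
lemma exists_regular {f : P} (hf : f ≠ 0) : ∃ c : ℂ, res0 (shear c f) ≠ 0 := by
  obtain ⟨o, ho⟩ := exists_not_mem_pow hf
  obtain ⟨i₀, j₀, -, hne, hlow⟩ := exists_lowest ho
  set s := i₀ + j₀ with hs
  set Q : ℂ[X] := ∑ i ∈ Finset.range (s + 1), C (cf i (s - i) f) * X ^ i with hQ
  have hQ0 : Q ≠ 0 := fun h => hne (by
    have := congrArg (fun G => Polynomial.coeff G i₀) h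
    simpa [hQ, finset_sum_coeff, coeff_X_pow, show i₀ < s + 1 by omega,
      show s - i₀ = j₀ by omega] using this)
  obtain ⟨c, hc⟩ : ∃ c, Q.eval c ≠ 0 := by
    by_contra h
    exact hQ0 (Polynomial.funext fun x => by simpa using not_exists.1 h x)
  refine ⟨c, fun h => hc ?_⟩
  have h1 : cf 0 s (shear c (f - toP (Alg.trunc (s + 1) f))) = 0 :=
    mem_mP_pow.1 (shear_mem c (sub_trunc_mem (s + 1) f)) 0 s (by omega)
  rw [map_sub, cf_sub, ← coeff_res0, h, map_zero, zero_sub, neg_eq_zero, map_toP, shear_phi,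
    shear_psi, ← coeff_res0, ← AlgHom.comp_apply, MvPolynomial.comp_aeval] at h1
  have hb : (res0 ∘ ![varPhi + c • varPsi, varPsi]) = ![c • PowerSeries.X, PowerSeries.X] := by
    funext i
    have e : res0 varPhi = 0 := PowerSeries.ext fun n => by
      rw [coeff_res0, cf_varPhi]; simp
    have e' : res0 varPsi = PowerSeries.X := by simp [res0, varPsi]
    fin_cases i <;> simp [e, e', map_smul]
  rw [show (fun i => res0 (![varPhi + c • varPsi, varPsi] i))
    = ![c • PowerSeries.X, PowerSeries.X] from hb] at h1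
  simp only [Alg.trunc, map_sum, map_mul, map_pow, MvPolynomial.aeval_C, MvPolynomial.aeval_X,
    Matrix.cons_val_zero, Matrix.cons_val_one, PowerSeries.algebraMap_apply, _root_.smul_pow,
    Algebra.mul_smul_comm, Algebra.smul_mul_assoc, map_smul, mul_assoc, ← pow_add,
    PowerSeries.coeff_C_mul, PowerSeries.coeff_X_pow, Algebra.algebraMap_self, RingHom.id_apply,
    smul_eq_mul] at h1
  rw [hQ, eval_finset_sum, ← h1]
  refine Finset.sum_congr rfl fun i hi => ?_
  have hi' : i ≤ s := Nat.lt_succ_iff.1 (Finset.mem_range.1 hi)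
  rw [Finset.sum_eq_single (s - i) (fun j _ hj => by rw [if_neg (by omega)]; ring)
    (fun h => absurd (Finset.mem_range.2 (by omega)) h), if_pos (by omega)]
  rw [eval_mul, eval_C, eval_pow, eval_X]
  ring

/-- Constants of `Ψ`. -/
def constP : P1 →ₐ[ℂ] P :=
  { (PowerSeries.C : P1 →+* P) with
    commutes' := fun a => by simp [algebraMap_P, PowerSeries.algebraMap_apply] }

lemma constP_apply (f : P1) : constP f = PowerSeries.C f := rfl

variable {o : ℕ} {ι : Type} (c : ℂ)

/-- Coefficient ring of the universal Weierstrass data. -/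
abbrev U0 (o : ℕ) (ι : Type) : Type :=
  MvPolynomial (Fin 1 ⊕ (Fin o ⊕ ι × Fin (3 * o))) ℂ

/-- The universal distinguished polynomial. -/
def Wu (o : ℕ) (ι : Type) : Polynomial (U0 o ι) :=
  X ^ o + ∑ i : Fin o, C (MvPolynomial.X (Sum.inr (Sum.inl i))) * X ^ (i : ℕ)

/-- The universal remainder. -/
def ru (o : ℕ) (j : ι) : Polynomial (U0 o ι) :=
  ∑ i : Fin (3 * o), C (MvPolynomial.X (Sum.inr (Sum.inr (j, i)))) * X ^ (i : ℕ)

/-- The universal base. -/
def bu (o : ℕ) (ι : Type) : Fin 2 → Polynomial (U0 o ι) :=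
  ![C (MvPolynomial.X (Sum.inl 0)) + C (MvPolynomial.C c) * X, X]

/-- The universal point. -/
def zu (o : ℕ) (j : ι) : MvPolynomial ι (Polynomial (U0 o ι)) :=
  MvPolynomial.C (ru o j) + MvPolynomial.C (Wu o ι ^ 3) * MvPolynomial.X j

lemma Wu_monic : (Wu o ι).Monic :=
  monic_X_pow_add (degree_sum_fin_lt _)

/-- Division with remainder extends to the universal point. -/
lemma div_gen {R : Type} [CommRing R] [Algebra ℂ R] (b : Fin 2 → R) (r : ι → R) (W : R) {n : ℕ}
    (hn : n ≤ 3) (q m : R) (H : MvPolynomial (Fin 2 ⊕ ι) ℂ) (hdiv : m + W ^ n * q = val b r H) :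
    ∃ Q : MvPolynomial ι R, val (MvPolynomial.C ∘ b)
      (fun j => MvPolynomial.C (r j) + MvPolynomial.C (W ^ 3) * MvPolynomial.X j) H
        = MvPolynomial.C (W ^ n) * Q + MvPolynomial.C m := by
  let L : R →ₐ[ℂ] MvPolynomial ι R :=
    { (MvPolynomial.C : R →+* MvPolynomial ι R) with commutes' := fun _ => rfl }
  obtain ⟨Y, hY⟩ := dvd_val_sub (a := (MvPolynomial.C (W ^ 3) : MvPolynomial ι R))
    (MvPolynomial.C ∘ b) (MvPolynomial.C ∘ r)
    (fun j => MvPolynomial.C (r j) + MvPolynomial.C (W ^ 3) * MvPolynomial.X j)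
    (fun j => ⟨MvPolynomial.X j, add_sub_cancel_left _ _⟩) H
  rw [show val (MvPolynomial.C ∘ b) (MvPolynomial.C ∘ r) H = MvPolynomial.C (val b r H) from
    (map_val L b r H).symm, ← hdiv, map_add, map_mul,
    show W ^ 3 = W ^ n * W ^ (3 - n) by rw [← pow_add, Nat.add_sub_cancel' hn], map_mul] at hY
  refine ⟨MvPolynomial.C (W ^ (3 - n)) * Y + MvPolynomial.C q, ?_⟩
  rw [show W ^ 3 = W ^ n * W ^ (3 - n) by rw [← pow_add, Nat.add_sub_cancel' hn], map_mul]
  linear_combination hY

/-- Universal division of an equation by a power of the distinguished polynomial. -/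
lemma universal_div (H : MvPolynomial (Fin 2 ⊕ ι) ℂ) {n : ℕ} (hn : n ≤ 3) :
    ∃ Q : MvPolynomial ι (Polynomial (U0 o ι)),
      val (MvPolynomial.C ∘ bu c o ι) (zu o) H = MvPolynomial.C (Wu o ι ^ n) * Q
        + MvPolynomial.C (val (bu c o ι) (ru o) H %ₘ Wu o ι ^ n) :=
  div_gen (bu c o ι) (ru o) (Wu o ι) hn _ _ H (modByMonic_add_div _ _)

variable (a : Fin o ⊕ ι × Fin (3 * o) → P1)

/-- Specialisation of coefficients. -/
def sp0 : U0 o ι →ₐ[ℂ] P1 := MvPolynomial.aeval (Sum.elim base1 a)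

/-- Specialisation of polynomials. -/
def spY : Polynomial (U0 o ι) →ₐ[ℂ] P :=
  Polynomial.aevalTower (constP.comp (sp0 a)) varPsi

/-- Specialisation of the universal ring. -/
def sp (w : ι → P) : MvPolynomial ι (Polynomial (U0 o ι)) →ₐ[ℂ] P := MvPolynomial.aevalTower (spY a) w

lemma spY_eq (G : Polynomial (U0 o ι)) : spY a G = ((G.map (sp0 a).toRingHom : P1[X]) : P) := by
  induction G using Polynomial.induction_on' with
  | add p q hp hq => rw [map_add, hp, hq, Polynomial.map_add, Polynomial.coe_add]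
  | monomial n b =>
    rw [← C_mul_X_pow_eq_monomial]
    simp [spY, varPsi, constP_apply]

lemma sp_C (w : ι → P) (G : Polynomial (U0 o ι)) : sp a w (MvPolynomial.C G) = spY a G := by
  simp [sp]

lemma sp_val (w : ι → P) (H : MvPolynomial (Fin 2 ⊕ ι) ℂ) :
    sp a w (val (MvPolynomial.C ∘ bu c o ι) (zu o) H)
      = val ![varPhi + c • varPsi, varPsi]
          (fun j => spY a (ru o j) + spY a (Wu o ι) ^ 3 * w j) H := by
  unfold val
  rw [← AlgHom.comp_apply, MvPolynomial.comp_aeval]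
  congr 2
  refine funext fun v => Sum.casesOn v (fun i => ?_) fun j => ?_
  · fin_cases i <;> simp [sp, spY, bu, sp0, varPhi, base1, Algebra.smul_def, algebraMap_P,
      constP_apply, PowerSeries.algebraMap_apply]
  · simp [zu, sp]

lemma sp_mem {A : Subalgebra ℂ P} (hΦ : varPhi ∈ A) (hΨ : varPsi ∈ A)
    (ha : ∀ v, PowerSeries.C (a v) ∈ A) (w : ι → P) (hw : ∀ j, w j ∈ A)
    (G : MvPolynomial ι (Polynomial (U0 o ι))) : sp a w G ∈ A := by
  induction G using MvPolynomial.induction_on with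
  | C b =>
    rw [sp_C]
    induction b using Polynomial.induction_on' with
    | add p q hp hq => rw [map_add]; exact add_mem hp hq
    | monomial n e =>
      rw [← C_mul_X_pow_eq_monomial, map_mul, map_pow]
      simp only [spY, Polynomial.aevalTower_C, Polynomial.aevalTower_X, AlgHom.comp_apply]
      refine mul_mem ?_ (pow_mem hΨ n)
      induction e using MvPolynomial.induction_on with
      | C r => rw [← MvPolynomial.algebraMap_eq, AlgHom.commutes, AlgHom.commutes]
               exact A.algebraMap_mem r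
      | add p q hp hq => rw [map_add, map_add]; exact add_mem hp hq
      | mul_X p v hp =>
        rw [map_mul, map_mul]
        refine mul_mem hp ?_
        rcases v with i | v
        · simpa [sp0, base1, varPhi, constP_apply] using hΦ
        · simpa [sp0, constP_apply] using ha v
  | add p q hp hq => rw [map_add]; exact add_mem hp hq
  | mul_X p j hp => rw [map_mul]; exact mul_mem hp (by simpa [sp] using hw j)

lemma sp_close {a' : Fin o ⊕ ι × Fin (3 * o) → P1} {w w' : ι → P} (I : Ideal P)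
    (ha : ∀ v, PowerSeries.C (a' v - a v) ∈ I) (hw : ∀ j, w' j - w j ∈ I)
    (G : MvPolynomial ι (Polynomial (U0 o ι))) : sp a' w' G - sp a w G ∈ I := by
  rw [← Ideal.Quotient.mk_eq_mk_iff_sub_mem]
  refine DFunLike.congr_fun (?_ : (Ideal.Quotient.mk I).comp (sp a' w').toRingHom
    = (Ideal.Quotient.mk I).comp (sp a w).toRingHom) G
  refine MvPolynomial.ringHom_ext (fun b => ?_) (fun j => ?_)
  · revert b
    refine fun b => DFunLike.congr_fun (?_ : ((Ideal.Quotient.mk I).comp
      (sp a' w').toRingHom).comp MvPolynomial.C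
      = ((Ideal.Quotient.mk I).comp (sp a w).toRingHom).comp MvPolynomial.C) b
    refine Polynomial.ringHom_ext (fun e => ?_) (by simp [sp, spY])
    refine DFunLike.congr_fun (?_ : (((Ideal.Quotient.mk I).comp
      (sp a' w').toRingHom).comp MvPolynomial.C).comp Polynomial.C
      = (((Ideal.Quotient.mk I).comp (sp a w).toRingHom).comp MvPolynomial.C).comp Polynomial.C) e
    refine MvPolynomial.ringHom_ext (fun r => by simp [sp, spY, sp0]) fun v => ?_
    rcases v with i | v
    · simp [sp, spY, sp0]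
    · simpa [sp, spY, sp0, constP_apply, Ideal.Quotient.mk_eq_mk_iff_sub_mem] using ha v
  · simpa [sp, Ideal.Quotient.mk_eq_mk_iff_sub_mem] using hw j

omit a in
lemma P1_complete : IsAdicComplete (IsLocalRing.maximalIdeal P1) P1 := by
  rw [PowerSeries.maximalIdeal_eq_span_X]
  infer_instance

/-- The data of the correction step near an exact point with regular derivative. -/
lemma weierstrass_data [Finite ι] (hC : ClosureStatement) (hP : PresentStatement)
    (A : Subalgebra ℂ P) (hA : ∀ s, s ∈ A ↔ IsAlg2 s) {γ : Type}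
    (HF HD : MvPolynomial (Fin 2 ⊕ ι) ℂ) (HQ : γ → MvPolynomial (Fin 2 ⊕ ι) ℂ) (c : ℂ)
    (z : ι → P) (hF : val ![varPhi + c • varPsi, varPsi] z HF = 0)
    (hQ : ∀ j, val ![varPhi + c • varPsi, varPsi] z (HQ j) = 0)
    (hD : res0 (val ![varPhi + c • varPsi, varPsi] z HD) ≠ 0) {k : ℕ} (hk : 1 ≤ k) :
    ∃ (z' : ι → P) (W E U : P) (S : γ → P), (∀ j, z' j ∈ A) ∧ W ∈ A ∧ E ∈ A ∧ U ∈ A ∧
      (∀ j, S j ∈ A) ∧ IsUnit U ∧ W ≠ 0 ∧ (∀ j, z' j - z j ∈ mP ^ k) ∧ E ∈ mP ^ k ∧
      (∀ j, S j ∈ mP ^ k) ∧ val ![varPhi + c • varPsi, varPsi] z' HF = W ^ 2 * E ∧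
      val ![varPhi + c • varPsi, varPsi] z' HD = W * U ∧
      ∀ j, val ![varPhi + c • varPsi, varPsi] z' (HQ j) = W * S j := by
  classical
  haveI := Fintype.ofFinite ι
  haveI := P1_complete
  set b : Fin 2 → P := ![varPhi + c • varPsi, varPsi] with hb
  set D := val b z HD with hDdef
  have hres : D.map (IsLocalRing.residue P1) ≠ 0 := fun h => hD <| PowerSeries.ext fun j => by
    have hj := congrArg (PowerSeries.coeff j) h
    rw [PowerSeries.coeff_map, map_zero, IsLocalRing.residue_eq_zero_iff,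
      PowerSeries.maximalIdeal_eq_span_X, Ideal.mem_span_singleton, PowerSeries.X_dvd_iff] at hj
    rw [coeff_res0, map_zero, cf, PowerSeries.coeff_zero_eq_constantCoeff_apply]
    exact hj
  obtain ⟨W, hu, hWf⟩ := PowerSeries.exists_isWeierstrassFactorization hres
  set o := W.natDegree with ho
  have hWmap : (W : P).map (IsLocalRing.residue P1) = PowerSeries.X ^ o := by
    rw [← Polynomial.polynomial_map_coe]
    exact (congrArg Polynomial.toPowerSeries hWf.isDistinguishedAt.map_eq_X_pow).trans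
      (by rw [Polynomial.coe_pow, Polynomial.coe_X]; rfl)
  have hG : ∀ n, ((W ^ n : P1[X]) : P).map (IsLocalRing.residue P1) = PowerSeries.X ^ (o * n) :=
    fun n => by rw [Polynomial.coe_pow, map_pow, hWmap, ← pow_mul]
  have hGne : ∀ n, ((W ^ n : P1[X]) : P).map (IsLocalRing.residue P1) ≠ 0 := fun n => by
    rw [hG]; exact pow_ne_zero _ PowerSeries.X_ne_zero
  have hdeg : ∀ n, (((W ^ n : P1[X]) : P).map (IsLocalRing.residue P1)).order.toNat = o * n :=
    fun n => by rw [hG, PowerSeries.order_X_pow]; rfl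
  have huniq : ∀ (n : ℕ) (r : P1[X]), r.degree < (o * n : ℕ) → ((W ^ n : P1[X]) : P) ∣ (r : P) →
      r = 0 := by
    intro n r hr ⟨s, hs⟩
    refine (PowerSeries.IsWeierstrassDivision.eq_zero (hGne n)
      (q := -s) ⟨?_, ?_⟩).2
    · show r.degree < (((W ^ n : P1[X]) : P).map (IsLocalRing.residue P1)).order.toNat
      rw [hdeg]; exact hr
    · rw [hs]; ring
  have hdivi : ∀ j, ∃ (w : P) (r : P1[X]), r.degree < (o * 3 : ℕ) ∧
      z j = ((W ^ 3 : P1[X]) : P) * w + r := fun j => by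
    obtain ⟨w, r, h1, h2⟩ := PowerSeries.exists_isWeierstrassDivision (z j) (hGne 3)
    refine ⟨w, r, ?_, h2⟩
    change r.degree < (((W ^ 3 : P1[X]) : P).map (IsLocalRing.residue P1)).order.toNat at h1
    rwa [hdeg] at h1
  choose w r hr hz using hdivi
  let a₀ : Fin o ⊕ ι × Fin (3 * o) → P1 :=
    Sum.elim (fun i => W.coeff i) fun p => (r p.1).coeff p.2
  have hmapW : (Wu o ι).map (sp0 a₀).toRingHom = W := by
    conv_rhs => rw [hWf.isDistinguishedAt.monic.as_sum, ← ho,
      ← Fin.sum_univ_eq_sum_range (fun i => C (W.coeff i) * X ^ i) o]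
    simp [Wu, sp0, a₀, Polynomial.map_sum]
  have hmapr : ∀ j, (ru o j).map (sp0 a₀).toRingHom = r j := fun j => by
    conv_rhs => rw [(r j).as_sum_range' (3 * o + 1) (Nat.lt_succ_of_le (natDegree_le_of_degree_le
      ((hr j).le.trans (by rw [mul_comm])))), Finset.sum_range_succ,
      coeff_eq_zero_of_degree_lt (lt_of_lt_of_le (hr j) (by rw [mul_comm])), map_zero, add_zero,
      ← Fin.sum_univ_eq_sum_range (fun i => monomial i ((r j).coeff i)) (3 * o)]
    simp [ru, sp0, a₀, Polynomial.map_sum, C_mul_X_pow_eq_monomial]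
  have hspW : spY a₀ (Wu o ι) = W := by rw [spY_eq, hmapW]
  have hz' : (fun j => spY a₀ (ru o j) + spY a₀ (Wu o ι) ^ 3 * w j) = z := funext fun j => by
    rw [hspW, spY_eq, hmapr, hz j, Polynomial.coe_pow, add_comm]
  -- the universal quotients and remainders
  choose QF hQF using universal_div (o := o) c HF (n := 2) (by norm_num)
  obtain ⟨QD, hQD⟩ := universal_div (o := o) c HD (n := 1) (by norm_num)
  have hQQ := fun j => universal_div (o := o) c (HQ j) (n := 1) (by norm_num)
  choose QQ hQQ using hQQ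
  let rem : ∀ (n : ℕ) (H : MvPolynomial (Fin 2 ⊕ ι) ℂ), Polynomial (U0 o ι) := fun n H =>
    val (bu c o ι) (ru o) H %ₘ Wu o ι ^ n
  have hrem : ∀ (a : Fin o ⊕ ι × Fin (3 * o) → P1) (n : ℕ) (H : MvPolynomial (Fin 2 ⊕ ι) ℂ),
      ((rem n H).map (sp0 a).toRingHom).degree < (o * n : ℕ) := fun a n H => by
    have hm : ((Wu o ι ^ n).map (sp0 a).toRingHom).Monic := (Wu_monic.pow n).map _
    rw [Polynomial.map_modByMonic _ (Wu_monic.pow n)]
    refine (degree_modByMonic_lt _ hm).trans_le (degree_le_of_natDegree_le ?_)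
    rw [(Wu_monic.pow n).natDegree_map, Wu_monic.natDegree_pow, mul_comm]
    refine Nat.mul_le_mul_right _ (natDegree_le_of_degree_le ?_)
    exact (degree_add_le _ _).trans (max_le (degree_X_pow_le o) (degree_sum_fin_lt _).le)
  have hkey : ∀ (n : ℕ) (H : MvPolynomial (Fin 2 ⊕ ι) ℂ) (Q : MvPolynomial ι (Polynomial (U0 o ι))),
      val (MvPolynomial.C ∘ bu c o ι) (zu o) H = MvPolynomial.C (Wu o ι ^ n) * Q
        + MvPolynomial.C (rem n H) →
      ∀ (a : Fin o ⊕ ι × Fin (3 * o) → P1) (v : ι → P),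
        val b (fun j => spY a (ru o j) + spY a (Wu o ι) ^ 3 * v j) H
          = spY a (Wu o ι) ^ n * sp a v Q + spY a (rem n H) := fun n H Q h a v => by
    rw [← sp_val, h, map_add, map_mul, sp_C, sp_C, map_pow]
  have hrem0 : ∀ (n : ℕ) (H : MvPolynomial (Fin 2 ⊕ ι) ℂ) (Q : MvPolynomial ι (Polynomial (U0 o ι))),
      val (MvPolynomial.C ∘ bu c o ι) (zu o) H = MvPolynomial.C (Wu o ι ^ n) * Q
        + MvPolynomial.C (rem n H) → ((W ^ n : P1[X]) : P) ∣ val b z H →
      (rem n H).map (sp0 a₀).toRingHom = 0 := fun n H Q h hdvd => by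
    refine huniq n _ (hrem a₀ n H) ?_
    have h1 := hkey n H Q h a₀ w
    rw [hz', hspW, spY_eq] at h1
    rw [eq_sub_of_add_eq' h1.symm, ← Polynomial.coe_pow]
    exact dvd_sub hdvd (Dvd.intro _ rfl)
  -- equations for the coefficients
  obtain ⟨a₁, ha₁, hclose, hker⟩ := approx1 hC hP (Fin o ⊕ ι × Fin (3 * o)) a₀ k
  have hvanish : ∀ (n : ℕ) (H : MvPolynomial (Fin 2 ⊕ ι) ℂ),
      (rem n H).map (sp0 a₀).toRingHom = 0 → spY a₁ (rem n H) = 0 := fun n H h => by
    rw [spY_eq, show (rem n H).map (sp0 a₁).toRingHom = 0 from Polynomial.ext fun i => by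
      rw [coeff_map, coeff_zero]
      refine hker _ ?_
      simpa [sp0, coeff_map] using congrArg (fun G => Polynomial.coeff G i) h, Polynomial.coe_zero]
  have hF0 := hrem0 2 HF QF hQF (by rw [hF]; exact dvd_zero _)
  have hD0 := hrem0 1 HD QD hQD (by
    rw [pow_one, ← hDdef]; exact Dvd.intro hu hWf.eq_mul.symm)
  have hQ0 := fun j => hrem0 1 (HQ j) (QQ j) (hQQ j) (by rw [hQ j]; exact dvd_zero _)
  -- exact values
  have hWne : (W : P) ≠ 0 := by
    simpa using hWf.isDistinguishedAt.monic.ne_zero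
  have hEz : sp a₀ w QF = 0 := by
    have h1 := hkey 2 HF QF hQF a₀ w
    rw [hz', hF, hspW, spY_eq a₀ (rem 2 HF), hF0, Polynomial.coe_zero, add_zero] at h1
    exact (mul_eq_zero.1 h1.symm).resolve_left (pow_ne_zero _ hWne)
  have hUz : sp a₀ w QD = hu := by
    have h1 := hkey 1 HD QD hQD a₀ w
    rw [hz', ← hDdef, hspW, spY_eq a₀ (rem 1 HD), hD0, Polynomial.coe_zero, add_zero, pow_one] at h1
    exact (mul_left_cancel₀ hWne (h1.symm.trans hWf.eq_mul))
  have hSz : ∀ j, sp a₀ w (QQ j) = 0 := fun j => by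
    have h1 := hkey 1 (HQ j) (QQ j) (hQQ j) a₀ w
    rw [hz', hQ j, hspW, spY_eq a₀ (rem 1 (HQ j)), hQ0 j, Polynomial.coe_zero, add_zero, pow_one]
      at h1
    exact (mul_eq_zero.1 h1.symm).resolve_left hWne
  -- the algebraic point
  let v : ι → P := fun j => toP (Alg.trunc k (w j))
  let z' : ι → P := fun j => spY a₁ (ru o j) + spY a₁ (Wu o ι) ^ 3 * v j
  have hbase : ∀ i, base2 i ∈ A := fun i => (hA _).2 ((hC.1 P 2 base2 ev2).base_mem i)
  have hΦ : varPhi ∈ A := hbase 0
  have hΨ : varPsi ∈ A := hbase 1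
  have hvA : ∀ j, v j ∈ A := fun j => by
    change MvPolynomial.aeval base2 (Alg.trunc k (w j)) ∈ A
    have hle : Algebra.adjoin ℂ (Set.range base2) ≤ A :=
      Algebra.adjoin_le (Set.range_subset_iff.2 hbase)
    exact hle (Algebra.adjoin_range_eq_range_aeval ℂ base2 ▸ ⟨_, rfl⟩)
  have ha₁A : ∀ i, PowerSeries.C (a₁ i) ∈ A := fun i => (hA _).2 (by
    refine hC.2 P1 P 1 2 base1 ev1 base2 ev2 constP (fun _ => MvPolynomial.X 0) (fun i => ?_)
      (fun s => ?_) _ (ha₁ i)
    · simp [base1, base2, varPhi, constP_apply]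
    · exact congrArg (PowerSeries.constantCoeff (R := ℂ)) (PowerSeries.constantCoeff_C s))
  have hmem : ∀ Q, sp a₁ v Q ∈ A := sp_mem a₁ hΦ hΨ ha₁A v hvA
  have hca : ∀ i, PowerSeries.C (a₁ i - a₀ i) ∈ mP ^ k := fun i => by
    obtain ⟨s, hs⟩ := hclose i
    rw [hs, map_mul, map_pow]
    exact Ideal.mul_mem_right _ _ (Ideal.pow_mem_pow varPhi_mem k)
  have hcw : ∀ j, v j - w j ∈ mP ^ k := fun j => by
    rw [← neg_sub]; exact neg_mem (sub_trunc_mem k (w j))
  have hclQ : ∀ Q, sp a₁ v Q - sp a₀ w Q ∈ mP ^ k := sp_close a₀ (mP ^ k) hca hcw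
  refine ⟨z', spY a₁ (Wu o ι), sp a₁ v QF, sp a₁ v QD, fun j => sp a₁ v (QQ j), fun j => ?_, ?_,
    hmem _, hmem _, fun j => hmem _, ?_, ?_, fun j => ?_, ?_, fun j => ?_, ?_, ?_, fun j => ?_⟩
  · simpa [zu, sp, z'] using hmem (zu o j)
  · simpa [sp_C] using hmem (MvPolynomial.C (Wu o ι))
  · refine IsLocalRing.notMem_maximalIdeal.1 fun h => ?_
    have h1 : sp a₁ v QD - sp a₀ w QD ∈ IsLocalRing.maximalIdeal P :=
      maximalIdeal_P ▸ Ideal.pow_le_self (by omega) (hclQ QD)
    rw [hUz] at h1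
    exact IsLocalRing.notMem_maximalIdeal.2 hWf.isUnit (by simpa using sub_mem h h1)
  · rw [spY_eq, Ne, Polynomial.coe_eq_zero_iff]
    exact ((Wu_monic (o := o) (ι := ι)).map (sp0 a₁).toRingHom).ne_zero
  · rw [← congrFun hz' j]
    have := hclQ (zu o j)
    simpa [zu, sp, z'] using this
  · have := hclQ QF
    rwa [hEz, sub_zero] at this
  · have := hclQ (QQ j)
    rwa [hSz, sub_zero] at this
  · rw [hkey 2 HF QF hQF a₁ v, hvanish 2 HF hF0, add_zero]
  · rw [hkey 1 HD QD hQD a₁ v, hvanish 1 HD hD0, add_zero, pow_one]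
  · rw [hkey 1 (HQ j) (QQ j) (hQQ j) a₁ v, hvanish 1 (HQ j) (hQ0 j), add_zero, pow_one]

omit a in
lemma base2_indep : AlgebraicIndependent ℂ base2 := by
  rw [algebraicIndependent_iff]
  intro p hp
  refine MvPolynomial.ext _ _ fun m => ?_
  rw [MvPolynomial.coeff_zero]
  have := cf_toP (m 0) (m 1) p
  rw [show toP p = 0 from hp, cf_zero] at this
  rw [this]
  congr 1
  ext i
  fin_cases i <;> simp

omit a in
/-- Module Approx. -/
theorem approx_ok : ClosureStatement → PresentStatement → ApproxStatement := by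
  intro hC hP σ _ x E hx k
  obtain ⟨t, F, l, q, u, θ, hF, hD, hq, hkill⟩ := hP P 2 base2 base2_indep σ x
  set z : Idx t σ → P := Sum.elim u (Sum.elim (fun _ => θ) x) with hzdef
  obtain ⟨c, hc⟩ := exists_regular (show val base2 z (eqD σ F l) ≠ 0 by rw [val_eqD]; exact hD)
  set b : Fin 2 → P := ![varPhi + c • varPsi, varPsi] with hb
  have hLb : (shear c : P → P) ∘ base2 = b := by
    funext i
    fin_cases i <;> simp [base2, b, shear_phi, shear_psi]
  have hmap : ∀ H, val b ((shear c : P → P) ∘ z) H = shear c (val base2 z H) := fun H => by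
    rw [map_val, hLb]
  obtain ⟨A, hA, hcl⟩ := rootClosed_of_props (hC.1 P 2 base2 ev2)
  obtain ⟨z', W, Ee, U, S, hz', hWA, hEA, hUA, hSA, hUu, hW0, hcl', hEI, hSI, h1, h2, h3⟩ :=
    weierstrass_data hC hP A hA (lift σ F) (eqD σ F l) (eqQ l q) c ((shear c : P → P) ∘ z)
      (by rw [hmap, val_lift]; exact (congrArg (shear c) hF).trans (map_zero _))
      (fun j => by rw [hmap, val_eqQ, sub_eq_zero.2 ?_, map_zero]; exact hq j)
      (by rw [hmap]; exact hc) (k := k + 1) (by omega)
  have hbA : ∀ i, b i ∈ A := by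
    have hbase : ∀ i, base2 i ∈ A := fun i => (hA _).2 ((hC.1 P 2 base2 ev2).base_mem i)
    intro i
    fin_cases i
    · exact add_mem (hbase 0) (A.smul_mem (hbase 1) c)
    · exact hbase 1
  obtain ⟨v, hvA, hvI, hvu, e1, e3⟩ := solve A hcl (mP ^ (k + 1))
    (fun g h0 h1 => exists_root g (by omega) h0 h1) b hbA F l q z' hz' W Ee U S hWA hEA hUA hSA hUu
    h1 h2 h3 hEI hSI
  have hback : (shear (-c) : P → P) ∘ b = base2 := by
    rw [← hLb]
    funext i
    exact shear_neg c (base2 i)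
  have hmap' : ∀ H, val base2 ((shear (-c) : P → P) ∘ v) H = shear (-c) (val b v H) := fun H => by
    rw [map_val, hback]
  refine ⟨fun j => shear (-c) (v (Sum.inr (Sum.inr j))), fun j => ?_, fun j => ?_, fun p hp => ?_⟩
  · refine hC.2 P P 2 2 base2 ev2 base2 ev2 (shear (-c))
      ![MvPolynomial.X 0 + MvPolynomial.C (-c) * MvPolynomial.X 1, MvPolynomial.X 1] (fun i => ?_)
      (fun s => ev2_shear (-c) s) _ ((hA _).1 (hvA _))
    fin_cases i <;> simp [base2, shear_phi, shear_psi, Algebra.smul_def]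
  · have h : v (Sum.inr (Sum.inr j)) - shear c (x j) ∈ mP ^ (k + 1) := by
      rw [← sub_add_sub_cancel _ (z' (Sum.inr (Sum.inr j))) (shear c (x j))]
      exact add_mem (hvI _) (hcl' (Sum.inr (Sum.inr j)))
    have h' := shear_mem (-c) h
    rw [map_sub, shear_neg] at h'
    exact Ideal.pow_le_pow_right (Nat.le_succ k) h'
  · refine hkill (fun i => shear (-c) (v (Sum.inl i))) (shear (-c) (v (Sum.inr (Sum.inl ()))))
      (fun j => shear (-c) (v (Sum.inr (Sum.inr j)))) ?_ (fun j => ?_) ?_ p (hx p hp)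
    · exact (val_lift base2 ((shear (-c) : P → P) ∘ v) F).symm.trans
        (by rw [hmap', e1, map_zero])
    · exact sub_eq_zero.1 ((val_eqQ base2 ((shear (-c) : P → P) ∘ v) l q j).symm.trans
        (by rw [hmap', e3, map_zero]))
    · intro h0
      refine mul_ne_zero hW0 hUu.ne_zero ?_
      rw [← h2, val_eqD]
      refine mul_eq_zero_of_right _ ?_
      have hinj : Function.Injective (shear (-c)) := fun s s' h => by
        have e := shear_neg (-c) s
        rw [h, shear_neg (-c) s'] at e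
        exact e.symm
      refine hinj ?_
      rw [map_zero, ← AlgHom.comp_apply, MvPolynomial.comp_aeval]
      refine Eq.trans ?_ h0
      congr 2
      funext s
      rcases s with i | i
      · exact congrFun hback i
      · simp [hvu i]

end TwoVariables

end Vale.Agent.P266.Alg
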