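import Vale.Agent.P266.Alg.Defs

/-!
P266: algebraisation assembled from its modules.
-/

noncomputable section

open Finset

namespace Vale.Agent.P266.Alg

variable {R : Type} [CommRing R] [Algebra ℂ R] [IsLocalRing R]

lemma comb_table {N : ℕ} (χ : Chart R N) {c : Fin (N + 1) → Fin (N + 1) → Fin (N + 1) → P}
    (hc : χ.HasTable c) (p : Fin (N + 1) → P) (i : Fin (N + 1)) :
    χ.e i * comb χ.phi χ.e p = comb χ.phi χ.e (fun m => ∑ l, p l * c i l m) := by
  simp only [comb, map_sum, map_mul, mul_sum, sum_mul]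
  rw [sum_comm]
  refine sum_congr rfl fun m _ => ?_
  rw [mul_left_comm, hc, comb, mul_sum]
  exact sum_congr rfl fun l _ => by ring

lemma comb_single {N : ℕ} (χ : Chart R N) (k : Fin (N + 1)) :
    comb χ.phi χ.e (fun m => if k = m then 1 else 0) = χ.e k := by
  simp [comb, apply_ite χ.phi, ite_mul]

lemma exists_table {N : ℕ} (χ : Chart R N) :
    ∃ c, χ.HasTable c ∧ IsTable c := by
  choose c hc using fun i j => χ.bij.2 (χ.e i * χ.e j)
  have ht : χ.HasTable c := fun i j => (hc i j).symm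
  refine ⟨c, ht, fun i j k => ?_, fun i j k m => ?_, fun j k => ?_⟩
  · exact congrFun (χ.bij.1 (by rw [hc, hc, mul_comm])) k
  · refine congrFun (χ.bij.1 (?_ : comb χ.phi χ.e (fun m => ∑ l, c j k l * c i l m)
      = comb χ.phi χ.e (fun m => ∑ l, c i j l * c l k m))) m
    have h1 := comb_table χ ht (c i j) k
    simp only [show ∀ l m, c k l m = c l k m from fun l m =>
      congrFun (χ.bij.1 (by rw [hc, hc, mul_comm])) m] at h1
    rw [← comb_table χ ht, ← h1, hc, hc]
    ring
  · refine congrFun (χ.bij.1 (?_ : comb χ.phi χ.e (c 0 j)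
      = comb χ.phi χ.e (fun k => if j = k then 1 else 0))) k
    rw [hc, comb_single, χ.e_zero, one_mul]

/-- The table equations as polynomials in the entries. -/
def tableEqs (N : ℕ) :
    Finset (MvPolynomial (Fin 2 ⊕ (Fin (N + 1) × Fin (N + 1) × Fin (N + 1))) ℂ) := by
  classical
  exact (univ.image fun t : Fin (N + 1) × Fin (N + 1) × Fin (N + 1) =>
      MvPolynomial.X (Sum.inr t) - MvPolynomial.X (Sum.inr (t.2.1, t.1, t.2.2))) ∪
    (univ.image fun t : (Fin (N + 1) × Fin (N + 1)) × Fin (N + 1) × Fin (N + 1) =>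
      ∑ l, MvPolynomial.X (Sum.inr (t.1.2, t.2.1, l)) * MvPolynomial.X (Sum.inr (t.1.1, l, t.2.2))
        - ∑ l, MvPolynomial.X (Sum.inr (t.1.1, t.1.2, l))
          * MvPolynomial.X (Sum.inr (l, t.2.1, t.2.2))) ∪
    univ.image fun t : Fin (N + 1) × Fin (N + 1) =>
      MvPolynomial.X (Sum.inr (0, t.1, t.2)) - (if t.1 = t.2 then 1 else 0)

lemma isTable_iff {N : ℕ} (c : Fin (N + 1) → Fin (N + 1) → Fin (N + 1) → P) :
    IsTable c ↔ ∀ p ∈ tableEqs N,
      MvPolynomial.aeval (Sum.elim base2 fun t => c t.1 t.2.1 t.2.2) p = 0 := by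
  classical
  rw [tableEqs, forall_mem_union, forall_mem_union, forall_mem_image, forall_mem_image,
    forall_mem_image]
  simp only [mem_univ, true_implies, Prod.forall, map_sub, map_sum, map_mul, MvPolynomial.aeval_X,
    Sum.elim_inr, sub_eq_zero, apply_ite (MvPolynomial.aeval _), map_one, map_zero, IsTable,
    and_assoc]

/-- The algebraisation theorem from its modules. -/
theorem algebraise (hP : ParamsStatement) (hF : FreeStatement) (hA : ApproxStatement)
    (hD : DeterminacyStatement) (hE : DescendStatement) : AlgebraiseStatement := by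
  intro R _ _ _ hR hreg hder
  have hne : IsLocalRing.maximalIdeal R ≠ ⊥ := fun h => by
    have hf := (IsLocalRing.isField_iff_maximalIdeal_eq).2 h
    have := ringKrullDim_eq_zero_of_isField hf
    rw [hR.dim] at this
    norm_num at this
  obtain ⟨a, ha, ha0⟩ := Submodule.exists_mem_ne_zero_of_ne_bot hne
  obtain ⟨b, hb, hK⟩ := hP R hR a ha ha0
  obtain ⟨N, χ, -, -⟩ := hF R hR a ha b hb hK
  obtain ⟨c, hc, htab⟩ := exists_table χ
  obtain ⟨k, hk⟩ := hD R hR N χ c hc htab
  have hE0 := (isTable_iff c).1 htab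
  obtain ⟨x, hx1, hx2, hx3⟩ := hA (Fin (N + 1) × Fin (N + 1) × Fin (N + 1))
    (fun t => c t.1 t.2.1 t.2.2) (tableEqs N) hE0 k
  have htab' : IsTable fun i j l => x (i, j, l) := by
    rw [isTable_iff, show (fun t : Fin (N + 1) × Fin (N + 1) × Fin (N + 1) => x (t.1, t.2.1, t.2.2))
      = x from rfl]
    exact hx3
  obtain ⟨χ', hχ'⟩ := hk _ htab' fun i j l => hx2 (i, j, l)
  exact hE R hR hreg hder N χ' _ hχ' htab' fun i j l => hx1 (i, j, l)

end Vale.Agent.P266.Alg
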