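import Vale.Agent.P266.Alg.Cocycle.Sep

/-!
A power of the parameters kills the classes of cocycles of a normal surface germ.
-/

noncomputable section

open Finset

namespace Vale.Agent.P266.Alg

namespace Cocycle

variable {R : Type} [CommRing R] [Algebra ℂ R] [IsLocalRing R]

/-- A uniformiser at a prime of height at most one of a germ. -/
lemma exists_uniformiser (hR : IsGerm R) (p : Ideal R) [p.IsPrime]
    (hp : p ≠ IsLocalRing.maximalIdeal R) :
    ∃ a ∈ IsLocalRing.maximalIdeal R, a ≠ 0 ∧
      ∀ x ∈ p, x = 0 ∨ (a ∈ p ∧ ∃ s, s ∉ p ∧ ∃ r, s * x = a * r) := by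
  have := hR.domain
  have := hR.noetherian
  have := hR.closed
  have hple : p ≤ IsLocalRing.maximalIdeal R :=
    IsLocalRing.le_maximalIdeal (Ideal.IsPrime.ne_top inferInstance)
  rcases eq_or_ne p ⊥ with rfl | hp0
  · obtain ⟨a, ha, ha0⟩ := Submodule.exists_mem_ne_zero_of_ne_bot (Ne.symm hp)
    exact ⟨a, ha, ha0, fun x hx => Or.inl (by simpa using hx)⟩
  let S := Localization.AtPrime p
  have hle : p.primeCompl ≤ nonZeroDivisors R :=
    le_nonZeroDivisors_of_noZeroDivisors fun h => h (zero_mem p)
  have : IsDomain S := IsLocalization.isDomain_localization hle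
  have : IsNoetherianRing S := IsLocalization.isNoetherianRing p.primeCompl S inferInstance
  have : IsIntegrallyClosed S := isIntegrallyClosed_of_isLocalization S p.primeCompl hle
  have hinj : Function.Injective (algebraMap R S) := IsLocalization.injective S hle
  have : Ring.DimensionLEOne S := by
    refine ⟨fun {P} hP0 hP => ?_⟩
    obtain ⟨hq, hqp⟩ := ((IsLocalization.AtPrime.orderIsoOfPrime S p) ⟨P, hP⟩).2
    set q := ((IsLocalization.AtPrime.orderIsoOfPrime S p) ⟨P, hP⟩).1 with hqdef
    have hqP : q = P.comap (algebraMap R S) := rfl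
    have hmap : q.map (algebraMap R S) = P := by
      rw [hqP]; exact IsLocalization.map_under p.primeCompl S P
    have hqne : q ≠ ⊥ := fun h => hP0 (by rw [← hmap, h, Ideal.map_bot])
    have hqeq : q = p := by
      by_contra hne
      let s : LTSeries (PrimeSpectrum R) :=
        { length := 3
          toFun := ![⟨⊥, Ideal.isPrime_bot⟩, ⟨q, hq⟩, ⟨p, inferInstance⟩,
            ⟨IsLocalRing.maximalIdeal R, inferInstance⟩]
          step := fun i => by
            fin_cases i
            · exact bot_lt_iff_ne_bot.2 hqne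
            · exact lt_of_le_of_ne hqp hne
            · exact lt_of_le_of_ne hple hp }
      have h3 := Order.LTSeries.length_le_krullDim s
      have hd : Order.krullDim (PrimeSpectrum R) = 2 := hR.dim
      rw [hd] at h3
      have h4 : ((3 : ℕ) : WithBot ℕ∞) ≤ ((2 : ℕ) : WithBot ℕ∞) := h3
      exact absurd (Nat.cast_le.1 h4) (by norm_num)
    rw [← hmap, hqeq, Localization.AtPrime.map_eq_maximalIdeal]
    exact IsLocalRing.maximalIdeal.isMaximal S
  have : IsDedekindRing S := {}
  have : IsDedekindDomain S := {}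
  have : IsPrincipalIdealRing S := inferInstance
  obtain ⟨g, hg⟩ := (IsPrincipalIdealRing.principal (IsLocalRing.maximalIdeal S)).principal
  obtain ⟨⟨u, t⟩, hut⟩ := IsLocalization.surj p.primeCompl g
  have hgm : g ∈ IsLocalRing.maximalIdeal S := by
    rw [hg]; exact Submodule.mem_span_singleton_self g
  have hu : u ∈ p := by
    have : algebraMap R S u ∈ IsLocalRing.maximalIdeal S := hut ▸ Ideal.mul_mem_right _ _ hgm
    exact (IsLocalization.AtPrime.to_map_mem_maximal_iff S p u).1 this
  have hu0 : u ≠ 0 := by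
    intro h
    rw [h, map_zero] at hut
    have ht : IsUnit (algebraMap R S t) := IsLocalization.map_units S t
    have hg0 : g = 0 := ht.mul_left_eq_zero.1 hut
    obtain ⟨x, hx, hx0⟩ := Submodule.exists_mem_ne_zero_of_ne_bot hp0
    have hxm : algebraMap R S x ∈ IsLocalRing.maximalIdeal S := by
      rw [← Localization.AtPrime.map_eq_maximalIdeal]; exact Ideal.mem_map_of_mem _ hx
    rw [hg, hg0, Submodule.mem_span_singleton] at hxm
    obtain ⟨c, hc⟩ := hxm
    rw [smul_zero] at hc
    exact hx0 (hinj (by rw [← hc, map_zero]))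
  refine ⟨u, hple hu, hu0, fun x hx => Or.inr ⟨hu, ?_⟩⟩
  have hxm : algebraMap R S x ∈ IsLocalRing.maximalIdeal S := by
    rw [← Localization.AtPrime.map_eq_maximalIdeal]; exact Ideal.mem_map_of_mem _ hx
  rw [hg, Submodule.mem_span_singleton] at hxm
  obtain ⟨w, hw⟩ := hxm
  obtain ⟨⟨r, s⟩, hrs⟩ := IsLocalization.surj p.primeCompl w
  refine ⟨(t * s : p.primeCompl), (t * s : p.primeCompl).2, r, hinj ?_⟩
  rw [map_mul, map_mul, Submonoid.coe_mul, map_mul, ← hw, smul_eq_mul, ← hrs, ← hut]
  ring

variable {N : ℕ} (χ : Chart R N) (c : Fin (N + 1) → Fin (N + 1) → Fin (N + 1) → P)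

/-- The coordinates of an element. -/
def coord (x : R) : Fin (N + 1) → P := Function.surjInv χ.bij.2 x

lemma comb_coord (x : R) : comb χ.phi χ.e (coord χ x) = x := Function.surjInv_eq χ.bij.2 x

lemma coord_eq {x : R} {p : Fin (N + 1) → P} (h : comb χ.phi χ.e p = x) : coord χ x = p :=
  χ.bij.1 (by rw [comb_coord, h])

variable {c}

lemma rot {ι M : Type} [AddCommMonoid M] [Fintype ι] (f : ι → ι → ι → M) :
    ∑ a, ∑ b, ∑ c, f a b c = ∑ c, ∑ a, ∑ b, f a b c :=
  (sum_congr rfl fun _ _ => sum_comm).trans sum_comm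

/-- The bilinear extension of a cocycle on a basis. -/
def extend (hc : χ.HasTable c) (b : Fin (N + 1) → Fin (N + 1) → R) (hb : χ.IsCocycle c b) :
    Coc χ.phi where
  B x y := ∑ i, ∑ j, χ.phi (coord χ x i * coord χ y j) * b i j
  add_left x y z := by
    have h : coord χ (x + y) = coord χ x + coord χ y := by
      refine coord_eq χ ?_
      conv_rhs => rw [← comb_coord χ x, ← comb_coord χ y]
      simp [comb, add_mul, sum_add_distrib]
    simp only [h, Pi.add_apply, add_mul, map_add, sum_add_distrib]
  symm x y := by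
    rw [sum_comm]
    exact sum_congr rfl fun i _ => sum_congr rfl fun j _ => by rw [hb.1 j i, mul_comm (coord χ x j)]
  one_left y := by
    have h : coord χ 1 = fun i => if 0 = i then 1 else 0 := coord_eq χ (by
      simp [comb, apply_ite χ.phi, ite_mul, χ.e_zero])
    simp [h, apply_ite χ.phi, ite_mul, hb.2.1]
  lin f x y := by
    have h : coord χ (χ.phi f * x) = fun i => f * coord χ x i := by
      refine coord_eq χ ?_
      conv_rhs => rw [← comb_coord χ x]
      simp [comb, mul_sum, mul_assoc]
    simp only [h, map_mul, mul_sum, mul_assoc]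
  assoc x y z := by
    have hmul : ∀ x y, coord χ (x * y) =
        fun l => ∑ i, ∑ j, coord χ x i * coord χ y j * c i j l := by
      intro x y
      refine coord_eq χ ?_
      conv_rhs => rw [← comb_coord χ x, ← comb_coord χ y]
      simp only [comb, map_sum, sum_mul, map_mul]
      rw [sum_comm]
      refine sum_congr rfl fun i _ => ?_
      rw [sum_comm, mul_sum]
      refine sum_congr rfl fun j _ => ?_
      refine Eq.trans (b := χ.phi (coord χ x i) * χ.phi (coord χ y j) * comb χ.phi χ.e (c i j)) ?_
        (by rw [← hc i j]; ring)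
      simp [comb, mul_sum, mul_assoc]
    have key : ∀ i j k, χ.e i * b j k + ∑ l, χ.phi (c j k l) * b i l
        = χ.e k * b i j + ∑ l, χ.phi (c i j l) * b l k := hb.2.2
    set X := coord χ x with hX
    set Y := coord χ y with hY
    set Z := coord χ z with hZ
    have e1 : x * (∑ j, ∑ k, χ.phi (Y j * Z k) * b j k) +
        (∑ i, ∑ l, χ.phi (X i * coord χ (y * z) l) * b i l) =
        ∑ i, ∑ j, ∑ k, χ.phi (X i * Y j * Z k) *
          (χ.e i * b j k + ∑ l, χ.phi (c j k l) * b i l) := by
      simp only [mul_add, sum_add_distrib]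
      congr 1
      · conv_lhs => rw [← comb_coord χ x, ← hX]
        simp only [comb, sum_mul, mul_sum, map_mul]
        rw [rot]
        exact sum_congr rfl fun i _ => sum_congr rfl fun j _ => sum_congr rfl fun k _ => by ring
      · simp only [hmul, ← hY, ← hZ, mul_sum, map_sum, sum_mul, map_mul]
        refine sum_congr rfl fun i _ => ?_
        rw [sum_comm]
        refine sum_congr rfl fun j _ => ?_
        rw [sum_comm]
        exact sum_congr rfl fun k _ => sum_congr rfl fun l _ => by ring
    have e2 : z * (∑ i, ∑ j, χ.phi (X i * Y j) * b i j) +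
        (∑ l, ∑ k, χ.phi (coord χ (x * y) l * Z k) * b l k) =
        ∑ i, ∑ j, ∑ k, χ.phi (X i * Y j * Z k) *
          (χ.e k * b i j + ∑ l, χ.phi (c i j l) * b l k) := by
      simp only [mul_add, sum_add_distrib]
      congr 1
      · conv_lhs => rw [← comb_coord χ z, ← hZ]
        simp only [comb, sum_mul, mul_sum, map_mul]
        exact sum_congr rfl fun i _ => sum_congr rfl fun j _ => sum_congr rfl fun k _ => by ring
      · simp only [hmul, ← hX, ← hY, mul_sum, map_sum, sum_mul, map_mul]
        rw [sum_comm]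
        conv_lhs => arg 2; ext k; rw [sum_comm]
        rw [sum_comm]
        refine sum_congr rfl fun i _ => ?_
        conv_lhs => arg 2; ext k; rw [sum_comm]
        rw [sum_comm]
        exact sum_congr rfl fun j _ => sum_congr rfl fun k _ => sum_congr rfl fun l _ => by ring
    rw [e1, e2]
    simp only [key]

lemma extend_basis (hc : χ.HasTable c) (b : Fin (N + 1) → Fin (N + 1) → R)
    (hb : χ.IsCocycle c b) (i j : Fin (N + 1)) : (extend χ hc b hb).B (χ.e i) (χ.e j) = b i j := by
  have h : ∀ k, coord χ (χ.e k) = fun m => if k = m then 1 else 0 := fun k => coord_eq χ (by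
    simp [comb, apply_ite χ.phi, ite_mul])
  simp [extend, h, apply_ite χ.phi, ite_mul]

/-- The elements killing the classes of cocycles. -/
def killer : Ideal R where
  carrier := {θ | ∀ b, χ.IsCocycle c b →
    ∃ (α β : R) (γ : Fin (N + 1) → R), γ 0 = 0 ∧ ∀ i j, θ * b i j = χ.cobd c α β γ i j}
  zero_mem' b _ := ⟨0, 0, 0, rfl, fun i j => by simp [Chart.cobd]⟩
  add_mem' {θ θ'} h h' b hb := by
    obtain ⟨α, β, γ, h0, e⟩ := h b hb
    obtain ⟨α', β', γ', h0', e'⟩ := h' b hb
    refine ⟨α + α', β + β', γ + γ', by simp [h0, h0'], fun i j => ?_⟩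
    rw [add_mul, e, e']
    simp only [Chart.cobd, Pi.add_apply, mul_add, add_mul, sum_add_distrib]
    ring
  smul_mem' r θ h b hb := by
    obtain ⟨α, β, γ, h0, e⟩ := h b hb
    refine ⟨r * α, r * β, r • γ, by simp [h0], fun i j => ?_⟩
    rw [smul_eq_mul, mul_assoc, e]
    simp only [Chart.cobd, Pi.smul_apply, smul_eq_mul, mul_sub, mul_add, mul_sum,
      sum_add_distrib, mul_comm, mul_left_comm, mul_assoc]

/-- Outside every prime other than the maximal ideal some element kills all classes. -/
theorem exists_killer (hP : ParamsStatement) (hF : FreeStatement) (hR : IsGerm R)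
    (hc : χ.HasTable c) (p : Ideal R) [p.IsPrime] (hp : p ≠ IsLocalRing.maximalIdeal R) :
    ∃ θ ∈ killer χ (c := c), θ ∉ p := by
  obtain ⟨a, ha, ha0, hax⟩ := exists_uniformiser hR p hp
  obtain ⟨b', hb', hK⟩ := hP R hR a ha ha0
  obtain ⟨M, χ', h1, -⟩ := hF R hR a ha b' hb' hK
  obtain ⟨θ, hθ, hsep⟩ := exists_sep χ' p (by rw [h1]; exact hax)
  have := hR.complete
  refine ⟨θ, fun b hb => ?_, hθ⟩
  obtain ⟨C', σ, hC'⟩ := exists_transport χ χ' (extend χ hc b hb) hR.complete
  obtain ⟨γ, hγ⟩ := hsep C'
  set C := extend χ hc b hb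
  let lam : R →ₗ[ℂ] R := γ - θ • σ
  have hlam : ∀ x y, θ * C.B x y = x * lam y + y * lam x - lam (x * y) := fun x y => by
    have e := hγ x y
    rw [hC'] at e
    simp only [lam, LinearMap.sub_apply, LinearMap.smul_apply, smul_eq_mul]
    linear_combination e
  have hphi : ∀ f y, lam (χ.phi f * y) = χ.phi f * lam y + y * lam (χ.phi f) := fun f y => by
    have e := hlam (χ.phi f) y
    rw [C.phi_left, mul_zero] at e
    linear_combination e
  let D : P →ₗ[ℂ] R := lam.comp χ.phi.toLinearMap
  have hD : ∀ f g, D (f * g) = χ.phi f * D g + χ.phi g * D f := fun f g => by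
    simp only [D, LinearMap.comp_apply, AlgHom.toLinearMap_apply, map_mul]
    exact hphi f (χ.phi g)
  have hDe : ∀ f, lam (χ.phi f) = χ.phi (dPhi f) * D varPhi + χ.phi (dPsi f) * D varPsi := fun f =>
    derivation_eq (IsLocalRing.maximalIdeal R) χ.phi χ.mem_phi χ.mem_psi D hD f
  refine ⟨D varPhi, D varPsi, fun i => lam (χ.e i), ?_, fun i j => ?_⟩
  · have e := hlam 1 1
    rw [C.one_left, mul_zero, mul_one, one_mul, add_sub_cancel_right] at e
    show lam (χ.e 0) = 0
    rw [χ.e_zero, ← e]
  · have e := hlam (χ.e i) (χ.e j)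
    rw [extend_basis χ hc b hb] at e
    rw [e, hc i j, Chart.cobd, comb, map_sum, sub_sub, ← sum_add_distrib]
    congr 1
    refine sum_congr rfl fun k _ => ?_
    rw [hphi, hDe]
    ring

end Cocycle

open Cocycle

/-- Module Cocycle. -/
theorem cocycle_ok : ParamsStatement → FreeStatement → CocycleStatement := by
  intro hP hF R _ _ _ hR N χ c hc _
  have := hR.noetherian
  have hrad : IsLocalRing.maximalIdeal R ≤ (killer χ (c := c)).radical := by
    rw [Ideal.radical_eq_sInf]
    refine le_sInf fun p ⟨hle, hp⟩ => ?_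
    by_contra hne
    obtain ⟨θ, hθ, hθp⟩ := exists_killer χ hP hF hR hc p
      fun h => hne (le_of_eq h.symm)
    exact hθp (hle hθ)
  obtain ⟨h, hh⟩ := Ideal.exists_pow_le_of_le_radical_of_fg hrad (IsNoetherian.noetherian _)
  exact ⟨h, fun θ hθ => hh (Ideal.pow_right_mono χ.J_le h hθ)⟩

end Vale.Agent.P266.Alg
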