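import Mathlib

/-!
P266, algebraisation of a complete surface germ: definitions and module statements.

`P` is `ℂ⟦Φ⟧⟦Ψ⟧`; a chart of a complete local `ℂ`-algebra `R` presents it as a free `P`-module.
-/

noncomputable section

open scoped PowerSeries
open Finset

namespace Vale.Agent.P266.Alg

/-- Power series in one variable. -/
abbrev P1 : Type := PowerSeries ℂ

/-- Power series in the two variables `Φ` (inner) and `Ψ` (outer). -/
abbrev P : Type := PowerSeries P1

/-- The variable `Φ`. -/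
def varPhi : P := PowerSeries.C PowerSeries.X

/-- The variable `Ψ`. -/
def varPsi : P := PowerSeries.X

/-- The coefficient of `Φ^i Ψ^j`. -/
def cf (i j : ℕ) (f : P) : ℂ := PowerSeries.coeff i (PowerSeries.coeff j f)

/-- The ideal of series vanishing at the origin. -/
def mP : Ideal P := Ideal.span {varPhi, varPsi}

/-- `∂/∂Φ`. -/
def dPhi (f : P) : P :=
  PowerSeries.mk fun j => PowerSeries.derivative ℂ (PowerSeries.coeff j f)

/-- `∂/∂Ψ`. -/
def dPsi (f : P) : P := PowerSeries.derivative P1 f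

/-- Evaluation of a series in one variable at the origin. -/
def ev1 : P1 →ₐ[ℂ] ℂ :=
  { (PowerSeries.constantCoeff : P1 →+* ℂ) with
    commutes' := fun _ => by simp }

/-- Evaluation of a series in two variables at the origin. -/
def ev2 : P →ₐ[ℂ] ℂ :=
  { (PowerSeries.constantCoeff : P1 →+* ℂ).comp (PowerSeries.constantCoeff : P →+* P1) with
    commutes' := fun c => by simp [PowerSeries.algebraMap_apply] }

/-- The coordinates in one variable. -/
def base1 : Fin 1 → P1 := ![PowerSeries.X]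

/-- The coordinates in two variables. -/
def base2 : Fin 2 → P := ![varPhi, varPsi]

section Algebraic

variable {T : Type} [CommRing T] [Algebra ℂ T] {d : ℕ}

/-- `v` solves a square polynomial system with invertible Jacobian at the origin. -/
def IsSys (base : Fin d → T) (ev : T →ₐ[ℂ] ℂ) {n : ℕ}
    (F : Fin n → MvPolynomial (Fin d ⊕ Fin n) ℂ) (v : Fin n → T) : Prop :=
  (∀ l, MvPolynomial.aeval (Sum.elim base v) (F l) = 0) ∧
    (Matrix.of fun l m => ev (MvPolynomial.aeval (Sum.elim base v)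
      (MvPolynomial.pderiv (Sum.inr m) (F l)))).det ≠ 0

/-- An algebraic series: a component of the solution of such a system. -/
def IsAlgOver (base : Fin d → T) (ev : T →ₐ[ℂ] ℂ) (s : T) : Prop :=
  ∃ (n : ℕ) (F : Fin n → MvPolynomial (Fin d ⊕ Fin n) ℂ) (v : Fin n → T) (i : Fin n),
    IsSys base ev F v ∧ v i = s

end Algebraic

/-- Algebraic series in one variable. -/
def IsAlg1 (s : P1) : Prop := IsAlgOver base1 ev1 s

/-- Algebraic series in two variables. -/
def IsAlg2 (s : P) : Prop := IsAlgOver base2 ev2 s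

section Germ

variable (R : Type) [CommRing R] [Algebra ℂ R] [IsLocalRing R]

/-- The hypotheses on the formal germ. -/
structure IsGerm : Prop where
  domain : IsDomain R
  noetherian : IsNoetherianRing R
  complete : IsAdicComplete (IsLocalRing.maximalIdeal R) R
  closed : IsIntegrallyClosed R
  residue : Function.Surjective (algebraMap ℂ (IsLocalRing.ResidueField R))
  dim : ringKrullDim R = 2

variable {R}

/-- The element with coordinates `p` in the family `e`. -/
def comb (phi : P →ₐ[ℂ] R) {N : ℕ} (e : Fin N → R) (p : Fin N → P) : R :=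
  ∑ i, phi (p i) * e i

variable (R)

/-- A presentation as a free module over two parameters. -/
structure Chart (N : ℕ) where
  phi : P →ₐ[ℂ] R
  e : Fin (N + 1) → R
  e_zero : e 0 = 1
  bij : Function.Bijective (comb phi e)
  mem_phi : phi varPhi ∈ IsLocalRing.maximalIdeal R
  mem_psi : phi varPsi ∈ IsLocalRing.maximalIdeal R
  primary : ∃ K : ℕ, IsLocalRing.maximalIdeal R ^ K ≤ mP.map phi

variable {R} {N : ℕ}

/-- The ideal of the two parameters. -/
def Chart.J (χ : Chart R N) : Ideal R := mP.map χ.phi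

/-- `c` is the multiplication table of the chart. -/
def Chart.HasTable (χ : Chart R N) (c : Fin (N + 1) → Fin (N + 1) → Fin (N + 1) → P) : Prop :=
  ∀ i j, χ.e i * χ.e j = comb χ.phi χ.e (c i j)

/-- A symmetric normalised Hochschild two-cocycle. -/
def Chart.IsCocycle (χ : Chart R N) (c : Fin (N + 1) → Fin (N + 1) → Fin (N + 1) → P)
    (b : Fin (N + 1) → Fin (N + 1) → R) : Prop :=
  (∀ i j, b i j = b j i) ∧ (∀ j, b 0 j = 0) ∧
    ∀ i j k, χ.e i * b j k + ∑ l, χ.phi (c j k l) * b i l
      = χ.e k * b i j + ∑ l, χ.phi (c i j l) * b l k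

/-- The first variation of the table along `(α, β, γ)`. -/
def Chart.cobd (χ : Chart R N) (c : Fin (N + 1) → Fin (N + 1) → Fin (N + 1) → P)
    (α β : R) (γ : Fin (N + 1) → R) (i j : Fin (N + 1)) : R :=
  χ.e i * γ j + χ.e j * γ i - ∑ k, χ.phi (c i j k) * γ k
    - ∑ k, (χ.phi (dPhi (c i j k)) * α + χ.phi (dPsi (c i j k)) * β) * χ.e k

end Germ

/-- A commutative associative table with unit the first basis element. -/
def IsTable {N : ℕ} (c : Fin (N + 1) → Fin (N + 1) → Fin (N + 1) → P) : Prop :=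
  (∀ i j k, c i j k = c j i k) ∧
    (∀ i j k m, ∑ l, c j k l * c i l m = ∑ l, c i j l * c l k m) ∧
    ∀ j k, c 0 j k = if j = k then 1 else 0

/-- Closure properties of algebraic series. -/
structure AlgClosedProps {T : Type} [CommRing T] [Algebra ℂ T] {d : ℕ} (base : Fin d → T)
    (ev : T →ₐ[ℂ] ℂ) : Prop where
  subalgebra : ∃ A : Subalgebra ℂ T, ∀ s, s ∈ A ↔ IsAlgOver base ev s
  base_mem : ∀ i, IsAlgOver base ev (base i)
  inv : ∀ s u : T, IsAlgOver base ev s → u * s = 1 → IsAlgOver base ev u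
  root : ∀ (H : Polynomial T) (r : T), (∀ n, IsAlgOver base ev (H.coeff n)) →
    H.eval r = 0 → ev (H.derivative.eval r) ≠ 0 → IsAlgOver base ev r
  common : ∀ {σ : Type} [Fintype σ] (s : σ → T), (∀ j, IsAlgOver base ev (s j)) →
    ∃ (n : ℕ) (F : Fin n → MvPolynomial (Fin d ⊕ Fin n) ℂ) (v : Fin n → T),
      IsSys base ev F v ∧ ∀ j, ∃ i, v i = s j

/-- Module Closure. -/
def ClosureStatement : Prop :=
  (∀ (T : Type) [CommRing T] [Algebra ℂ T] (d : ℕ) (base : Fin d → T) (ev : T →ₐ[ℂ] ℂ),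
    AlgClosedProps base ev) ∧
  ∀ (T T' : Type) [CommRing T] [Algebra ℂ T] [CommRing T'] [Algebra ℂ T'] (d d' : ℕ)
    (base : Fin d → T) (ev : T →ₐ[ℂ] ℂ) (base' : Fin d' → T') (ev' : T' →ₐ[ℂ] ℂ)
    (ρ : T →ₐ[ℂ] T') (L : Fin d → MvPolynomial (Fin d') ℂ),
    (∀ i, ρ (base i) = MvPolynomial.aeval base' (L i)) → (∀ s, ev' (ρ s) = ev s) →
    ∀ s, IsAlgOver base ev s → IsAlgOver base' ev' (ρ s)

/-- Module Present: one equation and denominators for the point `x`. -/
def PresentStatement : Prop :=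
  ∀ (T : Type) [CommRing T] [Algebra ℂ T] [IsDomain T] (d : ℕ) (base : Fin d → T),
    AlgebraicIndependent ℂ base → ∀ (σ : Type) [Fintype σ] (x : σ → T),
    ∃ (t : ℕ) (F : Polynomial (MvPolynomial (Fin d ⊕ Fin t) ℂ))
      (ℓ : MvPolynomial (Fin d ⊕ Fin t) ℂ)
      (q : σ → Polynomial (MvPolynomial (Fin d ⊕ Fin t) ℂ)) (u : Fin t → T) (θ : T),
      Polynomial.eval₂ (MvPolynomial.aeval (Sum.elim base u)).toRingHom θ F = 0 ∧
      Polynomial.eval₂ (MvPolynomial.aeval (Sum.elim base u)).toRingHom θ F.derivative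
        * MvPolynomial.aeval (Sum.elim base u) ℓ ≠ 0 ∧
      (∀ j, Polynomial.eval₂ (MvPolynomial.aeval (Sum.elim base u)).toRingHom θ (q j)
        = MvPolynomial.aeval (Sum.elim base u) ℓ * x j) ∧
      ∀ (u' : Fin t → T) (θ' : T) (x' : σ → T),
        Polynomial.eval₂ (MvPolynomial.aeval (Sum.elim base u')).toRingHom θ' F = 0 →
        (∀ j, Polynomial.eval₂ (MvPolynomial.aeval (Sum.elim base u')).toRingHom θ' (q j)
          = MvPolynomial.aeval (Sum.elim base u') ℓ * x' j) →
        MvPolynomial.aeval (Sum.elim base u') ℓ ≠ 0 →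
        ∀ p : MvPolynomial (Fin d ⊕ σ) ℂ, MvPolynomial.aeval (Sum.elim base x) p = 0 →
          MvPolynomial.aeval (Sum.elim base x') p = 0

/-- Module Approx: solutions are approximated by algebraic solutions. -/
def ApproxStatement : Prop :=
  ∀ (σ : Type) [Fintype σ] (x : σ → P) (E : Finset (MvPolynomial (Fin 2 ⊕ σ) ℂ)),
    (∀ p ∈ E, MvPolynomial.aeval (Sum.elim base2 x) p = 0) → ∀ k : ℕ,
    ∃ x' : σ → P, (∀ j, IsAlg2 (x' j)) ∧ (∀ j, x' j - x j ∈ mP ^ k) ∧
      ∀ p ∈ E, MvPolynomial.aeval (Sum.elim base2 x') p = 0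

/-- Module Normal, parameters: any nonzero element of the maximal ideal is part of a system. -/
def ParamsStatement : Prop :=
  ∀ (R : Type) [CommRing R] [Algebra ℂ R] [IsLocalRing R], IsGerm R →
    ∀ a ∈ IsLocalRing.maximalIdeal R, a ≠ 0 → ∃ b ∈ IsLocalRing.maximalIdeal R,
      ∃ K : ℕ, IsLocalRing.maximalIdeal R ^ K ≤ Ideal.span {a, b}

/-- Module Normal: a germ is free over every system of parameters. -/
def FreeStatement : Prop :=
  ∀ (R : Type) [CommRing R] [Algebra ℂ R] [IsLocalRing R], IsGerm R →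
    ∀ a ∈ IsLocalRing.maximalIdeal R, ∀ b ∈ IsLocalRing.maximalIdeal R,
      (∃ K : ℕ, IsLocalRing.maximalIdeal R ^ K ≤ Ideal.span {a, b}) →
      ∃ (N : ℕ) (χ : Chart R N), χ.phi varPhi = a ∧ χ.phi varPsi = b

/-- Module Cocycle: a power of the parameters kills the classes of cocycles. -/
def CocycleStatement : Prop :=
  ∀ (R : Type) [CommRing R] [Algebra ℂ R] [IsLocalRing R], IsGerm R →
    ∀ (N : ℕ) (χ : Chart R N) (c : Fin (N + 1) → Fin (N + 1) → Fin (N + 1) → P),
      χ.HasTable c → IsTable c → ∃ h : ℕ, ∀ θ ∈ χ.J ^ h, ∀ b, χ.IsCocycle c b →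
        ∃ (α β : R) (γ : Fin (N + 1) → R), γ 0 = 0 ∧ ∀ i j, θ * b i j = χ.cobd c α β γ i j

/-- Module Determinacy: nearby tables give the same ring. -/
def DeterminacyStatement : Prop :=
  ∀ (R : Type) [CommRing R] [Algebra ℂ R] [IsLocalRing R], IsGerm R →
    ∀ (N : ℕ) (χ : Chart R N) (c : Fin (N + 1) → Fin (N + 1) → Fin (N + 1) → P),
      χ.HasTable c → IsTable c → ∃ k : ℕ, ∀ c' : Fin (N + 1) → Fin (N + 1) → Fin (N + 1) → P,
        IsTable c' → (∀ i j l, c' i j l - c i j l ∈ mP ^ k) →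
        ∃ χ' : Chart R N, χ'.HasTable c'

/-- The negation of the Lipman-Zariski conjecture. -/
def Counterexample : Prop :=
  ∃ (A : Type) (_ : CommRing A) (_ : Algebra ℂ A), IsDomain A ∧ Algebra.FiniteType ℂ A ∧
    Module.Projective A (Derivation ℂ A A) ∧ Nonempty (Module.Basis (Fin 2) A (Derivation ℂ A A)) ∧
    ¬ IsRegularRing A

/-- Module Descend: an algebraic table gives an algebraic counterexample. -/
def DescendStatement : Prop :=
  ∀ (R : Type) [CommRing R] [Algebra ℂ R] [IsLocalRing R], IsGerm R → ¬ IsRegularLocalRing R →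
    Nonempty (Module.Basis (Fin 2) R (Derivation ℂ R R)) →
    ∀ (N : ℕ) (χ : Chart R N) (c : Fin (N + 1) → Fin (N + 1) → Fin (N + 1) → P),
      χ.HasTable c → IsTable c → (∀ i j l, IsAlg2 (c i j l)) → Counterexample

/-- Algebraisation: a singular normal formal germ with free derivations gives a counterexample. -/
def AlgebraiseStatement : Prop :=
  ∀ (R : Type) [CommRing R] [Algebra ℂ R] [IsLocalRing R], IsGerm R → ¬ IsRegularLocalRing R →
    Nonempty (Module.Basis (Fin 2) R (Derivation ℂ R R)) → Counterexample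

end Vale.Agent.P266.Alg
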