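import Vale.Agent.P266.Alg.Descend.Localise

/-!
P266: a germ with algebraic table gives an algebraic counterexample.
-/

noncomputable section

open scoped PowerSeries
open Finset MvPolynomial

namespace Vale.Agent.P266.Alg.Descend

variable {R : Type} [CommRing R] [Algebra ℂ R] [IsLocalRing R] [IsDomain R] {N n : ℕ}
  (χ : Chart R N) (v : Fin n → P) (u : R)

/-- The generators with one denominator. -/
def genU : genSet N n ⊕ Unit → R := Sum.elim (gen χ v) fun _ => u

/-- The algebra with one denominator. -/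
def subU : Subalgebra ℂ R := (MvPolynomial.aeval (R := ℂ) (genU χ v u)).range

instance : Algebra.FiniteType ℂ (subU χ v u) :=
  Algebra.FiniteType.of_surjective (MvPolynomial.aeval (R := ℂ) (genU χ v u)).rangeRestrict
    (AlgHom.rangeRestrict_surjective _)

instance : IsNoetherianRing (subU χ v u) := Algebra.FiniteType.isNoetherianRing ℂ _

lemma genU_mem (i : genSet N n ⊕ Unit) : genU χ v u i ∈ subU χ v u :=
  ⟨X i, MvPolynomial.aeval_X _ i⟩

lemma subA_le : subA χ v ≤ subU χ v u := by
  rintro a ⟨p, rfl⟩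
  refine ⟨rename Sum.inl p, ?_⟩
  show MvPolynomial.aeval (genU χ v u) (rename Sum.inl p) = MvPolynomial.aeval (gen χ v) p
  rw [aeval_rename]
  rfl

variable {χ v u}

lemma exists_pow_mul {s : R} (hs : s ∈ subA χ v) (hsu : u * s = 1) {x : R}
    (hx : x ∈ subU χ v u) : ∃ k : ℕ, s ^ k * x ∈ subA χ v := by
  obtain ⟨p, rfl⟩ := hx
  show ∃ k : ℕ, s ^ k * MvPolynomial.aeval (genU χ v u) p ∈ subA χ v
  induction p using MvPolynomial.induction_on with
  | C a => exact ⟨0, by simp⟩
  | add p q hp hq =>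
    obtain ⟨k, hk⟩ := hp
    obtain ⟨l, hl⟩ := hq
    refine ⟨k + l, ?_⟩
    rw [map_add, mul_add, pow_add]
    refine add_mem ?_ ?_
    · rw [mul_comm (s ^ k), mul_assoc]; exact mul_mem (pow_mem hs l) hk
    · rw [mul_assoc]; exact mul_mem (pow_mem hs k) hl
  | mul_X p i hp =>
    obtain ⟨k, hk⟩ := hp
    rw [map_mul, MvPolynomial.aeval_X]
    rcases i with i | i
    · exact ⟨k, by rw [← mul_assoc]; exact mul_mem hk (gen_mem χ v i)⟩
    · refine ⟨k + 1, ?_⟩
      show s ^ (k + 1) * (MvPolynomial.aeval (genU χ v u) p * u) ∈ subA χ v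
      rw [show s ^ (k + 1) * (MvPolynomial.aeval (genU χ v u) p * u)
        = s ^ k * MvPolynomial.aeval (genU χ v u) p * (u * s) by ring, hsu, mul_one]
      exact hk

lemma der_mem_subU {s : R} (hs : s ∈ subA χ v) (hsu : u * s = 1) (D : Derivation ℂ R R)
    (hD : ∀ g, D (gen χ v g) ∈ subA χ v) {x : R} (hx : x ∈ subU χ v u) : D x ∈ subU χ v u := by
  have hA : ∀ a ∈ subA χ v, D a ∈ subA χ v := by
    rintro a ⟨p, rfl⟩
    show D (MvPolynomial.aeval (gen χ v) p) ∈ _
    rw [der_aeval]
    exact sum_mem fun g _ => mul_mem ⟨_, rfl⟩ (hD g)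
  have hu : D u = -(u * u * D s) := by
    have h := congrArg D hsu
    rw [D.leibniz, Derivation.map_one_eq_zero, smul_eq_mul, smul_eq_mul] at h
    linear_combination u * h - D u * hsu
  have hU := genU_mem χ v u (Sum.inr ())
  change u ∈ subU χ v u at hU
  obtain ⟨p, rfl⟩ := hx
  show D (MvPolynomial.aeval (genU χ v u) p) ∈ _
  induction p using MvPolynomial.induction_on with
  | C a => simp
  | add p q hp hq => rw [map_add, map_add]; exact add_mem hp hq
  | mul_X p i hp =>
    rw [map_mul, MvPolynomial.aeval_X, D.leibniz, smul_eq_mul, smul_eq_mul]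
    refine add_mem (mul_mem ⟨_, rfl⟩ ?_) (mul_mem (genU_mem χ v u i) hp)
    rcases i with i | i
    · exact subA_le χ v u (hD i)
    · show D u ∈ _
      rw [hu]
      exact neg_mem (mul_mem (mul_mem hU hU) (subA_le χ v u (hA s hs)))

variable {c : Fin (N + 1) → Fin (N + 1) → Fin (N + 1) → P}
  (hc : χ.HasTable c) (hcB : ∀ i j l, c i j l ∈ subB v)
  {F : Fin n → MvPolynomial (Fin 2 ⊕ Fin n) ℂ} (hsys : IsSys base2 ev2 F v)
include hc hcB hsys

/-- The derivations of the algebra with one denominator are free. -/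
lemma exists_basis {E : Fin 2 → Derivation ℂ R R} (hE : ∀ i g, E i (gen χ v g) ∈ subA χ v)
    (hspan : ∀ D, ∃ a₀ a₁ : R, D = a₀ • E 0 + a₁ • E 1)
    (hind : ∀ a₀ a₁ : R, a₀ • E 0 + a₁ • E 1 = 0 → a₀ = 0 ∧ a₁ = 0)
    {s : R} (hs : s ∈ subA χ v) (hsu : u * s = 1)
    (hden : ∀ a₀ a₁ : R, (∀ g, a₀ * E 0 (gen χ v g) + a₁ * E 1 (gen χ v g) ∈ subA χ v) →
      s * a₀ ∈ subA χ v ∧ s * a₁ ∈ subA χ v) :
    Nonempty (Module.Basis (Fin 2) (subU χ v u) (Derivation ℂ (subU χ v u) (subU χ v u))) := by
  let L : Fin 2 → (subU χ v u →ₗ[ℂ] subU χ v u) := fun i =>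
    ((E i).toLinearMap.comp (subU χ v u).val.toLinearMap).codRestrict
      (Subalgebra.toSubmodule (subU χ v u)) fun x => der_mem_subU hs hsu (E i) (hE i) x.2
  let e : Fin 2 → Derivation ℂ (subU χ v u) (subU χ v u) := fun i =>
    Derivation.mk' (L i) fun x y => Subtype.ext (by
      show E i ((x : R) * y) = (x : R) * E i y + (y : R) * E i x
      simp [Derivation.leibniz])
  have he : ∀ i (x : subU χ v u), ((e i x : subU χ v u) : R) = E i x := fun i x => rfl
  refine ⟨Module.Basis.mk (v := e) ?_ ?_⟩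
  · rw [Fintype.linearIndependent_iff]
    intro a ha
    rw [Fin.sum_univ_two] at ha
    have h0 : (a 0 : R) • E 0 + (a 1 : R) • E 1 = 0 := der_eq_zero χ v _ fun g => by
      have hg := congrArg (fun z : subU χ v u => (z : R))
        (DFunLike.congr_fun ha ⟨gen χ v g, subA_le χ v u (gen_mem χ v g)⟩)
      simpa [Derivation.add_apply, Derivation.smul_apply, he] using hg
    intro i
    fin_cases i
    exacts [Subtype.ext (hind _ _ h0).1, Subtype.ext (hind _ _ h0).2]
  · intro δ _
    let d : subA χ v →ₗ[ℂ] R :=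
      (subU χ v u).val.toLinearMap.comp
        (δ.toLinearMap.comp (Subalgebra.inclusion (subA_le χ v u)).toLinearMap)
    have hd : ∀ a b, d (a * b) = a * d b + b * d a := fun a b => by
      show ((δ (Subalgebra.inclusion (subA_le χ v u) (a * b)) : subU χ v u) : R) = _
      rw [map_mul, δ.leibniz]
      rfl
    obtain ⟨D, hD⟩ := exists_extension hc hcB hsys d hd
    obtain ⟨a₀, a₁, hDa⟩ := hspan D
    have hval : ∀ g, ∃ k : ℕ, s ^ k * D (gen χ v g) ∈ subA χ v := fun g => by
      rw [show D (gen χ v g) = d ⟨gen χ v g, gen_mem χ v g⟩ from hD ⟨_, gen_mem χ v g⟩]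
      exact exists_pow_mul hs hsu (Subtype.mem _)
    choose k hk using hval
    set K := ∑ g, k g with hK
    have hmul : ∀ g, s ^ K * a₀ * E 0 (gen χ v g) + s ^ K * a₁ * E 1 (gen χ v g)
        ∈ subA χ v := fun g => by
      have hg : k g ≤ K := single_le_sum (fun _ _ => Nat.zero_le _) (mem_univ g)
      rw [show s ^ K * a₀ * E 0 (gen χ v g) + s ^ K * a₁ * E 1 (gen χ v g)
          = s ^ (K - k g) * (s ^ k g * D (gen χ v g)) by
        rw [hDa, ← mul_assoc, ← pow_add, Nat.sub_add_cancel hg]
        simp only [Derivation.add_apply, Derivation.smul_apply, smul_eq_mul]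
        ring]
      exact mul_mem (pow_mem hs _) (hk g)
    obtain ⟨h0, h1⟩ := hden _ _ hmul
    have hu : u ∈ subU χ v u := genU_mem χ v u (Sum.inr ())
    have hmem : ∀ a, s * (s ^ K * a) ∈ subA χ v → a ∈ subU χ v u := fun a ha => by
      have e1 : a = u ^ (K + 1) * (s * (s ^ K * a)) := by
        rw [← mul_assoc s, ← pow_succ', ← mul_assoc, ← mul_pow, hsu, one_pow, one_mul]
      rw [e1]
      exact mul_mem (pow_mem hu _) (subA_le χ v u ha)
    rw [Set.range_eq_iUnion, Submodule.span_iUnion]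
    have key : δ = (⟨a₀, hmem _ h0⟩ : subU χ v u) • e 0 + (⟨a₁, hmem _ h1⟩ : subU χ v u) • e 1 := by
      refine Derivation.ext fun x => Subtype.ext ?_
      show ((δ x : subU χ v u) : R) = a₀ * E 0 x + a₁ * E 1 x
      have hA : ∀ a : subA χ v, ((δ (Subalgebra.inclusion (subA_le χ v u) a) : subU χ v u) : R)
          = a₀ * E 0 a + a₁ * E 1 a := fun a => by
        rw [show ((δ (Subalgebra.inclusion (subA_le χ v u) a) : subU χ v u) : R) = D a from
          (hD a).symm, hDa]
        rfl
      obtain ⟨m, hm⟩ := exists_pow_mul hs hsu x.2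
      have hsm := hA ⟨_, pow_mem hs m⟩
      have hx := hA ⟨_, hm⟩
      rw [show Subalgebra.inclusion (subA_le χ v u) ⟨_, hm⟩
        = Subalgebra.inclusion (subA_le χ v u) ⟨_, pow_mem hs m⟩ * x from rfl, δ.leibniz,
        AddMemClass.coe_add, smul_eq_mul, smul_eq_mul, MulMemClass.coe_mul, MulMemClass.coe_mul,
        hsm, Derivation.leibniz, Derivation.leibniz, smul_eq_mul, smul_eq_mul, smul_eq_mul,
        smul_eq_mul] at hx
      have hne : s ^ m ≠ 0 := pow_ne_zero _ fun h => by simp [h] at hsu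
      refine mul_left_cancel₀ hne ?_
      simp only [Subalgebra.coe_inclusion] at hx
      linear_combination hx
    rw [key]
    exact add_mem (Submodule.mem_iSup_of_mem 0 (Submodule.smul_mem _ _ (Submodule.subset_span rfl)))
      (Submodule.mem_iSup_of_mem 1 (Submodule.smul_mem _ _ (Submodule.subset_span rfl)))

/-- The algebra with one denominator is singular at the point. -/
lemma not_regular [IsNoetherianRing R] (hdim : ringKrullDim R = 2) (hreg : ¬ IsRegularLocalRing R)
    {s : R} (hs : s ∈ subA χ v) (hsu : u * s = 1) : ¬ IsRegularRing (subU χ v u) := by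
  intro h
  set ι := (subU χ v u).val
  set p : Ideal (subU χ v u) := (IsLocalRing.maximalIdeal R).comap ι with hp
  have hpp : p.IsPrime := Ideal.IsPrime.comap ι
  have : IsRegularLocalRing (Localization.AtPrime p) := h.isRegularLocalRing_localization p
  have hsm : s ∉ IsLocalRing.maximalIdeal R := fun hm =>
    (IsLocalRing.maximalIdeal.isMaximal R).ne_top ((Ideal.eq_top_iff_one _).2
      (hsu ▸ Ideal.mul_mem_left _ u hm))
  set w : Fin 2 → subU χ v u := fun b =>
    ⟨χ.phi (base2 b), subA_le χ v u (gen_mem χ v (Sum.inl (Sum.inl b)))⟩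
  have hw : ∀ b, (psi χ v (parB v b) : R) = w b := fun b => by
    show χ.phi (parB v b : P) = χ.phi (base2 b)
    rw [coe_parB]
  have hwp : ∀ b, w b ∈ p := fun b => by
    show χ.phi (base2 b) ∈ IsLocalRing.maximalIdeal R
    fin_cases b
    exacts [χ.mem_phi, χ.mem_psi]
  have hmin : p ∈ (Ideal.span {w 0, w 1}).minimalPrimes := by
    refine ⟨⟨hpp, Ideal.span_le.2 (Set.insert_subset (hwp 0) (Set.singleton_subset_iff.2 (hwp 1)))⟩,
      fun q hq hqp => ?_⟩
    obtain ⟨hqprime, hspanq⟩ := hq
    set inc := Subalgebra.inclusion (subA_le χ v u)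
    set q0 : Ideal (subA χ v) := q.comap inc
    have : q0.IsPrime := Ideal.IsPrime.comap inc
    have hIA : IA χ v ≤ q0 := by
      have h2 : IA χ v ≤ q0 ⊔ IA χ v ^ 2 := by
        refine (IA_le hc hcB hsys).trans (sup_le_sup (Ideal.span_le.2 ?_) le_rfl)
        have hb : ∀ b, psi χ v (parB v b) ∈ q0 := fun b => by
          have : inc (psi χ v (parB v b)) = w b := Subtype.ext (hw b)
          show inc (psi χ v (parB v b)) ∈ q
          rw [this]
          exact hspanq (Ideal.subset_span (by fin_cases b <;> simp))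
        exact Set.insert_subset (hb 0) (Set.singleton_subset_iff.2 (hb 1))
      set I' := (IA χ v).map (Ideal.Quotient.mk q0) with hI'
      have hidem : IsIdempotentElem I' := by
        refine le_antisymm Ideal.mul_le_left ?_
        have h3 := Ideal.map_mono (f := Ideal.Quotient.mk q0) h2
        rw [Ideal.map_sup, Ideal.map_quotient_self, bot_sup_eq, pow_two, Ideal.map_mul] at h3
        exact h3
      rcases (Ideal.isIdempotentElem_iff_eq_bot_or_top I' (IsNoetherian.noetherian I')).1 hidem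
        with h0 | h1
      · intro a ha
        have h' : Ideal.Quotient.mk q0 a ∈ I' := Ideal.mem_map_of_mem _ ha
        rw [h0, Ideal.mem_bot] at h'
        exact Ideal.Quotient.eq_zero_iff_mem.1 h'
      · exfalso
        obtain ⟨i, hi, hi1⟩ := (Ideal.mem_map_iff_of_surjective _
          Ideal.Quotient.mk_surjective).1 (h1 ▸ Submodule.mem_top : (1 : _) ∈ I')
        rw [← map_one (Ideal.Quotient.mk q0), Ideal.Quotient.eq] at hi1
        have hq1 : inc (i - 1) ∈ p := hqp hi1
        have h4 : (i : R) - ((i - 1 : subA χ v) : R) ∈ IsLocalRing.maximalIdeal R :=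
          sub_mem (χ.J_le ((mem_IA χ v).1 hi)) hq1
        rw [AddSubgroupClass.coe_sub, OneMemClass.coe_one, sub_sub_cancel] at h4
        exact (IsLocalRing.maximalIdeal.isMaximal R).ne_top ((Ideal.eq_top_iff_one _).2 h4)
    intro x hx
    obtain ⟨K, hK⟩ := χ.primary
    obtain ⟨k, hk⟩ := exists_pow_mul hs hsu x.2
    have hxK : (s ^ k * (x : R)) ^ K ∈ χ.J :=
      hK (Ideal.pow_mem_pow (Ideal.mul_mem_left (IsLocalRing.maximalIdeal R) _ hx) K)
    have hq' : inc (⟨_, hk⟩ ^ K) ∈ q :=
      hIA ((mem_IA χ v).2 (by rw [SubmonoidClass.coe_pow]; exact hxK))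
    rw [map_pow, show inc (⟨_, hk⟩ : subA χ v) = inc ⟨_, pow_mem hs k⟩ * x from rfl] at hq'
    rcases hqprime.mem_or_mem (hqprime.mem_of_pow_mem K hq') with h5 | h5
    · exact absurd ((IsLocalRing.maximalIdeal.isMaximal R).isPrime.mem_of_pow_mem k
        (hqp h5 : s ^ k ∈ IsLocalRing.maximalIdeal R)) hsm
    · exact h5
  have hh : p.height ≤ 2 := (Ideal.height_le_card_of_mem_minimalPrimes_span
    (Set.toFinite _) hmin).trans (by
      exact_mod_cast (Set.ncard_insert_le (w 0) {w 1}).trans (by simp))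
  have hunit : ∀ y : p.primeCompl, IsUnit (ι y) := fun y => by
    by_contra hy
    exact y.2 ((IsLocalRing.mem_maximalIdeal _).2 hy)
  set lam : Localization.AtPrime p →+* R :=
    IsLocalization.lift (M := p.primeCompl) (g := ι.toRingHom) hunit
  have hlam : ∀ x, lam (algebraMap _ _ x) = ι x := fun x => IsLocalization.lift_eq hunit x
  have hmap : IsLocalRing.maximalIdeal R
      ≤ (IsLocalRing.maximalIdeal (Localization.AtPrime p)).map lam := by
    have hp' : ∀ y ∈ p,
        ι y ∈ (IsLocalRing.maximalIdeal (Localization.AtPrime p)).map lam := fun y hy => by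
      rw [← hlam]
      refine Ideal.mem_map_of_mem _ ?_
      rw [← Localization.AtPrime.map_eq_maximalIdeal]
      exact Ideal.mem_map_of_mem _ hy
    intro r hr
    obtain ⟨a, ha, hra⟩ := dense χ v 1 r
    rw [pow_one] at hra
    have hJ : χ.J ≤ (IsLocalRing.maximalIdeal (Localization.AtPrime p)).map lam := by
      rw [Chart.J, mP, Ideal.map_span, Ideal.span_le]
      rintro x ⟨y, rfl | rfl, rfl⟩
      exacts [hp' _ (hwp 0), hp' _ (hwp 1)]
    have ham : a ∈ IsLocalRing.maximalIdeal R := by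
      simpa using sub_mem hr (χ.J_le hra)
    have := add_mem (hJ hra) (hp' ⟨a, subA_le χ v u ha⟩ ham)
    simpa [ι] using this
  have hdimL : ringKrullDim (Localization.AtPrime p) ≤ 2 := by
    rw [IsLocalization.AtPrime.ringKrullDim_eq_height p (Localization.AtPrime p)]
    exact WithBot.coe_le_coe.2 hh
  have hfin : (IsLocalRing.maximalIdeal (Localization.AtPrime p)).spanFinrank ≤ 2 := by
    rw [← IsRegularLocalRing.spanFinrank_maximalIdeal] at hdimL
    exact_mod_cast hdimL
  refine hreg (IsRegularLocalRing.of_spanFinrank_maximalIdeal_le R ?_)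
  have heq : (IsLocalRing.maximalIdeal (Localization.AtPrime p)).map lam
      = IsLocalRing.maximalIdeal R := by
    refine le_antisymm (Ideal.map_le_iff_le_comap.2 fun z hz => ?_) hmap
    obtain ⟨x, y, rfl⟩ := IsLocalization.exists_mk'_eq p.primeCompl z
    rw [IsLocalization.AtPrime.mk'_mem_maximal_iff _ p] at hz
    rw [Ideal.mem_comap]
    have e : lam (IsLocalization.mk' _ x y) * ι y = ι x := by
      rw [← hlam, ← map_mul, IsLocalization.mk'_spec, hlam]
    exact ((IsLocalRing.maximalIdeal.isMaximal R).isPrime.mem_or_mem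
      (e ▸ hz : lam (IsLocalization.mk' _ x y) * ι y ∈ IsLocalRing.maximalIdeal R)).resolve_right
      fun h => y.2 h
  rw [hdim, ← heq]
  exact_mod_cast (Ideal.spanFinrank_map_le_of_fg lam (IsNoetherian.noetherian _)).trans hfin

end Vale.Agent.P266.Alg.Descend

namespace Vale.Agent.P266.Alg

/-- Module Descend. -/
theorem descend_ok (hC : ClosureStatement) : DescendStatement := by
  intro R _ _ _ hR hreg hder N χ c hc _ halg
  have := hR.domain
  have := hR.noetherian
  obtain ⟨b⟩ := hder
  obtain ⟨n, F, v, hsys, hv⟩ := (hC.1 P 2 base2 ev2).common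
    (fun t : Fin (N + 1) × Fin (N + 1) × Fin (N + 1) => c t.1 t.2.1 t.2.2)
    fun t => halg _ _ _
  have hcB : ∀ i j l, c i j l ∈ Descend.subB v := fun i j l => by
    obtain ⟨m, hm⟩ := hv (i, j, l)
    exact ⟨MvPolynomial.X (Sum.inr m), by simp [hm]⟩
  obtain ⟨E, hE, hspan, hind⟩ := Descend.exists_lifts hc hcB hsys b
  obtain ⟨s, hs, hden⟩ := Descend.exists_unit hc hcB hsys hE hind
  obtain ⟨u, hu⟩ := hs.exists_left_inv
  obtain ⟨B⟩ := Descend.exists_basis hc hcB hsys hE hspan hind s.2 hu hden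
  exact ⟨Descend.subU χ v u, inferInstance, inferInstance, inferInstance, inferInstance,
    Module.Projective.of_basis B, ⟨B⟩, Descend.not_regular hc hcB hsys hR.dim hreg s.2 hu⟩

end Vale.Agent.P266.Alg
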