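import Vale.Agent.P266.Alg.Series

/-!
P266: tables close to the table of a germ define the same germ.
-/

noncomputable section

open Finset

namespace Vale.Agent.P266.Alg

lemma mem_pow_smul_top_pi {R : Type} [CommRing R] {ι : Type} [Fintype ι] {I : Ideal R}
    {b : ι → R} : b ∈ (I • ⊤ : Submodule R (ι → R)) ↔ ∀ i, b i ∈ I := by
  classical
  refine ⟨fun hb i => ?_, fun hb => ?_⟩
  · refine Submodule.smul_induction_on hb (fun x hx y _ => ?_) fun x y hx hy => add_mem hx hy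
    exact I.mul_mem_right _ hx
  · rw [← Finset.univ_sum_single b]
    refine sum_mem fun i _ => ?_
    rw [show Pi.single i (b i) = b i • (Pi.single i 1 : ι → R) by
      rw [← Pi.single_smul, smul_eq_mul, mul_one]]
    exact Submodule.smul_mem_smul (hb i) Submodule.mem_top

lemma artin_rees {R : Type} [CommRing R] [IsNoetherianRing R] (I : Ideal R) {M : Type}
    [AddCommGroup M] [Module R M] [Module.Finite R M] (S : Submodule R M) :
    ∃ c, ∀ k x, c ≤ k → x ∈ (I ^ k • ⊤ : Submodule R M) → x ∈ S → x ∈ I ^ (k - c) • S := by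
  obtain ⟨c, hc⟩ := Ideal.exists_pow_inf_eq_pow_smul I S
  refine ⟨c, fun k x hk hx hxS => ?_⟩
  have h : x ∈ I ^ k • ⊤ ⊓ S := ⟨hx, hxS⟩
  rw [hc k hk] at h
  exact Submodule.smul_mono le_rfl inf_le_right h

variable {R : Type} [CommRing R] [Algebra ℂ R] [IsLocalRing R] {N : ℕ}

/-- The index of the conditions on a cocycle. -/
abbrev RelIdx (N : ℕ) : Type :=
  (Fin (N + 1) × Fin (N + 1)) ⊕ Fin (N + 1) ⊕ (Fin (N + 1) × Fin (N + 1) × Fin (N + 1))

/-- The conditions defining cocycles. -/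
def relMap (χ : Chart R N) (c : Fin (N + 1) → Fin (N + 1) → Fin (N + 1) → P) :
    (Fin (N + 1) × Fin (N + 1) → R) →ₗ[R] (RelIdx N → R) where
  toFun b := Sum.elim (fun t => b t - b (t.2, t.1)) (Sum.elim (fun j => b (0, j)) fun t =>
    χ.e t.1 * b (t.2.1, t.2.2) + ∑ l, χ.phi (c t.2.1 t.2.2 l) * b (t.1, l)
      - (χ.e t.2.2 * b (t.1, t.2.1) + ∑ l, χ.phi (c t.1 t.2.1 l) * b (l, t.2.2)))
  map_add' b b' := by
    ext (t | t | t) <;> simp [mul_add, sum_add_distrib] <;> ring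
  map_smul' r b := by
    ext (t | t | t) <;> simp [mul_sub, mul_add, mul_sum, mul_left_comm]

lemma mem_ker_relMap {χ : Chart R N} {c : Fin (N + 1) → Fin (N + 1) → Fin (N + 1) → P}
    {b : Fin (N + 1) × Fin (N + 1) → R} (hb : b ∈ LinearMap.ker (relMap χ c)) :
    χ.IsCocycle c fun i j => b (i, j) := by
  rw [LinearMap.mem_ker, funext_iff] at hb
  exact ⟨fun i j => sub_eq_zero.1 (hb (Sum.inl (i, j))), fun j => hb (Sum.inr (Sum.inl j)),
    fun i j k => sub_eq_zero.1 (hb (Sum.inr (Sum.inr (i, j, k))))⟩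

/-- `b` is a first variation along elements of order `m`. -/
def IsVar (χ : Chart R N) (c : Fin (N + 1) → Fin (N + 1) → Fin (N + 1) → P) (m : ℕ)
    (b : Fin (N + 1) × Fin (N + 1) → R) : Prop :=
  ∃ (α β : R) (γ : Fin (N + 1) → R), α ∈ χ.J ^ m ∧ β ∈ χ.J ^ m ∧ (∀ l, γ l ∈ χ.J ^ m) ∧ γ 0 = 0 ∧
    ∀ i j, b (i, j) = χ.cobd c α β γ i j

lemma IsVar.add {χ : Chart R N} {c : Fin (N + 1) → Fin (N + 1) → Fin (N + 1) → P} {m : ℕ}
    {b b' : Fin (N + 1) × Fin (N + 1) → R} (h : IsVar χ c m b) (h' : IsVar χ c m b') :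
    IsVar χ c m (b + b') := by
  obtain ⟨α, β, γ, hα, hβ, hγ, hγ0, hb⟩ := h
  obtain ⟨α', β', γ', hα', hβ', hγ', hγ0', hb'⟩ := h'
  refine ⟨α + α', β + β', γ + γ', add_mem hα hα', add_mem hβ hβ', fun l => add_mem (hγ l) (hγ' l),
    by simp [hγ0, hγ0'], fun i j => ?_⟩
  rw [Pi.add_apply, hb, hb']
  simp only [Chart.cobd, Pi.add_apply, mul_add, add_mul, sum_add_distrib]
  ring

lemma IsVar.smul {χ : Chart R N} {c : Fin (N + 1) → Fin (N + 1) → Fin (N + 1) → P} {m : ℕ}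
    {b : Fin (N + 1) × Fin (N + 1) → R} (h : IsVar χ c 0 b) {r : R} (hr : r ∈ χ.J ^ m) :
    IsVar χ c m (r • b) := by
  obtain ⟨α, β, γ, -, -, -, hγ0, hb⟩ := h
  refine ⟨r * α, r * β, fun l => r * γ l, Ideal.mul_mem_right _ _ hr, Ideal.mul_mem_right _ _ hr,
    fun l => Ideal.mul_mem_right _ _ hr, by simp [hγ0], fun i j => ?_⟩
  rw [Pi.smul_apply, smul_eq_mul, hb]
  simp only [Chart.cobd, mul_sub, mul_add, mul_sum, add_mul, mul_assoc, mul_left_comm r]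

/-- Approximate cocycles are approximate first variations. -/
lemma exists_solve (hC : CocycleStatement) (hR : IsGerm R) (χ : Chart R N)
    (c : Fin (N + 1) → Fin (N + 1) → Fin (N + 1) → P) (hc : χ.HasTable c) (ht : IsTable c) :
    ∃ c₀, ∀ k K, c₀ ≤ k → k ≤ K → ∀ b : Fin (N + 1) × Fin (N + 1) → R, (∀ t, b t ∈ χ.J ^ k) →
      (∀ x, relMap χ c b x ∈ χ.J ^ K) →
      ∃ z, IsVar χ c (k - c₀) (b - z) ∧ ∀ t, z t ∈ χ.J ^ (K - c₀) := by
  have := hR.noetherian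
  obtain ⟨h, hh⟩ := hC R hR N χ c hc ht
  obtain ⟨c₁, hc₁⟩ := artin_rees χ.J (LinearMap.range (relMap χ c))
  obtain ⟨c₂, hc₂⟩ := artin_rees χ.J (LinearMap.ker (relMap χ c))
  refine ⟨c₁ + c₂ + h, fun k K hk hkK b hb hrel => ?_⟩
  have h1 := hc₁ K _ (by omega) (mem_pow_smul_top_pi.2 hrel) (LinearMap.mem_range_self _ b)
  rw [← Submodule.map_top, ← Submodule.map_smul''] at h1
  obtain ⟨z, hz, hzb⟩ := Submodule.mem_map.1 h1
  have hz' := mem_pow_smul_top_pi.1 hz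
  refine ⟨z, ?_, fun t => Ideal.pow_le_pow_right (by omega) (hz' t)⟩
  have h2 : b - z ∈ χ.J ^ (k - c₁ - c₂) • LinearMap.ker (relMap χ c) :=
    hc₂ (k - c₁) _ (by omega) (mem_pow_smul_top_pi.2 fun t =>
        sub_mem (Ideal.pow_le_pow_right (by omega) (hb t))
          (Ideal.pow_le_pow_right (by omega) (hz' t)))
      (by rw [LinearMap.mem_ker, map_sub, hzb, sub_self])
  rw [show k - c₁ - c₂ = (k - (c₁ + c₂ + h)) + h by omega, pow_add, Submodule.mul_smul] at h2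
  refine Submodule.smul_induction_on h2 (fun r hr y hy => IsVar.smul ?_ hr)
    fun u v hu hv => hu.add hv
  refine Submodule.smul_induction_on hy (fun θ hθ w hw => ?_) fun u v hu hv => hu.add hv
  obtain ⟨α, β, γ, hγ, hw'⟩ := hh θ hθ _ (mem_ker_relMap hw)
  exact ⟨α, β, γ, by simp, by simp, fun l => by simp, hγ, fun i j => hw' i j⟩

/-- The defect of `g` as a multiplication table along `ψ`. -/
def defect (ψ : P →ₐ[ℂ] R) (g : Fin (N + 1) → R) (c' : Fin (N + 1) → Fin (N + 1) → Fin (N + 1) → P)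
    (t : Fin (N + 1) × Fin (N + 1)) : R :=
  g t.1 * g t.2 - ∑ l, ψ (c' t.1 t.2 l) * g l

omit [IsLocalRing R] in
lemma defect_assoc (ψ : P →ₐ[ℂ] R) (g : Fin (N + 1) → R)
    {c' : Fin (N + 1) → Fin (N + 1) → Fin (N + 1) → P} (hc' : IsTable c') (i j k : Fin (N + 1)) :
    g i * defect ψ g c' (j, k) + ∑ l, ψ (c' j k l) * defect ψ g c' (i, l)
      = g k * defect ψ g c' (i, j) + ∑ l, ψ (c' i j l) * defect ψ g c' (l, k) := by
  have e : ∀ a b : Fin (N + 1) → P, ∀ f : Fin (N + 1) → Fin (N + 1) → P,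
      ∑ l, ψ (a l) * ∑ m, ψ (f l m) * g m = ∑ m, ψ (∑ l, a l * f l m) * g m := fun a _ f => by
    simp only [map_sum, map_mul, mul_sum, sum_mul]
    rw [sum_comm]
    exact sum_congr rfl fun m _ => sum_congr rfl fun l _ => by ring
  simp only [defect, mul_sub, sum_sub_distrib]
  rw [e (c' j k) (c' j k) (fun l => c' i l), e (c' i j) (c' i j) (fun l => c' l k),
    show ∑ m, ψ (∑ l, c' j k l * c' i l m) * g m = ∑ m, ψ (∑ l, c' i j l * c' l k m) * g m from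
      sum_congr rfl fun m _ => by rw [hc'.2.1 i j k m]]
  simp only [mul_sum]
  rw [show ∑ l, ψ (c' j k l) * (g i * g l) = ∑ l, g i * (ψ (c' j k l) * g l) from
      sum_congr rfl fun l _ => by ring,
    show ∑ l, ψ (c' i j l) * (g l * g k) = ∑ l, g k * (ψ (c' i j l) * g l) from
      sum_congr rfl fun l _ => by ring]
  ring

/-- One Newton step. -/
lemma newton_step (χ : Chart R N) {c c' : Fin (N + 1) → Fin (N + 1) → Fin (N + 1) → P}
    (hc' : IsTable c') {c₀ : ℕ}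
    (hsolve : ∀ k K, c₀ ≤ k → k ≤ K → ∀ b : Fin (N + 1) × Fin (N + 1) → R, (∀ t, b t ∈ χ.J ^ k) →
      (∀ x, relMap χ c b x ∈ χ.J ^ K) →
      ∃ z, IsVar χ c (k - c₀) (b - z) ∧ ∀ t, z t ∈ χ.J ^ (K - c₀))
    (hcc : ∀ i j l, c' i j l - c i j l ∈ mP ^ (2 * c₀ + 2)) {k : ℕ} (hk : 2 * c₀ + 2 ≤ k)
    (ψ : P →ₐ[ℂ] R) (g : Fin (N + 1) → R) (ha : ψ varPhi - χ.phi varPhi ∈ χ.J ^ (c₀ + 2))
    (hb : ψ varPsi - χ.phi varPsi ∈ χ.J ^ (c₀ + 2)) (hg : ∀ l, g l - χ.e l ∈ χ.J ^ (c₀ + 2))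
    (hg0 : g 0 = 1) (hdef : ∀ t, defect ψ g c' t ∈ χ.J ^ k) :
    ∃ (ψ' : P →ₐ[ℂ] R) (g' : Fin (N + 1) → R), ψ' varPhi - ψ varPhi ∈ χ.J ^ (k - c₀) ∧
      ψ' varPsi - ψ varPsi ∈ χ.J ^ (k - c₀) ∧ (∀ l, g' l - g l ∈ χ.J ^ (k - c₀)) ∧ g' 0 = 1 ∧
      ∀ t, defect ψ' g' c' t ∈ χ.J ^ (k + 1) := by
  have := χ.complete
  obtain ⟨hpa, hpb⟩ := χ.phi_mem_J
  have hψa : ψ varPhi ∈ χ.J := by
    rw [← sub_add_cancel (ψ varPhi) (χ.phi varPhi)]
    exact add_mem (Ideal.pow_le_self (by omega) ha) hpa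
  have hψb : ψ varPsi ∈ χ.J := by
    rw [← sub_add_cancel (ψ varPsi) (χ.phi varPsi)]
    exact add_mem (Ideal.pow_le_self (by omega) hb) hpb
  have hnear : ∀ f, ψ f - χ.phi f ∈ χ.J ^ (c₀ + 2) := fun f =>
    (taylor χ.J χ.phi ψ hpa hpb (by omega) ha hb f).1
  have hcj : ∀ i j l, χ.phi (c i j l) - ψ (c' i j l) ∈ χ.J ^ (c₀ + 2) := fun i j l => by
    rw [show χ.phi (c i j l) - ψ (c' i j l) = -χ.phi (c' i j l - c i j l)
      - (ψ (c' i j l) - χ.phi (c' i j l)) by rw [map_sub]; ring]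
    exact sub_mem (neg_mem (Ideal.pow_le_pow_right (by omega)
      (map_mem_pow χ.J χ.phi hpa hpb (hcc i j l)))) (hnear _)
  set b : Fin (N + 1) × Fin (N + 1) → R := fun t => -defect ψ g c' t with hbdef
  have hrel : ∀ x, relMap χ c b x ∈ χ.J ^ (c₀ + 2 + k) := by
    rintro (⟨i, j⟩ | j | ⟨i, j, l⟩)
    · simp [relMap, hbdef, defect, hc'.1 i j, mul_comm (g i) (g j)]
    · simp [relMap, hbdef, defect, hc'.2.2, hg0, apply_ite ψ, ite_mul]
    · have e := defect_assoc ψ g hc' i j l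
      have : relMap χ c b (Sum.inr (Sum.inr (i, j, l))) =
          (g i - χ.e i) * defect ψ g c' (j, l) - (g l - χ.e l) * defect ψ g c' (i, j)
          + ∑ m, (ψ (c' j l m) - χ.phi (c j l m)) * defect ψ g c' (i, m)
          - ∑ m, (ψ (c' i j m) - χ.phi (c i j m)) * defect ψ g c' (m, l) := by
        simp only [relMap, hbdef, LinearMap.coe_mk, AddHom.coe_mk, Sum.elim_inr, mul_neg, sub_mul,
          sum_sub_distrib, sum_neg_distrib]
        linear_combination -e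
      rw [this, pow_add]
      refine sub_mem (add_mem (sub_mem (Ideal.mul_mem_mul (hg i) (hdef _))
        (Ideal.mul_mem_mul (hg l) (hdef _))) (sum_mem fun m _ => ?_)) (sum_mem fun m _ => ?_) <;>
      exact Ideal.mul_mem_mul (by rw [← neg_sub]; exact neg_mem (hcj _ _ _)) (hdef _)
  obtain ⟨z, ⟨α, β, γ, hα, hβ, hγ, hγ0, hvar⟩, hz⟩ :=
    hsolve k (c₀ + 2 + k) (by omega) (by omega) b (fun t => neg_mem (hdef t)) hrel
  have hle : k - c₀ ≠ 0 := by omega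
  set ψ' := evalP χ.J (ψ varPhi + α) (ψ varPsi + β) (add_mem hψa (Ideal.pow_le_self hle hα))
    (add_mem hψb (Ideal.pow_le_self hle hβ)) with hψ'
  have eα : ψ' varPhi - ψ varPhi = α := by rw [hψ', evalP_varPhi]; ring
  have eβ : ψ' varPsi - ψ varPsi = β := by rw [hψ', evalP_varPsi]; ring
  refine ⟨ψ', g + γ, eα.symm ▸ hα, eβ.symm ▸ hβ, fun l => by simpa using hγ l,
    by simp [hg0, hγ0], fun ⟨i, j⟩ => ?_⟩
  have hT := fun f => taylor χ.J ψ ψ' hψa hψb (j := k - c₀) (by omega) (eα.symm ▸ hα) (eβ.symm ▸ hβ) f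
  rw [eα, eβ] at hT
  have hv := hvar i j
  simp only [Pi.sub_apply, hbdef, Chart.cobd] at hv
  have key : defect ψ' (g + γ) c' (i, j) = -z (i, j)
      + ((g i - χ.e i) * γ j + (g j - χ.e j) * γ i + γ i * γ j)
      - ∑ l, ((ψ' (c' i j l) - ψ (c' i j l) - ψ (dPhi (c' i j l)) * α - ψ (dPsi (c' i j l)) * β)
          * g l
        + (ψ (dPhi (c' i j l)) - χ.phi (dPhi (c i j l))) * (α * g l)
        + (ψ (dPsi (c' i j l)) - χ.phi (dPsi (c i j l))) * (β * g l)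
        + (g l - χ.e l) * (χ.phi (dPhi (c i j l)) * α + χ.phi (dPsi (c i j l)) * β)
        + ((ψ' (c' i j l) - ψ (c' i j l)) - (χ.phi (c i j l) - ψ (c' i j l))) * γ l) := by
    have h1 : ∑ l, ((ψ' (c' i j l) - ψ (c' i j l) - ψ (dPhi (c' i j l)) * α
          - ψ (dPsi (c' i j l)) * β) * g l
        + (ψ (dPhi (c' i j l)) - χ.phi (dPhi (c i j l))) * (α * g l)
        + (ψ (dPsi (c' i j l)) - χ.phi (dPsi (c i j l))) * (β * g l)
        + (g l - χ.e l) * (χ.phi (dPhi (c i j l)) * α + χ.phi (dPsi (c i j l)) * β)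
        + ((ψ' (c' i j l) - ψ (c' i j l)) - (χ.phi (c i j l) - ψ (c' i j l))) * γ l)
        = ∑ l, ψ' (c' i j l) * (g l + γ l) - ∑ l, ψ (c' i j l) * g l - ∑ l, χ.phi (c i j l) * γ l
          - ∑ l, (χ.phi (dPhi (c i j l)) * α + χ.phi (dPsi (c i j l)) * β) * χ.e l := by
      rw [← sum_sub_distrib, ← sum_sub_distrib, ← sum_sub_distrib]
      exact sum_congr rfl fun l _ => by ring
    simp only [defect] at hv ⊢
    rw [h1]
    simp only [Pi.add_apply]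
    linear_combination -hv
  rw [key]
  have hj0 : k + 1 ≤ (c₀ + 1) + (k - c₀) := by omega
  have hlow : ∀ {u v : R}, u ∈ χ.J ^ (c₀ + 1) → v ∈ χ.J ^ (k - c₀) → u * v ∈ χ.J ^ (k + 1) :=
    fun hu hv => Ideal.pow_le_pow_right hj0 (pow_add χ.J _ _ ▸ Ideal.mul_mem_mul hu hv)
  have hs : χ.J ^ (c₀ + 2) ≤ χ.J ^ (c₀ + 1) := Ideal.pow_le_pow_right (by omega)
  have hsq : χ.J ^ (2 * (k - c₀)) ≤ χ.J ^ (k + 1) := Ideal.pow_le_pow_right (by omega)
  have hd : ∀ f f' : P, f' - f ∈ mP ^ (c₀ + 1) → ψ f' - χ.phi f ∈ χ.J ^ (c₀ + 1) := fun f f' h => by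
    rw [show ψ f' - χ.phi f = (ψ f' - χ.phi f') + χ.phi (f' - f) by rw [map_sub]; ring]
    exact add_mem (hs (hnear f')) (map_mem_pow χ.J χ.phi hpa hpb h)
  have hdc : ∀ i j l, c' i j l - c i j l ∈ mP ^ (c₀ + 1 + 1) := fun i j l =>
    Ideal.pow_le_pow_right (by omega) (hcc i j l)
  refine sub_mem (add_mem (neg_mem (Ideal.pow_le_pow_right (by omega) (hz _))) (add_mem (add_mem
    (hlow (hs (hg i)) (hγ j)) (hlow (hs (hg j)) (hγ i))) ?_)) (sum_mem fun l _ => ?_)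
  · exact hsq (two_mul (k - c₀) ▸ pow_add χ.J _ _ ▸ Ideal.mul_mem_mul (hγ i) (hγ j))
  · refine add_mem (add_mem (add_mem (add_mem ?_ ?_) ?_) ?_) ?_
    · exact Ideal.mul_mem_right _ _ (hsq (hT _).2)
    · refine hlow (hd _ _ ?_) (Ideal.mul_mem_right _ _ hα)
      have := dPhi_mem (hdc i j l)
      rwa [show c' i j l - c i j l = c' i j l + (-1) * c i j l by ring, dPhi_add, dPhi_mul,
        show dPhi (-1 : P) = 0 by
          rw [show (-1 : P) = algebraMap ℂ P (-1) by simp, dPhi_algebraMap],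
        zero_mul, zero_add, neg_one_mul, ← sub_eq_add_neg] at this
    · refine hlow (hd _ _ ?_) (Ideal.mul_mem_right _ _ hβ)
      have := dPsi_mem (hdc i j l)
      rwa [dPsi, map_sub] at this
    · exact hlow (hs (hg l)) (add_mem (Ideal.mul_mem_left _ _ hα) (Ideal.mul_mem_left _ _ hβ))
    · exact hlow (sub_mem (Ideal.pow_le_pow_right (by omega) (hT _).1) (hs (hcj i j l))) (hγ l)

/-- Combinations in nearby charts agree to one order more. -/
lemma comb_near (χ : Chart R N) (ψ : P →ₐ[ℂ] R) (g : Fin (N + 1) → R)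
    (ha : ψ varPhi - χ.phi varPhi ∈ χ.J ^ 2) (hb : ψ varPsi - χ.phi varPsi ∈ χ.J ^ 2)
    (hg : ∀ l, g l - χ.e l ∈ χ.J ^ 2) {n : ℕ} {p : Fin (N + 1) → P} (hp : ∀ i, p i ∈ mP ^ n) :
    comb ψ g p - comb χ.phi χ.e p ∈ χ.J ^ (n + 1) := by
  obtain ⟨hpa, hpb⟩ := χ.phi_mem_J
  rw [comb, comb, ← sum_sub_distrib]
  refine sum_mem fun i _ => ?_
  rw [show ψ (p i) * g i - χ.phi (p i) * χ.e i
    = (ψ (p i) - χ.phi (p i)) * g i + χ.phi (p i) * (g i - χ.e i) by ring]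
  refine add_mem (Ideal.mul_mem_right _ _
    (sub_mem_pow_succ χ.J χ.phi ψ hpa hpb ha hb (hp i))) ?_
  exact Ideal.pow_le_pow_right (show n + 1 ≤ n + 2 by omega)
    (pow_add χ.J n 2 ▸ Ideal.mul_mem_mul (map_mem_pow χ.J χ.phi hpa hpb (hp i)) (hg i))

/-- Nearby parameters and elements form a chart. -/
lemma near_chart (χ : Chart R N) (ψ : P →ₐ[ℂ] R) (g : Fin (N + 1) → R) (hg0 : g 0 = 1)
    (ha : ψ varPhi - χ.phi varPhi ∈ χ.J ^ 2) (hb : ψ varPsi - χ.phi varPsi ∈ χ.J ^ 2)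
    (hg : ∀ l, g l - χ.e l ∈ χ.J ^ 2) : ∃ χ' : Chart R N, χ'.phi = ψ ∧ χ'.e = g := by
  have := χ.complete
  obtain ⟨hpa, hpb⟩ := χ.phi_mem_J
  have hψa : ψ varPhi ∈ χ.J := by
    rw [← sub_add_cancel (ψ varPhi) (χ.phi varPhi)]
    exact add_mem (Ideal.pow_le_self two_ne_zero ha) hpa
  have hψb : ψ varPsi ∈ χ.J := by
    rw [← sub_add_cancel (ψ varPsi) (χ.phi varPsi)]
    exact add_mem (Ideal.pow_le_self two_ne_zero hb) hpb
  have hmem : ∀ {n : ℕ} {p : Fin (N + 1) → P}, (∀ i, p i ∈ mP ^ n) → comb ψ g p ∈ χ.J ^ n :=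
    fun hp => sum_mem fun i _ => Ideal.mul_mem_right _ _ (map_mem_pow χ.J ψ hψa hψb (hp i))
  have hinj : Function.Injective (comb ψ g) := fun p q hpq => by
    have h0 : comb ψ g (p - q) = 0 := by rw [comb_sub, hpq, sub_self]
    suffices h : ∀ n i, (p - q) i ∈ mP ^ n from
      funext fun i => eq_of_sub_mem mP fun n => h n i
    intro n
    induction n with
    | zero => simp
    | succ n ih =>
      refine (χ.mem_J_pow _).1 ?_
      have := comb_near χ ψ g ha hb hg ih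
      rwa [h0, zero_sub, neg_mem_iff] at this
  have hsurj : Function.Surjective (comb ψ g) := fun x => by
    have step : ∀ n (p : Fin (N + 1) → P), ∃ q, x - comb ψ g p ∈ χ.J ^ n →
        (∀ i, q i - p i ∈ mP ^ n) ∧ x - comb ψ g q ∈ χ.J ^ (n + 1) := fun n p => by
      obtain ⟨d, hd⟩ := χ.bij.2 (x - comb ψ g p)
      refine ⟨p + d, fun h => ?_⟩
      rw [← hd] at h
      have hd' := (χ.mem_J_pow d).1 h
      refine ⟨fun i => by simpa using hd' i, ?_⟩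
      rw [comb_add, ← sub_sub, ← hd, ← neg_sub]
      exact neg_mem (comb_near χ ψ g ha hb hg hd')
    choose F hF using step
    set p : ℕ → Fin (N + 1) → P := fun n => Nat.rec 0 (fun n q => F n q) n
    have hp : ∀ n, x - comb ψ g (p n) ∈ χ.J ^ n := fun n => by
      induction n with
      | zero => simp
      | succ n ih => exact (hF n _ ih).2
    have hc : ∀ i m n, m ≤ n → p n i - p m i ∈ mP ^ m := fun i m n hmn => by
      induction n, hmn using Nat.le_induction with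
      | base => simp
      | succ n hmn ih =>
        rw [show p (n + 1) i - p m i = (p (n + 1) i - p n i) + (p n i - p m i) by ring]
        exact add_mem (Ideal.pow_le_pow_right hmn ((hF n _ (hp n)).1 i)) ih
    choose L hL using fun i => exists_limit mP (fun n => p n i) (hc i)
    refine ⟨L, (eq_of_sub_mem χ.J fun n => ?_).symm⟩
    rw [show x - comb ψ g L = (x - comb ψ g (p n)) - comb ψ g (L - p n) by rw [comb_sub]; ring]
    exact sub_mem (hp n) (hmem fun i => hL i n)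
  obtain ⟨K, hK⟩ := χ.primary
  refine ⟨⟨ψ, g, hg0, ⟨hinj, hsurj⟩, χ.J_le hψa, χ.J_le hψb, K, hK.trans fun x hx => ?_⟩, rfl, rfl⟩
  obtain ⟨p, rfl⟩ := hsurj x
  have h1 := comb_near χ ψ g ha hb hg (n := 0) (p := p) fun i => by simp
  have h2 : comb χ.phi χ.e p ∈ χ.J ^ (0 + 1) := by
    rw [← sub_sub_cancel (comb ψ g p) (comb χ.phi χ.e p)]
    exact sub_mem (by simpa [Chart.J] using hx) h1
  exact sum_mem fun i _ => Ideal.mul_mem_right _ _
    (Ideal.mem_map_of_mem _ (by simpa using (χ.mem_J_pow p).1 h2 i))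

/-- A stage of the iteration. -/
def IsStage (χ : Chart R N) (c' : Fin (N + 1) → Fin (N + 1) → Fin (N + 1) → P) (c₀ n : ℕ)
    (s : (P →ₐ[ℂ] R) × (Fin (N + 1) → R)) : Prop :=
  s.1 varPhi - χ.phi varPhi ∈ χ.J ^ (c₀ + 2) ∧ s.1 varPsi - χ.phi varPsi ∈ χ.J ^ (c₀ + 2) ∧
    (∀ l, s.2 l - χ.e l ∈ χ.J ^ (c₀ + 2)) ∧ s.2 0 = 1 ∧
    ∀ t, defect s.1 s.2 c' t ∈ χ.J ^ (2 * c₀ + 2 + n)

/-- Module Determinacy. -/
theorem determinacy_ok (hC : CocycleStatement) : DeterminacyStatement := by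
  intro R _ _ _ hR N χ c hc ht
  obtain ⟨c₀, hsolve⟩ := exists_solve hC hR χ c hc ht
  refine ⟨2 * c₀ + 2, fun c' ht' hcc => ?_⟩
  have := χ.complete
  obtain ⟨hpa, hpb⟩ := χ.phi_mem_J
  have step : ∀ n s, ∃ s', IsStage χ c' c₀ n s → IsStage χ c' c₀ (n + 1) s' ∧
      s'.1 varPhi - s.1 varPhi ∈ χ.J ^ (n + 1) ∧ s'.1 varPsi - s.1 varPsi ∈ χ.J ^ (n + 1) ∧
      ∀ l, s'.2 l - s.2 l ∈ χ.J ^ (n + 1) := fun n s => by
    by_cases hs : IsStage χ c' c₀ n s
    · obtain ⟨h1, h2, h3, h4, h5⟩ := hs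
      obtain ⟨ψ', g', e1, e2, e3, e4, e5⟩ := newton_step χ ht' hsolve hcc
        (k := 2 * c₀ + 2 + n) (by omega) s.1 s.2 h1 h2 h3 h4 h5
      have hm : χ.J ^ (2 * c₀ + 2 + n - c₀) ≤ χ.J ^ (c₀ + 2) := Ideal.pow_le_pow_right (by omega)
      have hn : χ.J ^ (2 * c₀ + 2 + n - c₀) ≤ χ.J ^ (n + 1) := Ideal.pow_le_pow_right (by omega)
      refine ⟨(ψ', g'), fun _ => ⟨⟨?_, ?_, fun l => ?_, e4, e5⟩, hn e1, hn e2, fun l => hn (e3 l)⟩⟩
      · rw [← sub_add_sub_cancel _ (s.1 varPhi)]; exact add_mem (hm e1) h1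
      · rw [← sub_add_sub_cancel _ (s.1 varPsi)]; exact add_mem (hm e2) h2
      · rw [← sub_add_sub_cancel _ (s.2 l)]; exact add_mem (hm (e3 l)) (h3 l)
    · exact ⟨s, fun h => absurd h hs⟩
  choose F hF using step
  set S : ℕ → (P →ₐ[ℂ] R) × (Fin (N + 1) → R) := fun n => Nat.rec (χ.phi, χ.e) (fun n s => F n s) n
    with hS
  have hst : ∀ n, IsStage χ c' c₀ n (S n) := fun n => by
    induction n with
    | zero =>
      refine ⟨by simp [hS], by simp [hS], fun l => by simp [hS], χ.e_zero, fun t => ?_⟩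
      show χ.e t.1 * χ.e t.2 - ∑ l, χ.phi (c' t.1 t.2 l) * χ.e l ∈ _
      rw [hc, comb, ← sum_sub_distrib]
      refine sum_mem fun l _ => ?_
      rw [← sub_mul, ← map_sub]
      exact Ideal.mul_mem_right _ _ (map_mem_pow χ.J χ.phi hpa hpb
        (by rw [← neg_sub]; exact neg_mem (hcc _ _ _)))
    | succ n ih => exact (hF n _ ih).1
  have cauchy : ∀ G : (P →ₐ[ℂ] R) × (Fin (N + 1) → R) → R,
      (∀ n, G (S (n + 1)) - G (S n) ∈ χ.J ^ (n + 1)) → ∃ L, ∀ n, L - G (S n) ∈ χ.J ^ n :=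
    fun G hG => exists_limit χ.J _ fun m n hmn => by
      induction n, hmn using Nat.le_induction with
      | base => simp
      | succ n hmn ih =>
        rw [← sub_add_sub_cancel _ (G (S n))]
        exact add_mem (Ideal.pow_le_pow_right (by omega) (hG n)) ih
  obtain ⟨A, hA⟩ := cauchy (fun s => s.1 varPhi) fun n => (hF n _ (hst n)).2.1
  obtain ⟨B, hB⟩ := cauchy (fun s => s.1 varPsi) fun n => (hF n _ (hst n)).2.2.1
  choose g hg using fun l => cauchy (fun s => s.2 l) fun n => (hF n _ (hst n)).2.2.2 l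
  have nA : A - χ.phi varPhi ∈ χ.J ^ 2 := by
    rw [← sub_add_sub_cancel _ ((S 2).1 varPhi)]
    exact add_mem (hA 2) (Ideal.pow_le_pow_right (by omega) (hst 2).1)
  have nB : B - χ.phi varPsi ∈ χ.J ^ 2 := by
    rw [← sub_add_sub_cancel _ ((S 2).1 varPsi)]
    exact add_mem (hB 2) (Ideal.pow_le_pow_right (by omega) (hst 2).2.1)
  have hAJ : A ∈ χ.J := by
    rw [← sub_add_cancel A (χ.phi varPhi)]; exact add_mem (Ideal.pow_le_self two_ne_zero nA) hpa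
  have hBJ : B ∈ χ.J := by
    rw [← sub_add_cancel B (χ.phi varPsi)]; exact add_mem (Ideal.pow_le_self two_ne_zero nB) hpb
  set ψ := evalP χ.J A B hAJ hBJ with hψ
  have eA : ψ varPhi = A := evalP_varPhi χ.J A B hAJ hBJ
  have eB : ψ varPsi = B := evalP_varPsi χ.J A B hAJ hBJ
  have hg0 : g 0 = 1 := eq_of_sub_mem χ.J fun n => by
    have := hg 0 n
    rwa [(hst n).2.2.2.1] at this
  obtain ⟨χ', h1, h2⟩ := near_chart χ ψ g hg0 (eA.symm ▸ nA) (eB.symm ▸ nB) fun l => by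
    rw [← sub_add_sub_cancel _ ((S 2).2 l)]
    exact add_mem (hg l 2) (Ideal.pow_le_pow_right (by omega) ((hst 2).2.2.1 l))
  refine ⟨χ', fun i j => ?_⟩
  rw [h1, h2]
  refine eq_of_sub_mem χ.J fun n => ?_
  rcases n with _ | n
  · simp
  obtain ⟨s1, s2, -, -, s5⟩ := hst (n + 1)
  have hψf : ∀ f, ψ f - (S (n + 1)).1 f ∈ χ.J ^ (n + 1) := fun f => by
    refine (taylor χ.J (S (n + 1)).1 ψ ?_ ?_ (by omega) (eA.symm ▸ hA (n + 1))
      (eB.symm ▸ hB (n + 1)) f).1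
    · rw [← sub_add_cancel ((S (n + 1)).1 varPhi) (χ.phi varPhi)]
      exact add_mem (Ideal.pow_le_self (by omega) s1) hpa
    · rw [← sub_add_cancel ((S (n + 1)).1 varPsi) (χ.phi varPsi)]
      exact add_mem (Ideal.pow_le_self (by omega) s2) hpb
  have e : g i * g j - comb ψ g (c' i j) = defect (S (n + 1)).1 (S (n + 1)).2 c' (i, j)
      + ((g i - (S (n + 1)).2 i) * g j + (S (n + 1)).2 i * (g j - (S (n + 1)).2 j))
      - ∑ l, ((ψ (c' i j l) - (S (n + 1)).1 (c' i j l)) * g l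
        + (S (n + 1)).1 (c' i j l) * (g l - (S (n + 1)).2 l)) := by
    simp only [defect, comb, sub_mul, mul_sub, sum_add_distrib, sum_sub_distrib]
    ring
  rw [e]
  exact sub_mem (add_mem (Ideal.pow_le_pow_right (by omega) (s5 _))
    (add_mem (Ideal.mul_mem_right _ _ (hg i _)) (Ideal.mul_mem_left _ _ (hg j _))))
    (sum_mem fun l _ => add_mem (Ideal.mul_mem_right _ _ (hψf _))
      (Ideal.mul_mem_left _ _ (hg l _)))

end Vale.Agent.P266.Alg
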