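import Vale.Agent.P266.Alg.Main
import Vale.Agent.P266.Alg.Descend
import Vale.Agent.P266.Germ

/-!
P266: the algebraisation applied to the formal germ.
-/

namespace Vale.Agent.P266.Alg

theorem algebraise_ok : AlgebraiseStatement :=
  algebraise_of_descend (descend_ok closure_ok)

theorem counterexample : Counterexample := by
  obtain ⟨R, iC, iA, iL, hR, hreg, hder⟩ := _root_.P266.exists_singular_germ
  exact algebraise_ok R hR hreg hder

end Vale.Agent.P266.Alg
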