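import Vale.Agent.P266.Alg.Series

/-!
P266: systems of parameters of a normal germ and freeness over them.
-/

noncomputable section

open Finset

namespace Vale.Agent.P266.Alg

variable {R : Type} [CommRing R] [Algebra ℂ R] [IsLocalRing R]

lemma IsGerm.height_max (hR : IsGerm R) : (IsLocalRing.maximalIdeal R).height = 2 := by
  have h := IsLocalRing.maximalIdeal_height_eq_ringKrullDim (R := R)
  rw [hR.dim, show (2 : WithBot ℕ∞) = ((2 : ℕ∞) : WithBot ℕ∞) from rfl, WithBot.coe_inj] at h
  exact h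

lemma IsGerm.not_minimal (hR : IsGerm R) (a : R) :
    IsLocalRing.maximalIdeal R ∉ (Ideal.span {a}).minimalPrimes := fun h => by
  have := hR.noetherian
  have : (Ideal.span {a} : Ideal R).IsPrincipal := ⟨⟨a, rfl⟩⟩
  have h1 := Ideal.height_le_one_of_isPrincipal_of_mem_minimalPrimes _ _ h
  rw [hR.height_max] at h1
  exact absurd h1 (by decide)

lemma IsGerm.ne_span_singleton (hR : IsGerm R) (a : R) :
    IsLocalRing.maximalIdeal R ≠ Ideal.span {a} := fun h => by
  refine hR.not_minimal a ?_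
  have hp : (IsLocalRing.maximalIdeal R).IsPrime := inferInstance
  exact ⟨⟨hp, h ▸ le_rfl⟩, fun q hq _ => h ▸ hq.2⟩

/-- A nonzero element of the maximal ideal completes to a system of parameters. -/
theorem params_ok : ParamsStatement := by
  intro R _ _ _ hR a ha ha0
  have := hR.noetherian
  have := hR.domain
  classical
  set m := IsLocalRing.maximalIdeal R with hm
  have hfin := Ideal.finite_minimalPrimes_of_isNoetherianRing R (Ideal.span {a})
  obtain ⟨b, hb, hbp⟩ : ∃ b ∈ m, ∀ p ∈ (Ideal.span {a} : Ideal R).minimalPrimes, b ∉ p := by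
    by_contra hcon
    push Not at hcon
    have hsub : (m : Set R) ⊆ ⋃ p ∈ (↑hfin.toFinset : Set (Ideal R)), (p : Set R) := fun x hx => by
      obtain ⟨p, hp, hxp⟩ := hcon x hx
      exact Set.mem_iUnion₂.2 ⟨p, hfin.mem_toFinset.2 hp, hxp⟩
    obtain ⟨p, hp, hle⟩ := (Ideal.subset_union_prime (f := fun p : Ideal R => p) ⊥ ⊥
      fun p hp _ _ => (hfin.mem_toFinset.1 hp).1.1).1 hsub
    have hp' := hfin.mem_toFinset.1 hp
    have : p = m := ((IsLocalRing.maximalIdeal.isMaximal R).eq_of_le hp'.1.1.ne_top hle).symm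
    exact hR.not_minimal a (hm ▸ this ▸ hp')
  have hrad : (Ideal.span {a, b} : Ideal R).radical = m := by
    refine le_antisymm ?_ ?_
    · refine (inferInstance : m.IsPrime).radical_le_iff.2 ?_
      rw [Ideal.span_le]
      rintro x (rfl | rfl) <;> assumption
    · rw [Ideal.radical_eq_sInf]
      refine le_sInf ?_
      rintro q ⟨hq, hqp⟩
      have hqm : q ≤ m := IsLocalRing.le_maximalIdeal hqp.ne_top
      by_contra hne
      have hlt : q < m := lt_of_le_not_ge hqm hne
      obtain ⟨p, hp, hpq⟩ := Ideal.exists_minimalPrimes_le (I := Ideal.span {a}) (J := q)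
        ((Ideal.span_mono (by simp)).trans hq)
      have : p.IsPrime := hp.1.1
      have hpq' : p < q :=
        lt_of_le_not_ge hpq fun h => hbp p hp (h (hq (Ideal.subset_span (by simp))))
      have hp0 : (⊥ : Ideal R) < p := bot_lt_iff_ne_bot.2 fun h => ha0 <| by
        simpa [h] using hp.1.2 (Ideal.mem_span_singleton_self a)
      have h1 := Ideal.height_strict_mono_of_isPrime_of_isPrime hp0
      have h2 := Ideal.height_strict_mono_of_isPrime_of_isPrime hpq'
      have h3 := Ideal.height_strict_mono_of_isPrime_of_isPrime hlt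
      rw [hR.height_max] at h3
      have e1 : 1 ≤ p.height := Order.one_le_iff_pos.2 (pos_of_gt h1)
      have e2 : 1 < q.height := e1.trans_lt h2
      exact absurd (lt_of_le_of_lt (ENat.add_one_le_iff (ENat.one_ne_top) |>.2 e2) h3) (by decide)
  refine ⟨b, hb, ?_⟩
  obtain ⟨K, hK⟩ :=
    Ideal.exists_radical_pow_le_of_fg (Ideal.span {a, b} : Ideal R) (IsNoetherian.noetherian _)
  exact ⟨K, hrad ▸ hK⟩

variable {a b : R}

lemma IsGerm.param_ne_zero (hR : IsGerm R) (hb : b ∈ IsLocalRing.maximalIdeal R)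
    (hK : ∃ K : ℕ, IsLocalRing.maximalIdeal R ^ K ≤ Ideal.span {a, b}) : a ≠ 0 := by
  rintro rfl
  obtain ⟨K, hK⟩ := hK
  have e : Ideal.span ({0, b} : Set R) = Ideal.span {b} := by
    rw [Ideal.span_insert]; simp
  rw [e] at hK
  refine hR.not_minimal b ⟨⟨inferInstance, by rw [Ideal.span_le]; simpa using hb⟩, ?_⟩
  rintro q ⟨hq, hbq⟩ _
  exact (Ideal.IsPrime.le_of_pow_le (hP := hq) (hK.trans hbq))

/-- The second parameter is regular modulo the first. -/
lemma IsGerm.regular (hR : IsGerm R) (ha : a ∈ IsLocalRing.maximalIdeal R)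
    (hb : b ∈ IsLocalRing.maximalIdeal R)
    (hK : ∃ K : ℕ, IsLocalRing.maximalIdeal R ^ K ≤ Ideal.span {a, b}) {r : R}
    (hr : b * r ∈ Ideal.span {a}) : r ∈ Ideal.span {a} := by
  have := hR.domain
  have := hR.closed
  have := hR.noetherian
  have ha0 := hR.param_ne_zero hb hK
  obtain ⟨K, hK⟩ := hK
  set m := IsLocalRing.maximalIdeal R with hm
  by_contra hra
  have hmK : ∀ z ∈ m ^ K, z * r ∈ Ideal.span {a} := fun z hz => by
    obtain ⟨u, v, rfl⟩ := Ideal.mem_span_pair.1 (hK hz)
    rw [add_mul, mul_assoc, mul_assoc]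
    exact add_mem (Ideal.mul_mem_left _ _ (Ideal.mul_mem_right _ _
      (Ideal.mem_span_singleton_self a))) (Ideal.mul_mem_left _ _ hr)
  -- the last power that does not kill `r`
  classical
  have hex : ∃ j, ∀ z ∈ m ^ j, z * r ∈ Ideal.span {a} := ⟨K, hmK⟩
  have hj := Nat.find_spec hex
  have hj0 : Nat.find hex ≠ 0 := fun h => hra (by simpa [h] using hj 1 (by simp [h]))
  obtain ⟨j, hje⟩ := Nat.exists_eq_succ_of_ne_zero hj0
  obtain ⟨w, hw, hwr⟩ : ∃ w ∈ m ^ j, w * r ∉ Ideal.span {a} := by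
    have := Nat.find_min hex (show j < Nat.find hex by omega)
    push Not at this
    exact this
  set r' := w * r with hr'
  have hdiv : ∀ y ∈ m, ∃ s, r' * y = a * s := fun y hy => by
    have : y * w * r ∈ Ideal.span {a} :=
      hj _ (by rw [hje, pow_succ']; exact Ideal.mul_mem_mul hy hw)
    obtain ⟨s, hs⟩ := Ideal.mem_span_singleton'.1 this
    exact ⟨s, by rw [hr']; linear_combination -hs⟩
  by_cases hcase : ∀ y ∈ m, ∀ s, r' * y = a * s → s ∈ m
  · -- `r' / a` is integral
    let K₀ := FractionRing R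
    let x : K₀ := algebraMap R K₀ r' / algebraMap R K₀ a
    have haK : algebraMap R K₀ a ≠ 0 := fun h => ha0 (IsFractionRing.injective R K₀ (by simpa using h))
    let N : Submodule R K₀ := Submodule.map (Algebra.linearMap R K₀) m
    have hN : N ≠ ⊥ := fun h => by
      have h1 : algebraMap R K₀ a ∈ N := ⟨a, ha, rfl⟩
      rw [h, Submodule.mem_bot] at h1
      exact haK h1
    have hint : IsIntegral R x := by
      refine isIntegral_of_smul_mem_submodule N hN ((IsNoetherian.noetherian m).map _) x ?_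
      rintro n ⟨y, hy, rfl⟩
      obtain ⟨s, hs⟩ := hdiv y hy
      refine ⟨s, hcase y hy s hs, ?_⟩
      simp only [Algebra.linearMap_apply, smul_eq_mul, x]
      rw [div_mul_eq_mul_div, eq_div_iff haK, ← map_mul, ← map_mul, hs, mul_comm]
    obtain ⟨s, hs⟩ := IsIntegrallyClosed.isIntegral_iff.1 hint
    refine hwr (Ideal.mem_span_singleton'.2 ⟨s, IsFractionRing.injective R K₀ ?_⟩)
    rw [map_mul, hs]
    exact div_mul_cancel₀ _ haK
  · push Not at hcase
    obtain ⟨y, hy, s, hs, hsm⟩ := hcase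
    have hu : IsUnit s := by simpa [hm, IsLocalRing.mem_maximalIdeal] using hsm
    obtain ⟨u, rfl⟩ := hu
    refine hR.ne_span_singleton y (le_antisymm (fun z hz => ?_)
      ((Ideal.span_singleton_le_iff_mem _).2 hy))
    obtain ⟨t, ht⟩ := hdiv z hz
    have hr0 : r' ≠ 0 := fun h => hwr (by rw [h]; exact zero_mem _)
    refine Ideal.mem_span_singleton'.2 ⟨t * ↑u⁻¹, mul_left_cancel₀ hr0 ?_⟩
    calc r' * (t * ↑u⁻¹ * y) = t * ↑u⁻¹ * (r' * y) := by ring
      _ = a * t * (↑u⁻¹ * ↑u) := by rw [hs]; ring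
      _ = r' * z := by rw [Units.inv_mul, mul_one, ← ht]

/-- Finitely many elements span modulo every power of the maximal ideal. -/
lemma IsGerm.exists_span_pow (hR : IsGerm R) (j : ℕ) :
    ∃ s : Finset R, ∀ x : R, ∃ y ∈ Submodule.span ℂ (s : Set R),
      x - y ∈ IsLocalRing.maximalIdeal R ^ j := by
  classical
  have := hR.noetherian
  set m := IsLocalRing.maximalIdeal R with hm
  have hconst : ∀ x : R, ∃ c : ℂ, x - algebraMap ℂ R c ∈ m := fun x => by
    obtain ⟨c, hc⟩ := hR.residue (IsLocalRing.residue R x)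
    refine ⟨c, Ideal.Quotient.eq_zero_iff_mem.1 ?_⟩
    show IsLocalRing.residue R (x - algebraMap ℂ R c) = 0
    rw [map_sub, ← hc, IsScalarTower.algebraMap_apply ℂ R (IsLocalRing.ResidueField R),
      IsLocalRing.ResidueField.algebraMap_eq, sub_self]
  induction j with
  | zero => exact ⟨∅, fun x => ⟨0, zero_mem _, by simp⟩⟩
  | succ j ih =>
    obtain ⟨s, hs⟩ := ih
    obtain ⟨g, hg⟩ := IsNoetherian.noetherian (m ^ j)
    refine ⟨s ∪ g, fun x => ?_⟩
    obtain ⟨y, hy, hxy⟩ := hs x
    suffices h : ∀ z ∈ Submodule.span R (g : Set R),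
        ∃ y ∈ Submodule.span ℂ (g : Set R), z - y ∈ m ^ (j + 1) by
      obtain ⟨y', hy', hxy'⟩ := h (x - y) (by rw [hg]; exact hxy)
      refine ⟨y + y', ?_, by rwa [← sub_sub]⟩
      rw [Finset.coe_union, Submodule.span_union]
      exact Submodule.add_mem_sup hy hy'
    intro z hz
    have hle : ∀ u ∈ g, u ∈ m ^ j := fun u hu => hg ▸ Submodule.subset_span hu
    induction hz using Submodule.span_induction with
    | mem u hu => exact ⟨u, Submodule.subset_span hu, by simp⟩
    | zero => exact ⟨0, zero_mem _, by simp⟩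
    | add u v _ _ h1 h2 =>
      obtain ⟨y1, hy1, e1⟩ := h1
      obtain ⟨y2, hy2, e2⟩ := h2
      exact ⟨y1 + y2, add_mem hy1 hy2, by rw [add_sub_add_comm]; exact add_mem e1 e2⟩
    | smul t u hu h =>
      obtain ⟨y1, hy1, e1⟩ := h
      obtain ⟨c, hc⟩ := hconst t
      refine ⟨c • y1, Submodule.smul_mem _ _ hy1, ?_⟩
      have hu' : u ∈ m ^ j := by rw [← hg]; exact hu
      rw [smul_eq_mul, Algebra.smul_def, show t * u - algebraMap ℂ R c * y1 =
        (t - algebraMap ℂ R c) * u + algebraMap ℂ R c * (u - y1) by ring]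
      exact add_mem (by rw [pow_succ']; exact Ideal.mul_mem_mul hc hu')
        (Ideal.mul_mem_left _ _ e1)

/-- A basis of the quotient by an ideal of finite colength that starts with `1`. -/
lemma IsGerm.exists_basis (hR : IsGerm R) {I : Ideal R} (hI : I ≠ ⊤)
    (hK : ∃ K : ℕ, IsLocalRing.maximalIdeal R ^ K ≤ I) :
    ∃ (N : ℕ) (e : Fin (N + 1) → R), e 0 = 1 ∧
      (∀ x, ∃ c : Fin (N + 1) → ℂ, x - ∑ i, algebraMap ℂ R (c i) * e i ∈ I) ∧
      ∀ c : Fin (N + 1) → ℂ, (∑ i, algebraMap ℂ R (c i) * e i ∈ I) → c = 0 := by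
  classical
  obtain ⟨K, hK⟩ := hK
  obtain ⟨s, hs⟩ := hR.exists_span_pow K
  let π := Ideal.Quotient.mkₐ ℂ I
  have hfin : Module.Finite ℂ (R ⧸ I) := by
    refine ⟨⟨s.image π, eq_top_iff.2 fun q _ => ?_⟩⟩
    obtain ⟨x, rfl⟩ := Ideal.Quotient.mkₐ_surjective ℂ I q
    obtain ⟨y, hy, hxy⟩ := hs x
    have : π x = π y := Ideal.Quotient.eq.2 (hK hxy)
    rw [this, Finset.coe_image]
    exact Submodule.apply_mem_span_image_of_mem_span π.toLinearMap hy
  have h1 : (1 : R ⧸ I) ≠ 0 := fun h => hI ((Ideal.eq_top_iff_one _).2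
    (Ideal.Quotient.eq_zero_iff_mem.1 (by simpa using h)))
  have hli : LinearIndepOn ℂ id ({1} : Set (R ⧸ I)) := LinearIndepOn.singleton h1
  let B := Module.Basis.extend hli
  have hmem : (1 : R ⧸ I) ∈ hli.extend (Set.subset_univ _) :=
    hli.subset_extend _ (Set.mem_singleton _)
  have : Fintype (hli.extend (Set.subset_univ ({1} : Set (R ⧸ I)))) :=
    FiniteDimensional.fintypeBasisIndex B
  set i₀ : hli.extend (Set.subset_univ ({1} : Set (R ⧸ I))) := ⟨1, hmem⟩
  have : Nonempty (hli.extend (Set.subset_univ ({1} : Set (R ⧸ I)))) := ⟨i₀⟩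
  obtain ⟨N, hN⟩ := Nat.exists_eq_succ_of_ne_zero
    (Fintype.card_ne_zero (α := hli.extend (Set.subset_univ ({1} : Set (R ⧸ I)))))
  let ε := Fintype.equivFinOfCardEq hN
  let B' := B.reindex (ε.trans (Equiv.swap (ε i₀) 0))
  have hB0 : B' 0 = 1 := by
    simp [B', B, Module.Basis.coe_extend, i₀]
  choose l hl using fun i => Ideal.Quotient.mkₐ_surjective ℂ I (B' i)
  let e : Fin (N + 1) → R := fun i => if i = 0 then 1 else l i
  have he : ∀ i, π (e i) = B' i := fun i => by
    by_cases hi : i = 0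
    · subst hi; simp [e, hB0]
    · simp [e, hi, π, hl]
  have hπ : ∀ c : Fin (N + 1) → ℂ, π (∑ i, algebraMap ℂ R (c i) * e i) = ∑ i, c i • B' i := fun c => by
    simp [map_sum, he, Algebra.smul_def]
  refine ⟨N, e, by simp [e], fun x => ⟨fun i => B'.repr (π x) i, ?_⟩, fun c hc => ?_⟩
  · refine Ideal.Quotient.eq.1 ?_
    show π x = π _
    rw [hπ, B'.sum_repr]
  · have h0 : ∑ i, c i • B' i = 0 := by
      rw [← hπ]; exact Ideal.Quotient.eq_zero_iff_mem.2 hc
    exact funext fun i => Fintype.linearIndependent_iff.1 B'.linearIndependent c h0 i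

variable {N : ℕ} {e : Fin (N + 1) → R} {φ : P →ₐ[ℂ] R}

omit [IsLocalRing R] in
/-- One step of successive approximation. -/
lemma comb_step (hspan : ∀ x : R, ∃ c : Fin (N + 1) → ℂ,
    x - ∑ i, algebraMap ℂ R (c i) * e i ∈ mP.map φ) (k : ℕ) (x : R)
    (hx : x ∈ (mP.map φ) ^ k) :
    ∃ p : Fin (N + 1) → P, (∀ i, p i ∈ mP ^ k) ∧ x - comb φ e p ∈ (mP.map φ) ^ (k + 1) := by
  rw [← Ideal.map_pow, Ideal.map] at hx
  induction hx using Submodule.span_induction with
  | mem u hu =>
    obtain ⟨f, hf, rfl⟩ := hu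
    obtain ⟨c, hc⟩ := hspan 1
    refine ⟨fun i => f * algebraMap ℂ P (c i), fun i => Ideal.mul_mem_right _ _ hf, ?_⟩
    have e1 : φ f - comb φ e (fun i => f * algebraMap ℂ P (c i)) =
        φ f * (1 - ∑ i, algebraMap ℂ R (c i) * e i) := by
      simp [comb, mul_sub, mul_sum, mul_assoc]
    rw [e1, pow_succ]
    refine Ideal.mul_mem_mul ?_ hc
    rw [← Ideal.map_pow]; exact Ideal.mem_map_of_mem _ hf
  | zero => exact ⟨0, fun i => zero_mem _, by simp [comb]⟩
  | add u v _ _ h1 h2 =>
    obtain ⟨p, hp, e1⟩ := h1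
    obtain ⟨q, hq, e2⟩ := h2
    refine ⟨p + q, fun i => add_mem (hp i) (hq i), ?_⟩
    rw [comb_add, add_sub_add_comm]; exact add_mem e1 e2
  | smul t u hu h =>
    obtain ⟨p, hp, e1⟩ := h
    choose c hc using fun i => hspan (t * e i)
    refine ⟨fun l => ∑ i, p i * algebraMap ℂ P (c i l),
      fun l => sum_mem fun i _ => Ideal.mul_mem_right _ _ (hp i), ?_⟩
    have e3 : t • u - comb φ e (fun l => ∑ i, p i * algebraMap ℂ P (c i l)) =
        t * (u - comb φ e p) +
          ∑ i, φ (p i) * (t * e i - ∑ l, algebraMap ℂ R (c i l) * e l) := by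
      simp only [comb, map_sum, map_mul, AlgHom.commutes, smul_eq_mul, mul_sub, sum_sub_distrib,
        mul_sum, sum_mul]
      rw [sum_comm (γ := Fin (N + 1)), sum_congr rfl fun i _ => mul_left_comm t (φ (p i)) (e i)]
      simp only [mul_assoc]
      ring
    rw [e3]
    refine add_mem (Ideal.mul_mem_left _ _ e1) (sum_mem fun i _ => ?_)
    rw [pow_succ]
    refine Ideal.mul_mem_mul ?_ (hc i)
    rw [← Ideal.map_pow]; exact Ideal.mem_map_of_mem _ (hp i)

/-- Coordinates exist once they exist modulo the parameters. -/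
lemma comb_surjective [IsAdicComplete (IsLocalRing.maximalIdeal R) R]
    (hJ : mP.map φ ≤ IsLocalRing.maximalIdeal R) (hspan : ∀ x : R, ∃ c : Fin (N + 1) → ℂ,
      x - ∑ i, algebraMap ℂ R (c i) * e i ∈ mP.map φ) : Function.Surjective (comb φ e) := by
  intro x
  choose f hf1 hf2 using comb_step hspan
  let S : ∀ k, {p : Fin (N + 1) → P // x - comb φ e p ∈ (mP.map φ) ^ k} := fun k =>
    Nat.rec ⟨0, by simp⟩ (fun k p => ⟨p.1 + f k _ p.2, by
      rw [comb_add, ← sub_sub]; exact hf2 k _ p.2⟩) k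
  have hd : ∀ i, ∀ m n, m ≤ n → (S n).1 i - (S m).1 i ∈ mP ^ m := fun i m n hmn => by
    induction n, hmn using Nat.le_induction with
    | base => simp
    | succ n hn ih =>
      have e1 : (S (n + 1)).1 i - (S m).1 i = f n _ (S n).2 i + ((S n).1 i - (S m).1 i) := by
        show (S n).1 i + f n _ (S n).2 i - (S m).1 i = _
        ring
      rw [e1]
      exact add_mem (Ideal.pow_le_pow_right hn (hf1 n _ (S n).2 i)) ih
  choose L hL using fun i => exists_limit mP (fun k => (S k).1 i) (hd i)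
  refine ⟨L, (eq_of_sub_mem (IsLocalRing.maximalIdeal R) fun k => ?_).symm⟩
  refine Ideal.pow_right_mono hJ k ?_
  have e1 : x - comb φ e L = (x - comb φ e (S k).1) - comb φ e (L - (S k).1) := by
    rw [comb_sub]; ring
  rw [e1]
  refine sub_mem (S k).2 (sum_mem fun i _ => Ideal.mul_mem_right _ _ ?_)
  have h := Ideal.mem_map_of_mem φ (hL i k)
  rw [Ideal.map_pow] at h
  exact h

/-- Coordinates are unique. -/
lemma comb_eq_zero (hR : IsGerm R) (hφa : φ varPhi = a) (hφb : φ varPsi = b)
    (ha : a ∈ IsLocalRing.maximalIdeal R) (hb : b ∈ IsLocalRing.maximalIdeal R)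
    (hK : ∃ K : ℕ, IsLocalRing.maximalIdeal R ^ K ≤ Ideal.span {a, b})
    (hindep : ∀ c : Fin (N + 1) → ℂ,
      (∑ i, algebraMap ℂ R (c i) * e i ∈ Ideal.span {a, b}) → c = 0)
    {p : Fin (N + 1) → P} (hp : comb φ e p = 0) : p = 0 := by
  have := hR.domain
  have hmap : mP.map φ = Ideal.span {a, b} := by
    rw [mP, Ideal.map_span, Set.image_pair, hφa, hφb]
  have hzero : ∀ (n : ℕ) (p : Fin (N + 1) → P), comb φ e p ∈ Ideal.span {a} →
      ∀ i, ∀ j < n, cf 0 j (p i) = 0 := by
    intro n
    induction n with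
    | zero => intro p _ i j hj; omega
    | succ n ih =>
      intro p hp
      have h0 : ∀ i, p i ∈ mP := by
        have hc : ∑ i, algebraMap ℂ R (ev2 (p i)) * e i ∈ Ideal.span {a, b} := by
          have e1 : ∑ i, algebraMap ℂ R (ev2 (p i)) * e i =
              comb φ e p - ∑ i, φ (p i - algebraMap ℂ P (ev2 (p i))) * e i := by
            simp [comb, sub_mul]
          rw [e1]
          refine sub_mem (Ideal.span_mono (by simp) hp)
            (sum_mem fun i _ => Ideal.mul_mem_right _ _ ?_)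
          rw [← hmap]
          exact Ideal.mem_map_of_mem _ (mem_mP_iff.2 (by simp))
        exact fun i => mem_mP_iff.2 (congrFun (hindep _ hc) i)
      choose u v huv using fun i => Ideal.mem_span_pair.1 (h0 i)
      have e2 : comb φ e p = a * comb φ e u + b * comb φ e v := by
        simp only [comb, mul_sum, ← sum_add_distrib]
        refine sum_congr rfl fun i _ => ?_
        rw [← huv i, map_add, map_mul, map_mul, hφa, hφb]; ring
      have hv : comb φ e v ∈ Ideal.span {a} := by
        refine hR.regular ha hb hK ?_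
        rw [show b * comb φ e v = comb φ e p - a * comb φ e u by rw [e2]; ring]
        exact sub_mem hp (Ideal.mul_mem_right _ _ (Ideal.mem_span_singleton_self a))
      intro i j hj
      rw [← huv i, mul_comm (u i), mul_comm (v i), cf_add, cf_varPhi_mul, if_pos rfl,
        cf_varPsi_mul, zero_add]
      split_ifs with h
      · rfl
      · exact ih v hv i (j - 1) (by omega)
  have hinj : ∀ (n : ℕ) (p : Fin (N + 1) → P), comb φ e p = 0 →
      ∀ i, ∀ k < n, ∀ j, cf k j (p i) = 0 := by
    intro n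
    induction n with
    | zero => intro p _ i k hk; omega
    | succ n ih =>
      intro p hp
      have h0 : ∀ i j, cf 0 j (p i) = 0 := fun i j =>
        hzero (j + 1) p (hp ▸ zero_mem _) i j (by omega)
      let u : Fin (N + 1) → P := fun i =>
        PowerSeries.mk fun j => PowerSeries.mk fun k => cf (k + 1) j (p i)
      have hu : ∀ i, p i = varPhi * u i := fun i => cf_ext fun k j => by
        rw [cf_varPhi_mul]
        rcases k with _ | k
        · simpa using h0 i j
        · simp [u, cf]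
      have hu0 : comb φ e u = 0 := by
        have : a * comb φ e u = 0 := by
          rw [← hp]
          simp only [comb, mul_sum]
          exact sum_congr rfl fun i _ => by rw [hu i, map_mul, hφa, mul_assoc]
        exact (mul_eq_zero.1 this).resolve_left (hR.param_ne_zero hb hK)
      intro i k hk j
      rcases k with _ | k
      · exact h0 i j
      · rw [hu i, cf_varPhi_mul, if_neg (Nat.succ_ne_zero k)]
        exact ih u hu0 i k (by omega) j
  exact funext fun i => cf_ext fun k j => by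
    rw [hinj (k + 1) p hp i k (by omega) j, Pi.zero_apply, cf_zero]

/-- A normal germ is free over every system of parameters. -/
theorem free_ok : FreeStatement := by
  intro R _ _ _ hR a ha b hb hK
  have := hR.complete
  let φ : P →ₐ[ℂ] R := evalP (IsLocalRing.maximalIdeal R) a b ha hb
  have hφa : φ varPhi = a := evalP_varPhi _ a b ha hb
  have hφb : φ varPsi = b := evalP_varPsi _ a b ha hb
  have hmap : mP.map φ = Ideal.span {a, b} := by
    rw [mP, Ideal.map_span, Set.image_pair, hφa, hφb]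
  have hJm : Ideal.span {a, b} ≤ IsLocalRing.maximalIdeal R := by
    rw [Ideal.span_le]; rintro x (rfl | rfl) <;> assumption
  obtain ⟨N, e, he0, hspan, hindep⟩ := hR.exists_basis
    (fun h => (IsLocalRing.maximalIdeal.isMaximal R).ne_top (top_le_iff.1 (h ▸ hJm))) hK
  have hsurj : Function.Surjective (comb φ e) :=
    comb_surjective (hmap.le.trans hJm) fun x => by rw [hmap]; exact hspan x
  refine ⟨N, ⟨φ, e, he0, ⟨fun p q hpq => ?_, hsurj⟩, hφa.symm ▸ ha, hφb.symm ▸ hb, ?_⟩, hφa, hφb⟩
  · exact sub_eq_zero.1 (comb_eq_zero hR hφa hφb ha hb hK hindep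
      (by rw [comb_sub, hpq, sub_self]))
  · obtain ⟨K, hK⟩ := hK
    exact ⟨K, hmap ▸ hK⟩

end Vale.Agent.P266.Alg
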