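import Vale.Agent.P266.Alg.Defs

/-!
P266, algebraisation: birational presentation of a point.

A point `x` of a domain over `ℂ[u]` is presented by one monic equation `F(θ) = 0` over a polynomial
ring in transcendental coordinates `t` and by `l * x j = q j (θ)`.  Any other solution of these
equations with `l ≠ 0` satisfies every polynomial equation satisfied by `x`.
-/

namespace Vale.Agent.P266.Alg

open Polynomial

noncomputable section

variable {Q : Type*} [CommRing Q] [Algebra ℂ Q] {d r : ℕ} {σ : Type*}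

/-- Evaluation of a polynomial in the base and the coordinates `t`. -/
def evT (u : Fin d → Q) (t : Fin r → Q) : MvPolynomial (Fin d ⊕ Fin r) ℂ →ₐ[ℂ] Q :=
  MvPolynomial.aeval (Sum.elim u t)

/-- Evaluation of a univariate polynomial over the coordinate ring at `(t, θ)`. -/
def evF (u : Fin d → Q) (t : Fin r → Q) (θ : Q) :
    (MvPolynomial (Fin d ⊕ Fin r) ℂ)[X] →+* Q :=
  eval₂RingHom (evT u t).toRingHom θ

theorem evF_C (u : Fin d → Q) (t : Fin r → Q) (θ : Q) (a : MvPolynomial (Fin d ⊕ Fin r) ℂ) :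
    evF u t θ (C a) = evT u t a := by
  simp [evF]

theorem evF_X (u : Fin d → Q) (t : Fin r → Q) (θ : Q) : evF u t θ X = θ := by
  simp [evF]

/-- Clearing denominators: a polynomial in `x` is a polynomial in `(t, θ)` up to a power of `l`. -/
theorem homogenise (u : Fin d → Q) (l : MvPolynomial (Fin d ⊕ Fin r) ℂ)
    (q : σ → (MvPolynomial (Fin d ⊕ Fin r) ℂ)[X]) (H : MvPolynomial (Fin d ⊕ σ) ℂ) :
    ∃ (N : ℕ) (h : (MvPolynomial (Fin d ⊕ Fin r) ℂ)[X]), ∀ (t : Fin r → Q) (θ : Q) (x : σ → Q),
      (∀ j, evF u t θ (q j) = evT u t l * x j) →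
        evT u t l ^ N * MvPolynomial.aeval (Sum.elim u x) H = evF u t θ h := by
  induction H using MvPolynomial.induction_on with
  | C a => exact ⟨0, C (MvPolynomial.C a), fun t θ x _ => by simp [evF_C, evT]⟩
  | add f g hf hg =>
      obtain ⟨n, a, ha⟩ := hf
      obtain ⟨m, b, hb⟩ := hg
      refine ⟨n + m, a * C (l ^ m) + b * C (l ^ n), fun t θ x hx => ?_⟩
      simp only [map_add, map_mul, evF_C, map_pow]
      rw [← ha t θ x hx, ← hb t θ x hx]
      ring
  | mul_X f i hf =>
      obtain ⟨n, a, ha⟩ := hf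
      rcases i with i | j
      · refine ⟨n, a * C (MvPolynomial.X (Sum.inl i)), fun t θ x hx => ?_⟩
        simp only [map_mul, evF_C, evT, MvPolynomial.aeval_X, Sum.elim_inl]
        rw [← ha t θ x hx]
        simp only [evT]
        ring
      · refine ⟨n + 1, a * q j, fun t θ x hx => ?_⟩
        simp only [map_mul, MvPolynomial.aeval_X, Sum.elim_inr, hx j]
        rw [← ha t θ x hx]
        ring

/-- Every point over independent parameters has a presentation which controls all its equations. -/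
theorem exists_presentation [IsDomain Q] [Fintype σ] (u : Fin d → Q) (hu : AlgebraicIndependent ℂ u)
    (x : σ → Q) :
    ∃ (r : ℕ) (t : Fin r → Q) (θ : Q) (F : (MvPolynomial (Fin d ⊕ Fin r) ℂ)[X])
      (l : MvPolynomial (Fin d ⊕ Fin r) ℂ) (q : σ → (MvPolynomial (Fin d ⊕ Fin r) ℂ)[X]),
      F.Monic ∧ evF u t θ F = 0 ∧ (∀ j, evF u t θ (q j) = evT u t l * x j) ∧
      evF u t θ (derivative F) * evT u t l ≠ 0 ∧
      ∀ (t' : Fin r → Q) (θ' : Q) (x' : σ → Q), evF u t' θ' F = 0 →
        (∀ j, evF u t' θ' (q j) = evT u t' l * x' j) → evT u t' l ≠ 0 →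
        ∀ H : MvPolynomial (Fin d ⊕ σ) ℂ, MvPolynomial.aeval (Sum.elim u x) H = 0 →
          MvPolynomial.aeval (Sum.elim u x') H = 0 := by
  classical
  -- transcendental coordinates among the entries of `x`
  let ok : ℕ → Prop := fun r => ∃ i : Fin r → σ,
    AlgebraicIndependent ℂ (Sum.elim u (x ∘ i))
  have h0 : ok 0 := ⟨Fin.elim0, by
    have h := hu.comp (fun s : Fin d ⊕ Fin 0 => s.elim id Fin.elim0) (by
      rintro (a | a) (b | b) h
      · simpa using h
      · exact b.elim0
      · exact a.elim0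
      · exact a.elim0)
    convert h using 1
    funext s
    rcases s with a | a
    · rfl
    · exact a.elim0⟩
  set r := Nat.findGreatest ok (Fintype.card σ) with hr
  obtain ⟨i, hi⟩ : ok r := Nat.findGreatest_spec (Nat.zero_le _) h0
  set t : Fin r → Q := x ∘ i with ht
  letI : Algebra (MvPolynomial (Fin d ⊕ Fin r) ℂ) Q := (evT u t).toRingHom.toAlgebra
  haveI : IsScalarTower ℂ (MvPolynomial (Fin d ⊕ Fin r) ℂ) Q :=
    IsScalarTower.of_algebraMap_eq (R := ℂ) (S := MvPolynomial (Fin d ⊕ Fin r) ℂ) (A := Q)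
      fun c => (AlgHom.commutes (evT u t) c).symm
  set A₀ := MvPolynomial (Fin d ⊕ Fin r) ℂ
  have hinj : Function.Injective (algebraMap A₀ Q) := hi
  haveI : FaithfulSMul A₀ Q := (faithfulSMul_iff_algebraMap_injective A₀ Q).2 hinj
  have halg : ∀ j, IsAlgebraic A₀ (x j) := by
    intro j
    by_contra hj
    have hs : AlgebraicIndependent A₀ (fun _ : Fin 1 => x j) := algebraicIndependent_unique_type_iff.2 hj
    have hbig : AlgebraicIndependent ℂ (Sum.elim u (x ∘ Fin.snoc i j)) := by
      have hm : AlgebraicIndependent ℂ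
          (Sum.elim (fun _ : Fin 1 => x j) ((algebraMap A₀ Q) ∘ MvPolynomial.X)) :=
        (MvPolynomial.algebraicIndependent_X (Fin d ⊕ Fin r) ℂ).sumElim_comp hs
      let e : Fin d ⊕ Fin (r + 1) → Fin 1 ⊕ (Fin d ⊕ Fin r) :=
        Sum.elim (fun a => Sum.inr (Sum.inl a))
          (Fin.snoc (fun a => Sum.inr (Sum.inr a)) (Sum.inl 0))
      have he : Function.Injective e := by
        rintro (a | a) (b | b) h
        · simpa [e] using h
        · refine b.lastCases (fun h => by simp [e] at h) (fun b h => by simp [e] at h) h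
        · refine a.lastCases (fun h => by simp [e] at h) (fun a h => by simp [e] at h) h
        · revert h
          refine a.lastCases ?_ ?_ <;> refine b.lastCases ?_ ?_ <;> simp [e]
      convert hm.comp e he using 1
      funext s
      rcases s with a | a
      · simp only [e, Function.comp_apply, Sum.elim_inl, Sum.elim_inr]
        exact (MvPolynomial.aeval_X (Sum.elim u t) (Sum.inl a)).symm
      · refine a.lastCases ?_ fun a => ?_
        · simp [e]
        · simp only [e, Function.comp_apply, Sum.elim_inr, Fin.snoc_castSucc]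
          exact (MvPolynomial.aeval_X (Sum.elim u t) (Sum.inr a)).symm
    have hM : r + 1 ≤ Fintype.card σ := by
      have hinj' : Function.Injective (x ∘ Fin.snoc i j) := fun a b h =>
        Sum.inr_injective (hbig.injective (a₁ := Sum.inr a) (a₂ := Sum.inr b) h)
      simpa using Fintype.card_le_of_injective _ hinj'.of_comp
    exact absurd (Nat.le_findGreatest hM (show ok (r + 1) from ⟨_, hbig⟩)) (by omega)
  -- fields
  let K₀ := FractionRing A₀
  let L₀ := FractionRing Q
  letI : Algebra K₀ L₀ := FractionRing.liftAlgebra A₀ L₀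
  haveI : IsScalarTower A₀ K₀ L₀ := FractionRing.isScalarTower_liftAlgebra A₀ L₀
  set ι := algebraMap Q L₀ with hι
  have hιinj : Function.Injective ι := IsFractionRing.injective Q L₀
  have hA : ∀ a : A₀, algebraMap K₀ L₀ (algebraMap A₀ K₀ a) = ι (algebraMap A₀ Q a) := fun a => by
    rw [← IsScalarTower.algebraMap_apply, IsScalarTower.algebraMap_apply A₀ Q L₀]
  let E := IntermediateField.adjoin K₀ (Set.range (ι ∘ x))
  have halgK : ∀ y ∈ Set.range (ι ∘ x), IsIntegral K₀ y := by
    rintro y ⟨j, rfl⟩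
    have h1 : IsAlgebraic A₀ (ι (x j)) := (halg j).algHom (IsScalarTower.toAlgHom A₀ Q L₀)
    exact (h1.extendScalars (IsFractionRing.injective A₀ K₀)).isIntegral
  haveI : FiniteDimensional K₀ E :=
    IntermediateField.finiteDimensional_adjoin halgK
  obtain ⟨α, hα⟩ := Field.exists_primitive_element K₀ E
  have hadj : E.toSubalgebra = Algebra.adjoin K₀ (Set.range (ι ∘ x)) :=
    IntermediateField.adjoin_toSubalgebra_of_isAlgebraic fun y hy => (halgK y hy).isAlgebraic
  have hclear : ∀ y ∈ Algebra.adjoin K₀ (Set.range (ι ∘ x)),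
      ∃ (a : A₀) (z : Q), a ≠ 0 ∧ ι (algebraMap A₀ Q a) * y = ι z := by
    intro y hy
    induction hy using Algebra.adjoin_induction with
    | mem y hy =>
        obtain ⟨j, rfl⟩ := hy
        exact ⟨1, x j, one_ne_zero, by simp⟩
    | algebraMap k =>
        obtain ⟨a, b, hb, rfl⟩ := IsFractionRing.div_surjective (A := A₀) k
        refine ⟨b, algebraMap A₀ Q a, nonZeroDivisors.ne_zero hb, ?_⟩
        have hb' : ι (algebraMap A₀ Q b) ≠ 0 := fun h => nonZeroDivisors.ne_zero hb
          (hinj ((hιinj (h.trans (map_zero ι).symm)).trans (map_zero (algebraMap A₀ Q)).symm))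
        rw [map_div₀, hA, hA, mul_div_cancel₀ _ hb']
    | add y z _ _ hy hz =>
        obtain ⟨a, p, ha, hp⟩ := hy
        obtain ⟨b, q, hb, hq⟩ := hz
        refine ⟨a * b, algebraMap A₀ Q b * p + algebraMap A₀ Q a * q, mul_ne_zero ha hb, ?_⟩
        simp only [map_add, map_mul]
        rw [← hp, ← hq]; ring
    | mul y z _ _ hy hz =>
        obtain ⟨a, p, ha, hp⟩ := hy
        obtain ⟨b, q, hb, hq⟩ := hz
        refine ⟨a * b, p * q, mul_ne_zero ha hb, ?_⟩
        simp only [map_mul]
        rw [← hp, ← hq]; ring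
  obtain ⟨a₁, θ₁, ha₁, hθ₁⟩ := hclear (α : L₀) (hadj ▸ α.2)
  have hαint : IsIntegral K₀ (α : L₀) := (Algebra.IsIntegral.isIntegral (R := K₀) α).map E.val
  have hθ₁alg : IsAlgebraic A₀ θ₁ := by
    refine (isAlgebraic_algebraMap_iff (A := L₀) hιinj).1
      ((IsFractionRing.isAlgebraic_iff A₀ K₀ L₀).2 (IsIntegral.isAlgebraic ?_))
    rw [← hι, ← hθ₁, ← hA]
    exact isIntegral_algebraMap.mul hαint
  obtain ⟨a₂, ha₂, hint⟩ := hθ₁alg.exists_integral_multiple
  set θ : Q := a₂ • θ₁ with hθ
  set c : K₀ := algebraMap A₀ K₀ (a₂ * a₁) with hc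
  have hc0 : c ≠ 0 := fun h => mul_ne_zero ha₂ ha₁
    (IsFractionRing.injective A₀ K₀ (h.trans (map_zero _).symm))
  have hθι : ι θ = algebraMap K₀ L₀ c * (α : L₀) := by
    rw [hc, hA, hθ, Algebra.smul_def, map_mul, map_mul, map_mul, ← hθ₁, mul_assoc]
  have hgen : ∀ j, ∃ (b : A₀) (p : A₀[X]), b ≠ 0 ∧ aeval θ p = algebraMap A₀ Q b * x j := by
    intro j
    have hmem : ι (x j) ∈ E := IntermediateField.subset_adjoin _ _ ⟨j, rfl⟩
    have h1 : (⟨ι (x j), hmem⟩ : E) ∈ Algebra.adjoin K₀ {α} := by
      rw [← IntermediateField.adjoin_simple_toSubalgebra_of_isAlgebraic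
        (Algebra.IsAlgebraic.isAlgebraic (R := K₀) α), hα]
      exact Algebra.mem_top
    rw [Algebra.adjoin_singleton_eq_range_aeval] at h1
    obtain ⟨P, hP⟩ := h1
    have hP' : aeval (α : L₀) P = ι (x j) := by
      exact (Polynomial.aeval_algHom_apply E.val α P).trans (congrArg E.val hP)
    let P' := P.comp (C c⁻¹ * X)
    have hP'' : aeval (ι θ) P' = ι (x j) := by
      rw [Polynomial.aeval_comp, map_mul, aeval_C, aeval_X, hθι, ← mul_assoc, ← map_mul,
        inv_mul_cancel₀ hc0, map_one, one_mul, hP']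
    obtain ⟨⟨b, hb⟩, hmap⟩ := IsLocalization.integerNormalization_map_to_map (nonZeroDivisors A₀) P'
    refine ⟨b, IsLocalization.integerNormalization (nonZeroDivisors A₀) P',
      nonZeroDivisors.ne_zero hb, hιinj ?_⟩
    rw [← Polynomial.aeval_algebraMap_apply, ← Polynomial.aeval_map_algebraMap K₀, ← hι, hmap,
      ← algebraMap_smul K₀, map_smul, hP'', Algebra.smul_def, hA, map_mul]
  choose b p hb0 hp using hgen
  set F := minpoly A₀ θ with hF
  have hFm : F.Monic := minpoly.monic hint
  have hev : ∀ G : A₀[X], evF u t θ G = aeval θ G := fun G => rfl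
  refine ⟨r, t, θ, F, ∏ j, b j, fun j => C (∏ k ∈ Finset.univ.erase j, b k) * p j, hFm,
    (hev F).trans (minpoly.aeval A₀ θ), fun j => ?_, ?_, ?_⟩
  · rw [map_mul, evF_C, hev, hp j, ← Finset.mul_prod_erase _ _ (Finset.mem_univ j)]
    simp only [evT, map_mul, RingHom.algebraMap_toAlgebra, AlgHom.toRingHom_eq_coe, RingHom.coe_coe]
    ring
  · refine mul_ne_zero ?_ fun h => Finset.prod_ne_zero_iff.2 (fun j _ => hb0 j)
      (hinj (h.trans (map_zero (algebraMap A₀ Q)).symm))
    rw [hev]
    intro h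
    have hdvd : F ∣ derivative F := minpoly.isIntegrallyClosed_dvd hint h
    have hpos : 0 < F.natDegree := minpoly.natDegree_pos hint
    have hne : derivative F ≠ 0 := fun h0 => by
      have := Polynomial.natDegree_eq_zero_of_derivative_eq_zero h0
      omega
    exact absurd (Polynomial.natDegree_le_of_dvd hdvd hne)
      (not_le.2 (Polynomial.natDegree_derivative_lt hpos.ne'))
  · intro t' θ' x' hF' hq' hl' H hH
    obtain ⟨N, h, hh⟩ := homogenise u (∏ j, b j)
      (fun j => C (∏ k ∈ Finset.univ.erase j, b k) * p j) H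
    have hzero : aeval θ h = 0 := by
      rw [← hev, ← hh t θ x fun j => ?_, hH, mul_zero]
      rw [map_mul, evF_C, hev, hp j, ← Finset.mul_prod_erase _ _ (Finset.mem_univ j)]
      simp only [evT, map_mul, RingHom.algebraMap_toAlgebra, AlgHom.toRingHom_eq_coe, RingHom.coe_coe]
      ring
    obtain ⟨G, hG⟩ := minpoly.isIntegrallyClosed_dvd hint hzero
    have := hh t' θ' x' hq'
    rw [hG, map_mul, hF', zero_mul] at this
    exact (mul_eq_zero.1 this).resolve_left (pow_ne_zero _ hl')

/-- Module Present. -/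
theorem present_ok : PresentStatement := by
  intro T _ _ _ d base hb σ _ x
  obtain ⟨r, t, θ, F, l, q, -, h1, h2, h3, h4⟩ := exists_presentation base hb x
  exact ⟨r, F, l, q, t, θ, h1, h3, h2, h4⟩

end

end Vale.Agent.P266.Alg
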