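import Vale.Agent.P266.Alg.Assemble
import Vale.Agent.P266.Alg.AlgClosed
import Vale.Agent.P266.Alg.Present
import Vale.Agent.P266.Alg.Approx
import Vale.Agent.P266.Alg.Normal
import Vale.Agent.P266.Alg.Cocycle
import Vale.Agent.P266.Alg.Determinacy

/-!
P266: algebraisation of singular germs with free derivations.
-/

namespace Vale.Agent.P266.Alg

/-- The germ modules, up to the descent. -/
theorem algebraise_of_descend (hE : DescendStatement) : AlgebraiseStatement :=
  algebraise params_ok free_ok (approx_ok closure_ok present_ok)
    (determinacy_ok (cocycle_ok params_ok free_ok)) hE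

end Vale.Agent.P266.Alg
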