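import Vale.Agent.P266.Alg.Defs

/-!
P266: two-variable series, evaluation, and adic facts for charts.

The instance `Algebra P1 P` found by Lean is the coefficientwise map (`Φ ↦ Ψ`); the embedding of
the coefficient ring is `PowerSeries.C`.
-/

noncomputable section

open scoped PowerSeries
open Finset

namespace Vale.Agent.P266.Alg

lemma algebraMap_P (c : ℂ) : algebraMap ℂ P c = PowerSeries.C (PowerSeries.C c) := by
  simp [PowerSeries.algebraMap_apply]

instance : CharZero P :=
  charZero_of_injective_algebraMap (algebraMap ℂ P).injective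

lemma cf_ext {f g : P} (h : ∀ i j, cf i j f = cf i j g) : f = g :=
  PowerSeries.ext fun j => PowerSeries.ext fun i => h i j

lemma cf_add (i j : ℕ) (f g : P) : cf i j (f + g) = cf i j f + cf i j g := by simp [cf]

lemma cf_sub (i j : ℕ) (f g : P) : cf i j (f - g) = cf i j f - cf i j g := by simp [cf]

lemma cf_zero (i j : ℕ) : cf i j 0 = 0 := by simp [cf]

lemma cf_varPhi (i j : ℕ) : cf i j varPhi = if i = 1 ∧ j = 0 then 1 else 0 := by
  by_cases hj : j = 0 <;> simp [cf, varPhi, PowerSeries.coeff_C, PowerSeries.coeff_X, hj]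

lemma cf_varPsi (i j : ℕ) : cf i j varPsi = if i = 0 ∧ j = 1 then 1 else 0 := by
  by_cases hj : j = 1 <;> simp [cf, varPsi, PowerSeries.coeff_X, PowerSeries.coeff_one, hj]

lemma cf_varPhi_mul (i j : ℕ) (f : P) : cf i j (varPhi * f) = if i = 0 then 0 else cf (i - 1) j f := by
  rcases i with _ | i <;>
    simp [cf, varPhi, PowerSeries.coeff_C_mul, PowerSeries.coeff_zero_X_mul,
      PowerSeries.coeff_succ_X_mul]

lemma cf_varPsi_mul (i j : ℕ) (f : P) : cf i j (varPsi * f) = if j = 0 then 0 else cf i (j - 1) f := by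
  rcases j with _ | j <;>
    simp [cf, varPsi, PowerSeries.coeff_zero_X_mul, PowerSeries.coeff_succ_X_mul]

lemma varPhi_mem : varPhi ∈ mP := Ideal.subset_span (Or.inl rfl)

lemma varPsi_mem : varPsi ∈ mP := Ideal.subset_span (Or.inr rfl)

lemma mem_mP_pow {f : P} {k : ℕ} : f ∈ mP ^ k ↔ ∀ i j, i + j < k → cf i j f = 0 := by
  induction k generalizing f with
  | zero => simp
  | succ k ih =>
    refine ⟨fun hf => ?_, fun h => ?_⟩
    · rw [pow_succ'] at hf
      refine Submodule.mul_induction_on hf (fun a ha b hb i j hij => ?_)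
        (fun a b ha hb i j hij => by rw [cf_add, ha i j hij, hb i j hij, add_zero])
      obtain ⟨p, q, rfl⟩ := Ideal.mem_span_pair.1 ha
      rw [show (p * varPhi + q * varPsi) * b = varPhi * (p * b) + varPsi * (q * b) by ring, cf_add,
        cf_varPhi_mul, cf_varPsi_mul]
      have hp := ih.1 (Ideal.mul_mem_left _ p hb)
      have hq := ih.1 (Ideal.mul_mem_left _ q hb)
      split_ifs with h1 h2 h2
      · simp
      · rw [zero_add]; exact hq i (j - 1) (by omega)
      · rw [add_zero]; exact hp (i - 1) j (by omega)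
      · rw [hp (i - 1) j (by omega), hq i (j - 1) (by omega), add_zero]
    · obtain ⟨u, hu⟩ : PowerSeries.X ^ (k + 1) ∣ PowerSeries.coeff 0 f :=
        PowerSeries.X_pow_dvd_iff.2 fun i hi => h i 0 (by omega)
      set g : P := PowerSeries.mk fun j => PowerSeries.coeff (j + 1) f with hg
      have e : f = varPsi * g + varPhi ^ (k + 1) * PowerSeries.C u := by
        conv_lhs => rw [PowerSeries.eq_X_mul_shift_add_const f]
        rw [← PowerSeries.coeff_zero_eq_constantCoeff_apply, hu, map_mul, map_pow]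
        rfl
      rw [e]
      refine add_mem ?_ (Ideal.mul_mem_right _ _ (Ideal.pow_mem_pow varPhi_mem _))
      rw [pow_succ']
      refine Ideal.mul_mem_mul varPsi_mem (ih.2 fun i j hij => ?_)
      simpa [cf, hg] using h i (j + 1) (by omega)

lemma mem_mP_iff {f : P} : f ∈ mP ↔ ev2 f = 0 := by
  have h : ev2 f = cf 0 0 f := by simp [ev2, cf]
  rw [h, ← pow_one mP, mem_mP_pow]
  exact ⟨fun hf => hf 0 0 (by omega), fun hf i j hij => by
    obtain ⟨rfl, rfl⟩ : i = 0 ∧ j = 0 := by omega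
    exact hf⟩

lemma maximalIdeal_P : IsLocalRing.maximalIdeal P = mP := by
  ext f
  rw [IsLocalRing.mem_maximalIdeal, mem_nonunits_iff, PowerSeries.isUnit_iff_constantCoeff,
    PowerSeries.isUnit_iff_constantCoeff, isUnit_iff_ne_zero, not_not, mem_mP_iff]
  rfl

lemma mem_smul_top_iff {T : Type} [CommRing T] {I : Ideal T} {x : T} :
    x ∈ (I • ⊤ : Submodule T T) ↔ x ∈ I := by
  rw [smul_eq_mul, Ideal.mul_top]

instance : IsAdicComplete mP P where
  haus' f hf := cf_ext fun i j => by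
    have h := mem_smul_top_iff.1 (SModEq.sub_mem.1 (hf (i + j + 1)))
    rw [sub_zero] at h
    rw [mem_mP_pow.1 h i j (by omega), cf_zero]
  prec' f hf := by
    refine ⟨PowerSeries.mk fun j => PowerSeries.mk fun i => cf i j (f (i + j + 1)), fun n => ?_⟩
    refine SModEq.sub_mem.2 (mem_smul_top_iff.2 (mem_mP_pow.2 fun i j hij => ?_))
    have h := mem_mP_pow.1 (mem_smul_top_iff.1 (SModEq.sub_mem.1
      (hf (show i + j + 1 ≤ n by omega)))) i j (by omega)
    rw [cf_sub] at h ⊢
    rw [show cf i j (PowerSeries.mk fun j => PowerSeries.mk fun i => cf i j (f (i + j + 1)))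
      = cf i j (f (i + j + 1)) by simp [cf]]
    linear_combination -h

/-- The polynomials inside the series. -/
def toP : MvPolynomial (Fin 2) ℂ →ₐ[ℂ] P := MvPolynomial.aeval base2

/-- The part of degree below `k`. -/
def trunc (k : ℕ) (f : P) : MvPolynomial (Fin 2) ℂ :=
  ∑ i ∈ range k, ∑ j ∈ range (k - i),
    MvPolynomial.C (cf i j f) * MvPolynomial.X 0 ^ i * MvPolynomial.X 1 ^ j

lemma cf_monomial (i j a b : ℕ) (c : ℂ) :
    cf i j (algebraMap ℂ P c * varPhi ^ a * varPsi ^ b) = if i = a ∧ j = b then c else 0 := by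
  rw [algebraMap_P, varPhi, varPsi, ← map_pow, ← map_mul, cf, ← PowerSeries.monomial_eq_C_mul_X_pow,
    PowerSeries.coeff_monomial]
  by_cases hj : j = b
  · simp [hj, ← PowerSeries.monomial_eq_C_mul_X_pow, PowerSeries.coeff_monomial]
  · simp [hj]

lemma cf_sum {ι : Type} (s : Finset ι) (F : ι → P) (i j : ℕ) :
    cf i j (∑ x ∈ s, F x) = ∑ x ∈ s, cf i j (F x) := by simp [cf]

lemma sub_trunc_mem (k : ℕ) (f : P) : f - toP (trunc k f) ∈ mP ^ k := by
  refine mem_mP_pow.2 fun i j hij => ?_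
  simp only [cf_sub, trunc, toP, map_sum, map_mul, map_pow, MvPolynomial.aeval_C,
    MvPolynomial.aeval_X, base2, Matrix.cons_val_zero, Matrix.cons_val_one, cf_sum, cf_monomial]
  rw [sum_eq_single i (fun a _ ha => sum_eq_zero fun b _ => if_neg fun h => ha h.1.symm)
    (fun h => absurd (mem_range.2 (by omega)) h),
    sum_eq_single j (fun b _ hb => if_neg fun h => hb h.2.symm)
    (fun h => absurd (mem_range.2 (by omega)) h), if_pos ⟨rfl, rfl⟩, sub_self]

lemma cf_mul (i j : ℕ) (a b : P) : cf i j (a * b) =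
    ∑ q ∈ antidiagonal j, ∑ p ∈ antidiagonal i, cf p.1 q.1 a * cf p.2 q.2 b := by
  simp [cf, PowerSeries.coeff_mul]

lemma exists_not_mem_pow {a : P} (ha : a ≠ 0) : ∃ o, a ∉ mP ^ (o + 1) := by
  by_contra h
  refine ha (cf_ext fun i j => ?_)
  rw [cf_zero]
  exact mem_mP_pow.1 (by simpa using (not_exists.1 h (i + j))) i j (by omega)

lemma exists_lowest {a : P} {o : ℕ} (ha : a ∉ mP ^ (o + 1)) :
    ∃ i₀ j₀, i₀ + j₀ ≤ o ∧ cf i₀ j₀ a ≠ 0 ∧
      ∀ i j, i + j < i₀ + j₀ ∨ (i + j = i₀ + j₀ ∧ i < i₀) → cf i j a = 0 := by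
  classical
  have hex : ∃ s i j, i + j = s ∧ cf i j a ≠ 0 := by
    by_contra h
    refine ha (mem_mP_pow.2 fun i j _ => ?_)
    by_contra h'
    exact h ⟨i + j, i, j, rfl, h'⟩
  have hex' : ∃ i, ∃ j, i + j = Nat.find hex ∧ cf i j a ≠ 0 := Nat.find_spec hex
  obtain ⟨j₀, hs, hne⟩ := Nat.find_spec hex'
  refine ⟨Nat.find hex', j₀, ?_, hne, fun i j h => ?_⟩
  · by_contra hlt
    refine ha (mem_mP_pow.2 fun i j hij => ?_)
    by_contra h'
    have := Nat.find_min' hex ⟨i, j, rfl, h'⟩
    omega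
  · by_contra h'
    rcases h with h | ⟨h, hi⟩
    · have := Nat.find_min' hex ⟨i, j, rfl, h'⟩
      omega
    · exact Nat.find_min hex' hi ⟨j, by omega, h'⟩

/-- The order is additive. -/
lemma mem_pow_of_mul_mem {a b : P} {o k : ℕ} (ha : a ∉ mP ^ (o + 1)) (hab : a * b ∈ mP ^ (k + o)) :
    b ∈ mP ^ k := by
  obtain ⟨i₀, j₀, ho, hne, hlow⟩ := exists_lowest ha
  rcases k with _ | k
  · simp
  by_contra hb
  obtain ⟨i₁, j₁, ho', hne', hlow'⟩ := exists_lowest hb
  have key : cf (i₀ + i₁) (j₀ + j₁) (a * b) = cf i₀ j₀ a * cf i₁ j₁ b := by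
    rw [cf_mul, sum_eq_single (j₀, j₁) ?_ (fun h => absurd (mem_antidiagonal.2 rfl) h),
      sum_eq_single (i₀, i₁) ?_ (fun h => absurd (mem_antidiagonal.2 rfl) h)]
    · rintro ⟨p1, p2⟩ hp hpne
      have hp' := mem_antidiagonal.1 hp
      have hne2 : p1 ≠ i₀ := fun h => hpne (Prod.ext h (by omega))
      rcases Nat.lt_or_gt_of_ne hne2 with h | h
      · rw [hlow p1 j₀ (Or.inl (by omega)), zero_mul]
      · rw [hlow' p2 j₁ (Or.inl (by omega)), mul_zero]
    · rintro ⟨q1, q2⟩ hq hqne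
      have hq' := mem_antidiagonal.1 hq
      have hne2 : q1 ≠ j₀ := fun h => hqne (Prod.ext h (by omega))
      refine sum_eq_zero fun p hp => ?_
      obtain ⟨p1, p2⟩ := p
      have hp' := mem_antidiagonal.1 hp
      rcases Nat.lt_trichotomy (p1 + q1) (i₀ + j₀) with h | h | h
      · rw [hlow p1 q1 (Or.inl h), zero_mul]
      · rcases Nat.lt_or_gt_of_ne hne2 with h2 | h2
        · rw [hlow' p2 q2 (Or.inr ⟨by omega, by omega⟩), mul_zero]
        · rw [hlow p1 q1 (Or.inr ⟨h, by omega⟩), zero_mul]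
      · rw [hlow' p2 q2 (Or.inl (by omega)), mul_zero]
  rw [mem_mP_pow.1 hab _ _ (by omega)] at key
  exact mul_ne_zero hne hne' key.symm

/-- Roots of equations with invertible linear term. -/
lemma exists_root (g : Polynomial P) {j : ℕ} (hj : 1 ≤ j) (h0 : g.eval 0 ∈ mP ^ j)
    (h1 : IsUnit (g.derivative.eval 0)) :
    ∃ s, s ∈ mP ^ j ∧ g.eval s = 0 ∧ IsUnit (g.derivative.eval s) := by
  obtain ⟨u, hu⟩ := h1
  set S : ℕ → P := fun n => Nat.rec 0 (fun _ s => s + -(g.eval s * ↑u⁻¹)) n with hS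
  have hstep : ∀ n, S (n + 1) = S n + -(g.eval (S n) * ↑u⁻¹) := fun n => rfl
  have hd : ∀ s ∈ mP ^ j, g.derivative.eval s - u ∈ mP ^ j := fun s hs => by
    rw [hu]
    exact Ideal.mem_of_dvd _ (Polynomial.sub_dvd_eval_sub s 0 g.derivative) (by rwa [sub_zero])
  have key : ∀ n, S n ∈ mP ^ j ∧ g.eval (S n) ∈ mP ^ (j + n) := by
    intro n
    induction n with
    | zero => exact ⟨by simp [hS], h0⟩
    | succ n ih =>
      have hh : -(g.eval (S n) * ↑u⁻¹) ∈ mP ^ (j + n) :=
        neg_mem (Ideal.mul_mem_right _ _ ih.2)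
      refine ⟨by rw [hstep]; exact add_mem ih.1 (Ideal.pow_le_pow_right (by omega) hh), ?_⟩
      obtain ⟨c, hc⟩ := g.binomExpansion (S n) (-(g.eval (S n) * ↑u⁻¹))
      rw [hstep, hc]
      refine add_mem (Ideal.pow_le_pow_right (show j + (n + 1) ≤ (j + n) + j by omega) ?_)
        (Ideal.mul_mem_left _ c (Ideal.pow_le_pow_right (show j + (n + 1) ≤ (j + n) * 2 by omega)
          ((pow_mul mP (j + n) 2).symm ▸ Ideal.pow_mem_pow hh 2)))
      rw [show g.eval (S n) + g.derivative.eval (S n) * -(g.eval (S n) * ↑u⁻¹)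
        = -(g.eval (S n) * ((g.derivative.eval (S n) - u) * ↑u⁻¹)) by
          linear_combination -(g.eval (S n)) * u.mul_inv, pow_add]
      exact neg_mem (Ideal.mul_mem_mul ih.2 (Ideal.mul_mem_right _ _ (hd _ ih.1)))
  have hcau : ∀ m n, m ≤ n → S n - S m ∈ mP ^ (j + m) := by
    intro m n hmn
    induction n, hmn using Nat.le_induction with
    | base => simp
    | succ n hmn ih =>
      rw [hstep, show S n + -(g.eval (S n) * ↑u⁻¹) - S m
        = (S n - S m) + -(g.eval (S n) * ↑u⁻¹) by ring]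
      exact add_mem ih
        (neg_mem (Ideal.mul_mem_right _ _ (Ideal.pow_le_pow_right (by omega) (key n).2)))
  obtain ⟨L, hL⟩ := IsPrecomplete.prec (I := mP) (M := P) inferInstance (f := S) fun {m n} hmn =>
    SModEq.sub_mem.2 (mem_smul_top_iff.2 (by
      rw [← neg_sub]; exact neg_mem (Ideal.pow_le_pow_right (by omega) (hcau m n hmn))))
  have hL' : ∀ n, L - S n ∈ mP ^ n := fun n => by
    rw [← neg_sub]; exact neg_mem (mem_smul_top_iff.1 (SModEq.sub_mem.1 (hL n)))
  have hLj : L ∈ mP ^ j := by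
    rw [← sub_add_cancel L (S j)]; exact add_mem (hL' j) (key j).1
  refine ⟨L, hLj, IsHausdorff.haus (I := mP) (M := P) inferInstance _ fun n => ?_, ?_⟩
  · refine SModEq.sub_mem.2 (mem_smul_top_iff.2 ?_)
    rw [sub_zero, ← sub_add_cancel (g.eval L) (g.eval (S n))]
    exact add_mem (Ideal.mem_of_dvd _ (Polynomial.sub_dvd_eval_sub L (S n) g) (hL' n))
      (Ideal.pow_le_pow_right (by omega) (key n).2)
  · by_contra hn
    rw [← mem_nonunits_iff, ← IsLocalRing.mem_maximalIdeal, maximalIdeal_P] at hn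
    have h2 := Ideal.pow_le_self (I := mP) (show j ≠ 0 by omega) (hd L hLj)
    have : (u : P) ∈ mP := by simpa using sub_mem hn h2
    rw [← maximalIdeal_P, IsLocalRing.mem_maximalIdeal] at this
    exact this u.isUnit

lemma dPhi_add (f g : P) : dPhi (f + g) = dPhi f + dPhi g :=
  PowerSeries.ext fun j => by simp [dPhi]

lemma dPsi_add (f g : P) : dPsi (f + g) = dPsi f + dPsi g := map_add _ _ _

lemma dPhi_mul (f g : P) : dPhi (f * g) = dPhi f * g + f * dPhi g :=
  PowerSeries.ext fun j => by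
    simp only [dPhi, PowerSeries.coeff_mk, PowerSeries.coeff_mul, map_sum, map_add,
      Derivation.leibniz, smul_eq_mul, ← sum_add_distrib]
    exact sum_congr rfl fun q _ => by ring

lemma dPsi_mul (f g : P) : dPsi (f * g) = dPsi f * g + f * dPsi g := by
  simp only [dPsi, Derivation.leibniz, smul_eq_mul]
  ring

lemma dPhi_C (u : P1) : dPhi (PowerSeries.C u) = PowerSeries.C (PowerSeries.derivative ℂ u) :=
  PowerSeries.ext fun j => by
    by_cases hj : j = 0 <;> simp [dPhi, PowerSeries.coeff_C, hj]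

lemma dPhi_algebraMap (c : ℂ) : dPhi (algebraMap ℂ P c) = 0 := by
  rw [algebraMap_P, dPhi_C, PowerSeries.derivative_C, map_zero]

lemma dPsi_algebraMap (c : ℂ) : dPsi (algebraMap ℂ P c) = 0 := by
  rw [algebraMap_P, dPsi, PowerSeries.derivative_C]

lemma dPhi_varPhi : dPhi varPhi = 1 := by
  rw [varPhi, dPhi_C, PowerSeries.derivative_X, map_one]

lemma dPhi_varPsi : dPhi varPsi = 0 :=
  PowerSeries.ext fun j => by
    by_cases hj : j = 1 <;> simp [dPhi, varPsi, PowerSeries.coeff_X, hj]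

lemma dPsi_varPhi : dPsi varPhi = 0 := PowerSeries.derivative_C

lemma dPsi_varPsi : dPsi varPsi = 1 := PowerSeries.derivative_X

lemma dPhi_mem {f : P} {k : ℕ} (h : f ∈ mP ^ (k + 1)) : dPhi f ∈ mP ^ k :=
  mem_mP_pow.2 fun i j hij => by
    have := mem_mP_pow.1 h (i + 1) j (by omega)
    simp only [cf] at this
    simp [cf, dPhi, PowerSeries.coeff_derivative, this]

lemma dPsi_mem {f : P} {k : ℕ} (h : f ∈ mP ^ (k + 1)) : dPsi f ∈ mP ^ k :=
  mem_mP_pow.2 fun i j hij => by
    have := mem_mP_pow.1 h i (j + 1) (by omega)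
    simp only [cf] at this
    rw [cf, dPsi, PowerSeries.coeff_derivative, show ((j : P1) + 1)
      = PowerSeries.C ((j : ℂ) + 1) by simp, PowerSeries.coeff_mul_C, this, zero_mul]

lemma cf_toP (i j : ℕ) (p : MvPolynomial (Fin 2) ℂ) :
    cf i j (toP p) = p.coeff (Finsupp.single 0 i + Finsupp.single 1 j) := by
  induction p using MvPolynomial.induction_on' with
  | monomial s c =>
    rw [toP, MvPolynomial.aeval_monomial, Finsupp.prod_fintype _ _ fun _ => pow_zero _,
      Fin.prod_univ_two, ← mul_assoc, MvPolynomial.coeff_monomial]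
    simp only [base2, Matrix.cons_val_zero, Matrix.cons_val_one, cf_monomial]
    refine if_congr ⟨fun h => ?_, fun h => ?_⟩ rfl rfl
    · ext x; fin_cases x <;> simp [h.1, h.2]
    · subst h; simp
  | add p q hp hq => rw [map_add, cf_add, hp, hq, MvPolynomial.coeff_add]

section Eval

variable {T : Type} [CommRing T] [Algebra ℂ T] (I : Ideal T)

lemma aeval_mem_pow {a b : T} (ha : a ∈ I) (hb : b ∈ I) {k : ℕ} {p : MvPolynomial (Fin 2) ℂ}
    (hp : toP p ∈ mP ^ k) : MvPolynomial.aeval ![a, b] p ∈ I ^ k := by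
  rw [p.as_sum, map_sum]
  refine sum_mem fun s hs => ?_
  rw [MvPolynomial.aeval_monomial, Finsupp.prod_fintype _ _ fun _ => pow_zero _, Fin.prod_univ_two]
  have hsk : k ≤ s 0 + s 1 := by
    by_contra hlt
    have h0 := mem_mP_pow.1 hp (s 0) (s 1) (by omega)
    rw [cf_toP, show Finsupp.single 0 (s 0) + Finsupp.single 1 (s 1) = s by
      ext x; fin_cases x <;> simp] at h0
    exact MvPolynomial.mem_support_iff.1 hs h0
  refine Ideal.mul_mem_left _ _ (Ideal.pow_le_pow_right hsk ?_)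
  rw [pow_add]
  exact Ideal.mul_mem_mul (Ideal.pow_mem_pow ha _) (Ideal.pow_mem_pow hb _)

variable [IsAdicComplete I T]

omit [Algebra ℂ T] in
/-- Two elements congruent modulo every power are equal. -/
lemma eq_of_sub_mem {x y : T} (h : ∀ k, x - y ∈ I ^ k) : x = y :=
  sub_eq_zero.1 (IsHausdorff.haus (I := I) (M := T) inferInstance _ fun k =>
    SModEq.sub_mem.2 (mem_smul_top_iff.2 (by rw [sub_zero]; exact h k)))

omit [Algebra ℂ T] in
/-- Compatible approximations have a limit. -/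
lemma exists_limit (S : ℕ → T) (h : ∀ m n, m ≤ n → S n - S m ∈ I ^ m) :
    ∃ L, ∀ n, L - S n ∈ I ^ n := by
  obtain ⟨L, hL⟩ := IsPrecomplete.prec (I := I) (M := T) inferInstance (f := S) fun {m n} hmn =>
    SModEq.sub_mem.2 (mem_smul_top_iff.2 (by rw [← neg_sub]; exact neg_mem (h m n hmn)))
  exact ⟨L, fun n => by
    rw [← neg_sub]; exact neg_mem (mem_smul_top_iff.1 (SModEq.sub_mem.1 (hL n)))⟩

lemma exists_eval {a b : T} (ha : a ∈ I) (hb : b ∈ I) (f : P) :
    ∃ x, ∀ k, x - MvPolynomial.aeval ![a, b] (trunc k f) ∈ I ^ k := by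
  refine exists_limit I _ fun m n hmn => ?_
  rw [← map_sub]
  refine aeval_mem_pow I ha hb ?_
  rw [map_sub, show toP (trunc n f) - toP (trunc m f) = (f - toP (trunc m f))
    - (f - toP (trunc n f)) by ring]
  exact sub_mem (sub_trunc_mem m f) (Ideal.pow_le_pow_right hmn (sub_trunc_mem n f))

/-- The value of a series. -/
def evalFun {a b : T} (ha : a ∈ I) (hb : b ∈ I) (f : P) : T := (exists_eval I ha hb f).choose

lemma evalFun_eq {a b : T} (ha : a ∈ I) (hb : b ∈ I) {f : P} {x : T}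
    (h : ∀ k, ∃ p, f - toP p ∈ mP ^ k ∧ x - MvPolynomial.aeval ![a, b] p ∈ I ^ k) :
    evalFun I ha hb f = x := by
  refine eq_of_sub_mem I fun k => ?_
  obtain ⟨p, hp1, hp2⟩ := h k
  have hd : toP (trunc k f - p) ∈ mP ^ k := by
    rw [map_sub, show toP (trunc k f) - toP p = (f - toP p) - (f - toP (trunc k f)) by ring]
    exact sub_mem hp1 (sub_trunc_mem k f)
  have h3 := add_mem (sub_mem ((exists_eval I ha hb f).choose_spec k) hp2)
    (aeval_mem_pow I ha hb hd)
  rw [map_sub] at h3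
  convert h3 using 1
  rw [evalFun]
  ring

/-- Evaluation at two topologically nilpotent elements. -/
def evalP (a b : T) (ha : a ∈ I) (hb : b ∈ I) : P →ₐ[ℂ] T where
  toFun := evalFun I ha hb
  map_one' := evalFun_eq I ha hb fun k => ⟨1, by simp, by simp⟩
  map_zero' := evalFun_eq I ha hb fun k => ⟨0, by simp, by simp⟩
  map_add' f g := evalFun_eq I ha hb fun k => ⟨trunc k f + trunc k g, by
    rw [map_add, show f + g - (toP (trunc k f) + toP (trunc k g))
      = (f - toP (trunc k f)) + (g - toP (trunc k g)) by ring]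
    exact add_mem (sub_trunc_mem k f) (sub_trunc_mem k g), by
    rw [map_add, show ∀ u v p q : T, u + v - (p + q) = (u - p) + (v - q) from fun _ _ _ _ => by ring]
    exact add_mem ((exists_eval I ha hb f).choose_spec k) ((exists_eval I ha hb g).choose_spec k)⟩
  map_mul' f g := evalFun_eq I ha hb fun k => ⟨trunc k f * trunc k g, by
    rw [map_mul, show f * g - toP (trunc k f) * toP (trunc k g) = f * (g - toP (trunc k g))
      + (f - toP (trunc k f)) * toP (trunc k g) by ring]
    exact add_mem (Ideal.mul_mem_left _ _ (sub_trunc_mem k g))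
      (Ideal.mul_mem_right _ _ (sub_trunc_mem k f)), by
    rw [map_mul, show ∀ u v p q : T, u * v - p * q = u * (v - q) + (u - p) * q from
      fun _ _ _ _ => by ring]
    exact add_mem (Ideal.mul_mem_left _ _ ((exists_eval I ha hb g).choose_spec k))
      (Ideal.mul_mem_right _ _ ((exists_eval I ha hb f).choose_spec k))⟩
  commutes' c := evalFun_eq I ha hb fun k => ⟨MvPolynomial.C c, by simp [toP], by simp⟩

lemma evalP_sub_trunc (a b : T) (ha : a ∈ I) (hb : b ∈ I) (k : ℕ) (f : P) :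
    evalP I a b ha hb f - MvPolynomial.aeval ![a, b] (trunc k f) ∈ I ^ k :=
  (exists_eval I ha hb f).choose_spec k

lemma evalP_varPhi (a b : T) (ha : a ∈ I) (hb : b ∈ I) : evalP I a b ha hb varPhi = a :=
  evalFun_eq I ha hb fun k => ⟨MvPolynomial.X 0, by simp [toP, base2], by simp⟩

lemma evalP_varPsi (a b : T) (ha : a ∈ I) (hb : b ∈ I) : evalP I a b ha hb varPsi = b :=
  evalFun_eq I ha hb fun k => ⟨MvPolynomial.X 1, by simp [toP, base2], by simp⟩

omit [IsAdicComplete I T] in
lemma map_mem_pow (φ : P →ₐ[ℂ] T) (ha : φ varPhi ∈ I) (hb : φ varPsi ∈ I) {k : ℕ} {f : P}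
    (hf : f ∈ mP ^ k) : φ f ∈ I ^ k := by
  have h : mP.map φ ≤ I := by
    rw [mP, Ideal.map_span, Ideal.span_le]
    rintro x ⟨y, rfl | rfl, rfl⟩ <;> assumption
  exact Ideal.pow_right_mono h k (Ideal.map_pow (φ : P →ₐ[ℂ] T) mP k ▸ Ideal.mem_map_of_mem φ hf)

omit [IsAdicComplete I T] in
lemma map_toP (φ : P →ₐ[ℂ] T) (p : MvPolynomial (Fin 2) ℂ) :
    φ (toP p) = MvPolynomial.aeval ![φ varPhi, φ varPsi] p := by
  rw [toP, ← AlgHom.comp_apply, MvPolynomial.comp_aeval]
  congr 2
  ext x; fin_cases x <;> simp [base2]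

/-- Homomorphisms are determined by the parameters. -/
lemma hom_ext (φ φ' : P →ₐ[ℂ] T) (ha : φ varPhi ∈ I) (hb : φ varPsi ∈ I)
    (ea : φ' varPhi = φ varPhi) (eb : φ' varPsi = φ varPsi) : φ' = φ := by
  refine AlgHom.ext fun f => eq_of_sub_mem I fun k => ?_
  have h1 := map_mem_pow I φ' (ea ▸ ha) (eb ▸ hb) (sub_trunc_mem k f)
  have h2 := map_mem_pow I φ ha hb (sub_trunc_mem k f)
  rw [map_sub, map_toP, ea, eb] at h1
  rw [map_sub, map_toP] at h2
  convert sub_mem h1 h2 using 1
  ring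

omit [IsAdicComplete I T] in
/-- Zeroth and first order Taylor estimates. -/
lemma taylor (φ φ' : P →ₐ[ℂ] T) (ha : φ varPhi ∈ I) (hb : φ varPsi ∈ I) {j : ℕ} (hj : 1 ≤ j)
    (ea : φ' varPhi - φ varPhi ∈ I ^ j) (eb : φ' varPsi - φ varPsi ∈ I ^ j) (f : P) :
    φ' f - φ f ∈ I ^ j ∧
      φ' f - φ f - φ (dPhi f) * (φ' varPhi - φ varPhi) - φ (dPsi f) * (φ' varPsi - φ varPsi)
        ∈ I ^ (2 * j) := by
  set α := φ' varPhi - φ varPhi with hα
  set β := φ' varPsi - φ varPsi with hβ
  set E : P → T := fun f => φ' f - φ f - φ (dPhi f) * α - φ (dPsi f) * β with hE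
  have hjj : I ^ j * I ^ j ≤ I ^ (2 * j) := by rw [two_mul, pow_add]
  have hpoly : ∀ p, φ' (toP p) - φ (toP p) ∈ I ^ j ∧ E (toP p) ∈ I ^ (2 * j) := by
    intro p
    induction p using MvPolynomial.induction_on with
    | C c =>
      rw [toP, MvPolynomial.aeval_C]
      simp [hE, dPhi_algebraMap, dPsi_algebraMap]
    | add p q hp hq =>
      rw [map_add]
      refine ⟨?_, ?_⟩
      · convert add_mem hp.1 hq.1 using 1
        simp only [map_add]; ring
      · convert add_mem hp.2 hq.2 using 1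
        simp only [hE, map_add, dPhi_add, dPsi_add]; ring
    | mul_X p i hp =>
      have hx : φ' (toP (MvPolynomial.X i)) - φ (toP (MvPolynomial.X i)) ∈ I ^ j ∧
          E (toP (MvPolynomial.X i)) = 0 := by
        fin_cases i
        · simp [hE, toP, base2, dPhi_varPhi, dPsi_varPhi, hα]
          exact ea
        · simp [hE, toP, base2, dPhi_varPsi, dPsi_varPsi, hβ]
          exact eb
      rw [map_mul]
      set g := toP (MvPolynomial.X i)
      refine ⟨?_, ?_⟩
      · convert add_mem ((I ^ j).mul_mem_right (φ' g) hp.1) ((I ^ j).mul_mem_left (φ (toP p)) hx.1)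
          using 1
        simp only [map_mul]; ring
      · have h2 := hx.2
        simp only [hE] at h2
        convert add_mem ((I ^ (2 * j)).mul_mem_right (φ g) hp.2) (hjj (Ideal.mul_mem_mul hp.1 hx.1))
          using 1
        simp only [hE, map_mul, dPhi_mul, dPsi_mul, map_add]
        linear_combination (φ (toP p)) * h2
  have ha' : φ' varPhi ∈ I := by
    rw [← sub_add_cancel (φ' varPhi) (φ varPhi)]; exact add_mem (Ideal.pow_le_self (by omega) ea) ha
  have hb' : φ' varPsi ∈ I := by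
    rw [← sub_add_cancel (φ' varPsi) (φ varPsi)]; exact add_mem (Ideal.pow_le_self (by omega) eb) hb
  set r := f - toP (trunc (2 * j + 1) f) with hr
  have hrK : r ∈ mP ^ (2 * j + 1) := sub_trunc_mem _ f
  have r1 := map_mem_pow I φ' ha' hb' hrK
  have r2 := map_mem_pow I φ ha hb hrK
  have r3 := map_mem_pow I φ ha hb (dPhi_mem hrK)
  have r4 := map_mem_pow I φ ha hb (dPsi_mem hrK)
  have hf : f = toP (trunc (2 * j + 1) f) + r := by rw [hr]; ring
  obtain ⟨p1, p2⟩ := hpoly (trunc (2 * j + 1) f)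
  have hle : I ^ (2 * j + 1) ≤ I ^ (2 * j) := Ideal.pow_le_pow_right (by omega)
  constructor
  · rw [hf, map_add, map_add]
    convert add_mem p1 (sub_mem (Ideal.pow_le_pow_right (show j ≤ 2 * j + 1 by omega) r1)
      (Ideal.pow_le_pow_right (show j ≤ 2 * j + 1 by omega) r2)) using 1
    ring
  · rw [hf, dPhi_add, dPsi_add, map_add, map_add, map_add, map_add]
    convert add_mem p2 (sub_mem (sub_mem (sub_mem (hle r1) (hle r2))
      ((I ^ (2 * j)).mul_mem_right α r3)) ((I ^ (2 * j)).mul_mem_right β r4)) using 1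
    simp only [hE]; ring

omit [IsAdicComplete I T] in
/-- Sharper estimate on series of high order. -/
lemma sub_mem_pow_succ (φ φ' : P →ₐ[ℂ] T) (ha : φ varPhi ∈ I) (hb : φ varPsi ∈ I)
    (ea : φ' varPhi - φ varPhi ∈ I ^ 2) (eb : φ' varPsi - φ varPsi ∈ I ^ 2) {l : ℕ} {f : P}
    (hf : f ∈ mP ^ l) : φ' f - φ f ∈ I ^ (l + 1) := by
  have h2 : ∀ g, φ' g - φ g ∈ I ^ 2 := fun g => (taylor I φ φ' ha hb one_le_two ea eb g).1
  induction l generalizing f with
  | zero => exact Ideal.pow_le_pow_right (by omega) (h2 f)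
  | succ l ih =>
    rw [pow_succ'] at hf
    refine Submodule.mul_induction_on hf (fun a ham g hg => ?_) fun u v hu hv => ?_
    · have ha' : φ' varPhi ∈ I := by
        rw [← sub_add_cancel (φ' varPhi) (φ varPhi)]
        exact add_mem (Ideal.pow_le_self two_ne_zero ea) ha
      have hb' : φ' varPsi ∈ I := by
        rw [← sub_add_cancel (φ' varPsi) (φ varPsi)]
        exact add_mem (Ideal.pow_le_self two_ne_zero eb) hb
      rw [map_mul, map_mul, show φ' a * φ' g - φ a * φ g
        = (φ' a - φ a) * φ' g + φ a * (φ' g - φ g) by ring]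
      refine add_mem ?_ ?_
      · rw [show l + 1 + 1 = 2 + l by omega, pow_add]
        exact Ideal.mul_mem_mul (h2 a) (map_mem_pow I φ' ha' hb' hg)
      · rw [pow_succ']
        exact Ideal.mul_mem_mul (by simpa using map_mem_pow I φ ha hb (by simpa using ham : a ∈ mP ^ 1))
          (ih hg)
    · rw [map_add, map_add]
      convert add_mem hu hv using 1
      ring

/-- A derivation along a homomorphism is given by the partial derivatives. -/
lemma derivation_eq (φ : P →ₐ[ℂ] T) (ha : φ varPhi ∈ I) (hb : φ varPsi ∈ I) (D : P →ₗ[ℂ] T)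
    (hD : ∀ f g, D (f * g) = φ f * D g + φ g * D f) (f : P) :
    D f = φ (dPhi f) * D varPhi + φ (dPsi f) * D varPsi := by
  have h1 : D 1 = 0 := by
    have h := hD 1 1
    rw [mul_one, map_one φ, one_mul] at h
    linear_combination -h
  have hpow : ∀ k, ∀ g ∈ mP ^ (k + 1), D g ∈ I ^ k := by
    intro k
    induction k with
    | zero => simp
    | succ k ih =>
      intro g hg
      rw [pow_succ'] at hg
      refine Submodule.mul_induction_on hg (fun a ham g' hg' => ?_) fun u v hu hv => ?_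
      · rw [hD]
        refine add_mem ?_ (Ideal.mul_mem_right _ _ (map_mem_pow I φ ha hb hg'))
        rw [pow_succ']
        exact Ideal.mul_mem_mul
          (by simpa using map_mem_pow I φ ha hb (by simpa using ham : a ∈ mP ^ 1)) (ih _ hg')
      · rw [map_add]; exact add_mem hu hv
  have hpoly : ∀ p, D (toP p) = φ (dPhi (toP p)) * D varPhi + φ (dPsi (toP p)) * D varPsi := by
    intro p
    induction p using MvPolynomial.induction_on with
    | C c =>
      rw [toP, MvPolynomial.aeval_C, dPhi_algebraMap, dPsi_algebraMap, map_zero,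
        Algebra.algebraMap_eq_smul_one, map_smul, h1]
      simp
    | add p q hp hq => simp only [map_add, dPhi_add, dPsi_add, hp, hq]; ring
    | mul_X p i hp =>
      have hx : D (toP (MvPolynomial.X i)) = φ (dPhi (toP (MvPolynomial.X i))) * D varPhi
          + φ (dPsi (toP (MvPolynomial.X i))) * D varPsi := by
        fin_cases i <;> simp [toP, base2, dPhi_varPhi, dPhi_varPsi, dPsi_varPhi, dPsi_varPsi]
      rw [map_mul toP, hD, hp, hx, dPhi_mul, dPsi_mul, map_add φ, map_add φ]
      simp only [map_mul]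
      ring
  refine eq_of_sub_mem I fun k => ?_
  set r := f - toP (trunc (k + 1) f) with hr
  have hrK : r ∈ mP ^ (k + 1) := sub_trunc_mem _ f
  have hf : f = toP (trunc (k + 1) f) + r := by rw [hr]; ring
  have h3 := sub_mem (sub_mem (hpow k r hrK)
      ((I ^ k).mul_mem_right (D varPhi) (map_mem_pow I φ ha hb (dPhi_mem hrK))))
      ((I ^ k).mul_mem_right (D varPsi) (map_mem_pow I φ ha hb (dPsi_mem hrK)))
  rw [hf, map_add, dPhi_add, dPsi_add, map_add, map_add, hpoly]
  convert h3 using 1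
  ring

end Eval

section Free

variable {T : Type} [CommRing T] [Algebra ℂ T] (φ : P →ₐ[ℂ] T) {n : ℕ} (e : Fin n → T)

lemma comb_sub (p q : Fin n → P) : comb φ e (p - q) = comb φ e p - comb φ e q := by
  simp [comb, sub_mul, sum_sub_distrib]

lemma comb_add (p q : Fin n → P) : comb φ e (p + q) = comb φ e p + comb φ e q := by
  simp [comb, add_mul, sum_add_distrib]

lemma mem_map_pow_iff (h : Function.Bijective (comb φ e)) {k : ℕ} (p : Fin n → P) :
    comb φ e p ∈ (mP.map φ) ^ k ↔ ∀ i, p i ∈ mP ^ k := by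
  rw [← Ideal.map_pow]
  refine ⟨fun hp => ?_, fun hp => sum_mem fun i _ =>
    Ideal.mul_mem_right _ _ (Ideal.mem_map_of_mem _ (hp i))⟩
  suffices H : ∀ x ∈ (mP ^ k).map φ, ∃ q : Fin n → P, (∀ i, q i ∈ mP ^ k) ∧ comb φ e q = x by
    obtain ⟨q, hq, hqp⟩ := H _ hp
    rwa [h.1 hqp] at hq
  intro x hx
  refine Submodule.span_induction ?_ ⟨0, fun i => by simp, by simp [comb]⟩ ?_ ?_ hx
  · rintro _ ⟨f, hf, rfl⟩
    obtain ⟨u, hu⟩ := h.2 1
    refine ⟨fun i => f * u i, fun i => Ideal.mul_mem_right _ _ hf, ?_⟩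
    rw [← mul_one (φ f), ← hu, comb, comb, mul_sum]
    simp [mul_assoc]
  · rintro a b _ _ ⟨q, hq, rfl⟩ ⟨q', hq', rfl⟩
    exact ⟨q + q', fun i => add_mem (hq i) (hq' i), comb_add φ e q q'⟩
  · rintro c a _ ⟨q, hq, rfl⟩
    choose u hu using fun i => h.2 (c * e i)
    refine ⟨fun m => ∑ i, q i * u i m, fun m => sum_mem fun i _ => Ideal.mul_mem_right _ _ (hq i), ?_⟩
    rw [smul_eq_mul]
    simp only [comb, map_sum, map_mul, sum_mul, mul_sum]
    rw [sum_comm]
    refine sum_congr rfl fun i _ => ?_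
    rw [show c * (φ (q i) * e i) = φ (q i) * (c * e i) by ring, ← hu i, comb, mul_sum]
    exact sum_congr rfl fun m _ => by ring

/-- A free module over the series is complete. -/
lemma isAdicComplete_map (h : Function.Bijective (comb φ e)) :
    IsAdicComplete (mP.map φ) T where
  haus' x hx := by
    obtain ⟨p, rfl⟩ := h.2 x
    have hp : ∀ k i, p i ∈ mP ^ k := fun k => (mem_map_pow_iff φ e h p).1 (by
      have := mem_smul_top_iff.1 (SModEq.sub_mem.1 (hx k))
      rwa [sub_zero] at this)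
    rw [show p = 0 from funext fun i => eq_of_sub_mem mP fun k => by
      simpa using hp k i]
    simp [comb]
  prec' f hf := by
    choose p hp using fun k => h.2 (f k)
    have hc : ∀ i m k, m ≤ k → p k i - p m i ∈ mP ^ m := fun i m k hmk => by
      have h1 := mem_smul_top_iff.1 (SModEq.sub_mem.1 (hf hmk).symm)
      rw [← hp, ← hp, ← comb_sub] at h1
      exact (mem_map_pow_iff φ e h _).1 h1 i
    choose L hL using fun i => exists_limit mP (fun k => p k i) (hc i)
    refine ⟨comb φ e L, fun k => (SModEq.sub_mem.2 (mem_smul_top_iff.2 ?_)).symm⟩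
    rw [← hp, ← comb_sub]
    exact (mem_map_pow_iff φ e h _).2 fun i => hL i k

end Free

variable {R : Type} [CommRing R] [Algebra ℂ R] [IsLocalRing R] {N : ℕ} (χ : Chart R N)

lemma Chart.J_le : χ.J ≤ IsLocalRing.maximalIdeal R := by
  rw [Chart.J, mP, Ideal.map_span, Ideal.span_le]
  rintro x ⟨y, rfl | rfl, rfl⟩
  exacts [χ.mem_phi, χ.mem_psi]

lemma Chart.phi_mem_J : χ.phi varPhi ∈ χ.J ∧ χ.phi varPsi ∈ χ.J :=
  ⟨Ideal.mem_map_of_mem _ varPhi_mem, Ideal.mem_map_of_mem _ varPsi_mem⟩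

lemma Chart.mem_J_pow {k : ℕ} (p : Fin (N + 1) → P) :
    comb χ.phi χ.e p ∈ χ.J ^ k ↔ ∀ i, p i ∈ mP ^ k :=
  mem_map_pow_iff χ.phi χ.e χ.bij p

lemma Chart.complete : IsAdicComplete χ.J R :=
  isAdicComplete_map χ.phi χ.e χ.bij

end Vale.Agent.P266.Alg
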